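import Crest.Agent.R121.Base

/-! # Row 121: from averaging theorems for single maps to coboundaries. -/

set_option autoImplicit false

open scoped InnerProductSpace Topology
open Filter Crest.Agent.Lib.Tracial Crest.OpAlg

noncomputable section

namespace Crest.Agent.R121

universe u

section
variable {A : Type u} [CStarAlgebra A]

lemma assemble_merge_zero {n : ℕ} (y : A) (a : Fin (n + 1) → A) :
    mergeArgs (0 : Fin (n + 1)) (Fin.cons y a : Fin (n + 2) → A) =
      Fin.cons (y * a 0) (fun i => a i.succ) := by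
  funext i
  induction i using Fin.cases with
  | zero => simp [mergeArgs]
  | succ i => simp [mergeArgs]

lemma assemble_merge_succ {n : ℕ} (j : Fin n) (y : A) (a : Fin (n + 1) → A) :
    mergeArgs j.succ (Fin.cons y a : Fin (n + 2) → A) = Fin.cons y (mergeArgs j a) := by
  funext i
  induction i using Fin.cases with
  | zero => simp [mergeArgs]
  | succ i => simp [mergeArgs, ← Fin.succ_castSucc]

lemma assemble_init {n : ℕ} (y : A) (a : Fin (n + 1) → A) :
    (fun i : Fin (n + 1) => (Fin.cons y a : Fin (n + 2) → A) i.castSucc) =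
      Fin.cons y (fun i => a i.castSucc) := by
  funext i
  induction i using Fin.cases with
  | zero => simp
  | succ i => simp [← Fin.succ_castSucc]

lemma assemble_cocycle {n : ℕ} (f : (Fin (n + 1) → A) → A)
    (hf : ∀ a : Fin (n + 2) → A, hochschildDiff f a = 0) (y : A) (a : Fin (n + 1) → A) :
    y * f a = f (Fin.cons (y * a 0) (fun i => a i.succ)) +
      ∑ j : Fin n, ((-1 : ℤ) ^ (j.val + 1)) • f (Fin.cons y (mergeArgs j a)) +
      ((-1 : ℤ) ^ (n + 1)) • (f (Fin.cons y (fun i => a i.castSucc)) * a (Fin.last n)) := by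
  have h := hf (Fin.cons y a)
  unfold hochschildDiff at h
  rw [Fin.sum_univ_succ, assemble_merge_zero, assemble_init] at h
  simp only [assemble_merge_succ, Fin.cons_zero, Fin.cons_succ, Fin.val_zero, Fin.val_succ,
    ← Fin.succ_last, pow_succ (-1 : ℤ) (_ + 1), mul_neg_one, neg_smul, Finset.sum_neg_distrib,
    zero_add, pow_one, one_smul] at h
  rw [← sub_eq_zero, ← h]
  abel

end

theorem assemble : AssembleStmt.{u} := by
  intro A _ D S hS Q hQc hQv hQl hQi e he hmin n f hf C hC
  classical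
  let S' : Set (((Fin n → A) → Fl D) → ((Fin n → A) → Fl D)) :=
    {Θ | ∃ θ ∈ S, Θ = fun Φ x => θ (Φ x)}
  let K1 : Set ((Fin n → A) → Fl D) := {Φ | ∀ x, Φ x ∈ Q (C * ∏ i, ‖x i‖)}
  let L : Set ((Fin n → A) → Fl D) := {Φ |
    (∀ x i a b y, Φ (Function.update x i (a + b)) y =
      Φ (Function.update x i a) y + Φ (Function.update x i b) y) ∧
    (∀ x i (t : ℂ) a y, Φ (Function.update x i (t • a)) y = t • Φ (Function.update x i a) y) ∧
    ∀ (y : A) (a : Fin (n + 1) → A), y * f a = Φ (fun i => a i.succ) (y * a 0) +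
      ∑ j : Fin n, ((-1 : ℤ) ^ (j.val + 1)) • Φ (mergeArgs j a) y +
      ((-1 : ℤ) ^ (n + 1)) • (Φ (fun i => a i.castSucc) y * a (Fin.last n))}
  have hw : ∀ x y, WCont D fun Φ : (Fin n → A) → Fl D => Φ x y := fun x y =>
    (wcont_eval y).comp (continuous_apply x)
  have hK1 : IsCompact K1 := by
    have : K1 = Set.pi Set.univ fun x => Q (C * ∏ i, ‖x i‖) := by
      ext Φ
      simp [K1]
    rw [this]
    exact isCompact_univ_pi fun x =>
      (isCompact_linB _).of_isClosed_subset (hQc _) fun c hc => hQl _ c hc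
  have hL : IsClosed L := by
    simp only [L, Set.setOf_and, Set.setOf_forall]
    refine (isClosed_iInter fun x => isClosed_iInter fun i => isClosed_iInter fun a =>
      isClosed_iInter fun b => isClosed_iInter fun y =>
        (hw _ _).isClosed_eq ((hw _ _).add (hw _ _))).inter
      ((isClosed_iInter fun x => isClosed_iInter fun i => isClosed_iInter fun t =>
        isClosed_iInter fun a => isClosed_iInter fun y =>
          (hw _ _).isClosed_eq ((hw _ _).smul t)).inter
      (isClosed_iInter fun y => isClosed_iInter fun a => (WCont.const (D := D) _).isClosed_eq ?_))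
    exact ((hw _ _).add (WCont.sum _ fun j _ => (hw _ _).zsmul _)).add
      (((hw _ _).mul_right _).zsmul _)
  have hgood : Good S' (K1 ∩ L) := by
    refine ⟨⟨fun x y => f (Fin.cons y x), hC, ?_, ?_, ?_⟩, hK1.inter_right hL, ?_, ?_⟩
    · intro x i a b y
      show f (Fin.cons y _) = f (Fin.cons y _) + f (Fin.cons y _)
      simp only [Fin.cons_update]
      exact f.map_update_add _ _ _ _
    · intro x i t a y
      show f (Fin.cons y _) = t • f (Fin.cons y _)
      simp only [Fin.cons_update]
      exact f.map_update_smul _ _ _ _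
    · exact assemble_cocycle f hf
    · refine Convex.inter (fun Φ hΦ Ψ hΨ s t hs ht hst x => hQv _ (hΦ x) (hΨ x) hs ht hst) ?_
      rintro Φ ⟨h1, h2, h3⟩ Ψ ⟨h1', h2', h3'⟩ s t _ _ hst
      refine ⟨fun x i a b y => ?_, fun x i r a y => ?_, fun y a => ?_⟩
      · simp only [Pi.add_apply, Pi.smul_apply, Fl.add_apply, Fl.smul_apply, h1, h1', smul_add]
        abel
      · simp only [Pi.add_apply, Pi.smul_apply, Fl.add_apply, Fl.smul_apply, h2, h2', smul_add]
        rw [smul_comm s r, smul_comm t r]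
      · calc y * f a = s • (y * f a) + t • (y * f a) := by rw [← add_smul, hst, one_smul]
          _ = _ := by
            conv_lhs => rw [h3' y a]; arg 1; rw [← h3' y a, h3 y a]
            simp only [Pi.add_apply, Pi.smul_apply, Fl.add_apply, Fl.smul_apply, smul_add,
              Finset.sum_add_distrib, Finset.smul_sum, add_mul, smul_mul_assoc,
              smul_comm s (_ : ℤ), smul_comm t (_ : ℤ)]
            abel
    · rintro _ ⟨θ, hθ, rfl⟩ Φ ⟨hΦ, h1, h2, h3⟩
      refine ⟨fun x => hQi _ θ hθ _ (hΦ x), ?_⟩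
      obtain ⟨ι, _, m, hm, rfl⟩ := hS hθ
      refine ⟨fun x i a b y => ?_, fun x i r a y => ?_, fun y a => ?_⟩
      · simp only [cact_apply, h1, mul_add, Finset.sum_add_distrib]
      · simp only [cact_apply, h2, mul_smul_comm, Finset.smul_sum]
      · calc y * f a = ∑ k, star (m k) * (m k * y * f a) := by
              simp only [← mul_assoc, ← Finset.sum_mul, hm, one_mul]
          _ = _ := by
            simp only [h3, cact_apply, mul_add, Finset.sum_add_distrib, Finset.mul_sum,
              mul_smul_comm, Finset.smul_sum, Finset.sum_mul, mul_assoc]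
            rw [Finset.sum_comm]
  obtain ⟨K, hKs, hK⟩ := hgood.exists_min
  obtain ⟨Φ, hΦK⟩ := hK.ne
  obtain ⟨hΦ, h1, h2, h3⟩ := hKs hΦK
  have hmod : ∀ x a y, e * (Φ x (a * y) - a * Φ x y) = 0 := by
    intro x
    have him : IsMin S ((fun Ψ : (Fin n → A) → Fl D => Ψ x) '' K) :=
      hK.image _ (continuous_apply x) ⟨fun _ _ => rfl, fun _ _ => rfl⟩
        (fun θ hθ => ⟨_, ⟨θ, hθ, rfl⟩, fun _ => rfl⟩)
        (by rintro _ ⟨θ, hθ, rfl⟩; exact ⟨θ, hθ, fun _ => rfl⟩)
    refine hmin (C * ∏ i, ‖x i‖) _ him ?_ _ ⟨Φ, hΦK, rfl⟩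
    rintro _ ⟨Ψ, hΨ, rfl⟩
    exact (hKs hΨ).1 x
  let g0 : MultilinearMap ℂ (fun _ : Fin n => A) A :=
    { toFun := fun x => e * Φ x 1
      map_update_add' := by
        intro inst x i a b
        obtain rfl : inst = instDecidableEqFin n := Subsingleton.elim _ _
        rw [h1, mul_add]
      map_update_smul' := by
        intro inst x i t a
        obtain rfl : inst = instDecidableEqFin n := Subsingleton.elim _ _
        rw [h2, mul_smul_comm] }
  refine ⟨g0.mkContinuous (‖e‖ * C * ‖(1 : A)‖) fun x => ?_, fun a => ?_⟩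
  · calc ‖e * Φ x 1‖ ≤ ‖e‖ * ‖Φ x 1‖ := norm_mul_le _ _
      _ ≤ ‖e‖ * ((C * ∏ i, ‖x i‖) * ‖(1 : A)‖) := by
          gcongr
          exact (hQl _ _ (hΦ x)).bd 1
      _ = _ := by ring
  · have h4 := hmod (fun i => a i.succ) (a 0) 1
    rw [mul_sub, sub_eq_zero, mul_one] at h4
    have h5 := h3 1 a
    rw [one_mul, one_mul] at h5
    unfold hochschildDiff
    change a 0 * (e * Φ _ 1) + (∑ j : Fin n, ((-1 : ℤ) ^ (j.val + 1)) • (e * Φ _ 1)) +
      ((-1 : ℤ) ^ (n + 1)) • (e * Φ _ 1 * a (Fin.last n)) = _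
    rw [h5, mul_add, mul_add, h4, Finset.mul_sum, ← mul_assoc, ← he, mul_assoc]
    simp only [mul_smul_comm, mul_assoc]

end Crest.Agent.R121
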