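import Crest.Agent.R121.Defs

/-! # Row 121: basic facts on minimal sets and on the flow space `Fl D`. -/

set_option autoImplicit false

open scoped InnerProductSpace Topology
open Filter Crest.Agent.Lib.Tracial

noncomputable section

namespace Crest.Agent.R121

universe u

section Flow
variable {X : Type*} [AddCommGroup X] [Module ℝ X] [TopologicalSpace X]

lemma Good.inter {S : Set (X → X)} {K L : Set X} (hK : Good S K) (hL : IsClosed L)
    (hc : Convex ℝ L) (hne : (K ∩ L).Nonempty) (hi : ∀ θ ∈ S, ∀ c ∈ K, c ∈ L → θ c ∈ L) :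
    Good S (K ∩ L) :=
  ⟨hne, hK.cpt.inter_right hL, hK.cvx.inter hc,
    fun θ hθ c hc => ⟨hK.inv θ hθ c hc.1, hi θ hθ c hc.1 hc.2⟩⟩

lemma Good.mono {S S' : Set (X → X)} {K : Set X} (hK : Good S K) (h : S' ⊆ S) : Good S' K :=
  ⟨hK.ne, hK.cpt, hK.cvx, fun θ hθ => hK.inv θ (h hθ)⟩

/-- Existence of minimal sets. -/
theorem Good.exists_min [T2Space X] {S : Set (X → X)} {K : Set X} (hK : Good S K) :
    ∃ K' ⊆ K, IsMin S K' := by
  have hz := zorn_superset_nonempty {L : Set X | Good S L} (fun c hc hch hne => by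
    refine ⟨⋂₀ c, ⟨?_, ?_, ?_, ?_⟩, fun s hs => Set.sInter_subset_of_mem hs⟩
    · have : Nonempty c := hne.to_subtype
      refine IsCompact.nonempty_sInter_of_directed_nonempty_isCompact_isClosed ?_
        (fun L hL => (hc hL).ne) (fun L hL => (hc hL).cpt) (fun L hL => (hc hL).cpt.isClosed)
      intro a ha b hb
      rcases hch.total ha hb with h | h
      · exact ⟨a, ha, le_rfl, h⟩
      · exact ⟨b, hb, h, le_rfl⟩
    · obtain ⟨L, hL⟩ := hne
      exact (hc hL).cpt.of_isClosed_subset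
        (isClosed_sInter fun L' hL' => (hc hL').cpt.isClosed) (Set.sInter_subset_of_mem hL)
    · exact convex_sInter fun L hL => (hc hL).cvx
    · intro θ hθ x hx L hL
      exact (hc hL).inv θ hθ x (hx L hL)) K hK
  obtain ⟨m, hmK, hm⟩ := hz
  refine ⟨m, hmK, ⟨hm.prop, fun L hL hc hne hi => ?_⟩⟩
  have h1 : Good S (m ∩ L) := Good.inter hm.prop hL hc hne hi
  have h2 : m ⊆ m ∩ L := hm.le_of_le h1 Set.inter_subset_left
  exact fun x hx => (h2 hx).2

/-- The image of a minimal set under an equivariant continuous linear map is minimal. -/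
theorem IsMin.image {Y : Type*} [AddCommGroup Y] [Module ℝ Y] [TopologicalSpace Y]
    {S : Set (X → X)} {S' : Set (Y → Y)} {K : Set X} (hK : IsMin S K) (p : X → Y)
    (hp : Continuous p) (hl : IsLinearMap ℝ p)
    (h1 : ∀ θ' ∈ S', ∃ θ ∈ S, ∀ c, p (θ c) = θ' (p c))
    (h2 : ∀ θ ∈ S, ∃ θ' ∈ S', ∀ c, p (θ c) = θ' (p c)) : IsMin S' (p '' K) := by
  refine ⟨⟨hK.ne.image p, hK.cpt.image hp, hK.cvx.is_linear_image hl, ?_⟩, ?_⟩
  · rintro θ' hθ' _ ⟨c, hc, rfl⟩
    obtain ⟨θ, hθ, h⟩ := h1 θ' hθ'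
    exact ⟨θ c, hK.inv θ hθ c hc, h c⟩
  · rintro L hL hc ⟨_, ⟨c, hcK, rfl⟩, hcL⟩ hi _ ⟨c', hc', rfl⟩
    refine hK.min (p ⁻¹' L) (hL.preimage hp) (hc.is_linear_preimage hl) ⟨c, hcK, hcL⟩ ?_ hc'
    intro θ hθ x hx hxL
    obtain ⟨θ', hθ', h⟩ := h2 θ hθ
    show p (θ x) ∈ L
    rw [h]
    exact hi θ' hθ' _ ⟨x, hx, rfl⟩ hxL

end Flow

section Alg
variable {A : Type u} [CStarAlgebra A] {D : Pred A}

@[simp] lemma Fl.add_apply (c c' : Fl D) (y : A) : (c + c') y = c y + c' y := rfl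
@[simp] lemma Fl.sub_apply (c c' : Fl D) (y : A) : (c - c') y = c y - c' y := rfl
@[simp] lemma Fl.neg_apply (c : Fl D) (y : A) : (-c) y = -c y := rfl
@[simp] lemma Fl.zero_apply (y : A) : (0 : Fl D) y = 0 := rfl
@[simp] lemma Fl.smul_apply (t : ℝ) (c : Fl D) (y : A) : (t • c) y = t • c y := rfl
lemma Fl.sum_apply {ι : Type*} (s : Finset ι) (c : ι → Fl D) (y : A) :
    (∑ i ∈ s, c i) y = ∑ i ∈ s, c i y := Finset.sum_apply y s c
@[ext] lemma Fl.ext {c c' : Fl D} (h : ∀ y, c y = c' y) : c = c' := funext h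

@[simp] lemma uact_apply (u : A) (c : Fl D) (y : A) : uact u c y = star u * c (u * y) := rfl
@[simp] lemma cact_apply {ι : Type} [Fintype ι] (n : ι → A) (c : Fl D) (y : A) :
    cact n c y = ∑ i, star (n i) * c (n i * y) := rfl

lemma uact_one (c : Fl D) : uact 1 c = c := by ext y; simp

lemma uact_uact (u v : A) (c : Fl D) : uact v (uact u c) = uact (u * v) c := by
  ext y; simp [mul_assoc]

lemma uS_subset_cS {Γ : Set A} (hΓ : Γ ⊆ unitary A) : uS D Γ ⊆ cS D := by
  rintro _ ⟨u, hu, rfl⟩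
  refine ⟨Unit, inferInstance, fun _ => u, ?_, ?_⟩
  · simpa using (Unitary.mem_iff.1 (hΓ hu)).1
  · funext c; ext y; simp

/-- Weakly continuous `A`-valued functions. -/
def WCont (D : Pred A) {Z : Type*} [TopologicalSpace Z] (F : Z → A) : Prop :=
  ∀ ω ∈ D.Ω, Continuous fun z => ω (F z)

section WC
variable {Z : Type*} [TopologicalSpace Z] {F G : Z → A}

lemma WCont.const (a : A) : WCont D (fun _ : Z => a) := fun _ _ => continuous_const

lemma WCont.add (hF : WCont D F) (hG : WCont D G) : WCont D (fun z => F z + G z) :=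
  fun ω hω => by simp only [map_add]; exact (hF ω hω).add (hG ω hω)

lemma WCont.sub (hF : WCont D F) (hG : WCont D G) : WCont D (fun z => F z - G z) :=
  fun ω hω => by simp only [map_sub]; exact (hF ω hω).sub (hG ω hω)

lemma WCont.neg (hF : WCont D F) : WCont D (fun z => -F z) :=
  fun ω hω => by simp only [map_neg]; exact (hF ω hω).neg

lemma WCont.smul (t : ℂ) (hF : WCont D F) : WCont D (fun z => t • F z) :=
  fun ω hω => by simp only [map_smul]; exact (hF ω hω).const_smul t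

lemma WCont.rsmul (t : ℝ) (hF : WCont D F) : WCont D (fun z => t • F z) := by
  simpa only [Complex.coe_smul] using hF.smul (t : ℂ)

lemma WCont.zsmul (t : ℤ) (hF : WCont D F) : WCont D (fun z => t • F z) :=
  fun ω hω => by simp only [map_zsmul]; exact (hF ω hω).const_smul t

lemma WCont.mul_left (a : A) (hF : WCont D F) : WCont D (fun z => a * F z) := fun ω hω => by
  obtain ⟨ω', h1, h2⟩ := D.mulL ω hω a
  simpa only [h2] using hF ω' h1

lemma WCont.mul_right (hF : WCont D F) (a : A) : WCont D (fun z => F z * a) := fun ω hω => by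
  obtain ⟨ω', h1, h2⟩ := D.mulR ω hω a
  simpa only [h2] using hF ω' h1

lemma WCont.sum {ι : Type*} (s : Finset ι) {F : ι → Z → A} (hF : ∀ i ∈ s, WCont D (F i)) :
    WCont D (fun z => ∑ i ∈ s, F i z) := fun ω hω => by
  simp only [map_sum]
  exact continuous_finsetSum s fun i hi => hF i hi ω hω

lemma WCont.comp {Z' : Type*} [TopologicalSpace Z'] (hF : WCont D F) {g : Z' → Z}
    (hg : Continuous g) : WCont D (fun z => F (g z)) := fun ω hω => (hF ω hω).comp hg

lemma WCont.isClosed_eq (hF : WCont D F) (hG : WCont D G) : IsClosed {z | F z = G z} := by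
  have : {z | F z = G z} = ⋂ ω ∈ D.Ω, {z | ω (F z) = ω (G z)} := by
    ext z
    simp only [Set.mem_ofPred_eq, Set.mem_iInter]
    refine ⟨fun h ω _ => by rw [h], fun h => sub_eq_zero.1 (D.sep _ fun ω hω => ?_)⟩
    rw [map_sub, h ω hω, sub_self]
  rw [this]
  exact isClosed_biInter fun ω hω => _root_.isClosed_eq (hF ω hω) (hG ω hω)

lemma WCont.isClosed_norm_le (hF : WCont D F) (r : ℝ) : IsClosed {z | ‖F z‖ ≤ r} := by
  refine isClosed_iff_ultrafilter.2 fun z U hU hmem => ?_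
  obtain ⟨x, hx, hl⟩ := D.cpt (U.map F) r hmem
  have : x = F z := by
    refine sub_eq_zero.1 (D.sep _ fun ω hω => ?_)
    have h1 : Tendsto (fun z => ω (F z)) (U : Filter Z) (𝓝 (ω (F z))) :=
      ((hF ω hω).tendsto z).mono_left hU
    have h2 : Tendsto (fun z => ω (F z)) (U : Filter Z) (𝓝 (ω x)) := hl ω hω
    rw [map_sub, tendsto_nhds_unique h2 h1, sub_self]
  show ‖F z‖ ≤ r
  rwa [← this]

lemma WCont.continuous_tr {τ : TrState A} (hτ : τ.clm ∈ D.Ω) (hF : WCont D F) :
    Continuous fun z => τ (F z) := hF _ hτ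

lemma WCont.isClosed_n2_le {τ : TrState A} (hτ : τ.clm ∈ D.Ω) (hF : WCont D F) (r : ℝ) :
    IsClosed {z | τ.n2 (F z) ≤ r} := by
  by_cases hr : r < 0
  · have : {z | τ.n2 (F z) ≤ r} = ∅ :=
      Set.eq_empty_of_forall_notMem fun z hz => absurd (τ.n2_nonneg (F z)) (by
        have : τ.n2 (F z) ≤ r := hz
        linarith)
    rw [this]; exact isClosed_empty
  push Not at hr
  have : {z | τ.n2 (F z) ≤ r} = ⋂ a : A, {z | ‖τ (star a * F z)‖ ≤ τ.n2 a * r} := by
    ext z
    simp only [Set.mem_ofPred_eq, Set.mem_iInter]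
    refine ⟨fun h a => (τ.norm_tr_star_mul_le _ _).trans (by gcongr; exact τ.n2_nonneg _),
      fun h => ?_⟩
    have h1 := h (F z)
    rw [← τ.n2_sq_complex, norm_pow, Complex.norm_real, Real.norm_of_nonneg (τ.n2_nonneg _)] at h1
    by_contra hc
    push Not at hc
    nlinarith [τ.n2_nonneg (F z)]
  rw [this]
  exact isClosed_iInter fun a =>
    isClosed_le ((hF.mul_left (star a)).continuous_tr hτ).norm continuous_const

end WC

lemma wcont_eval (y : A) : WCont D (fun c : Fl D => c y) := fun ω hω =>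
  (continuous_apply ((y, ⟨ω, hω⟩) : A × D.Ω)).comp (continuous_induced_dom
    (f := fun (c : Fl D) (p : A × D.Ω) => (p.2 : A →L[ℂ] ℂ) (c p.1)))

lemma continuous_fl_iff {Z : Type*} [TopologicalSpace Z] {F : Z → Fl D} :
    Continuous F ↔ ∀ y, WCont D (fun z => F z y) := by
  refine ⟨fun h y => (wcont_eval y).comp h, fun h => ?_⟩
  exact continuous_induced_rng.2 (continuous_pi fun p => h p.1 p.2 p.2.2)

lemma tendsto_fl_iff {Z : Type*} {l : Filter Z} {F : Z → Fl D} {c : Fl D} :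
    Tendsto F l (𝓝 c) ↔ ∀ y, ∀ ω ∈ D.Ω, Tendsto (fun z => ω (F z y)) l (𝓝 (ω (c y))) := by
  rw [nhds_induced, tendsto_comap_iff, tendsto_pi_nhds]
  exact ⟨fun h y ω hω => h (y, ⟨ω, hω⟩), fun h p => h p.1 p.2 p.2.2⟩

instance : IsTopologicalAddGroup (Fl D) where
  continuous_add := continuous_fl_iff.2 fun y =>
    ((wcont_eval y).comp continuous_fst).add ((wcont_eval y).comp continuous_snd)
  continuous_neg := continuous_fl_iff.2 fun y => (wcont_eval y).neg

instance : ContinuousSMul ℝ (Fl D) where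
  continuous_smul := continuous_fl_iff.2 fun y ω hω => by
    have : (fun z : ℝ × Fl D => ω ((z.1 • z.2) y)) = fun z => (z.1 : ℂ) * ω (z.2 y) := by
      funext z
      rw [Fl.smul_apply, ← Complex.coe_smul, map_smul, smul_eq_mul]
    rw [this]
    exact (Complex.continuous_ofReal.comp continuous_fst).mul
      ((wcont_eval y ω hω).comp continuous_snd)

instance : T2Space (Fl D) := by
  refine (Topology.IsEmbedding.mk (f := fun (c : Fl D) (p : A × D.Ω) =>
    (p.2 : A →L[ℂ] ℂ) (c p.1)) ⟨rfl⟩ ?_).t2Space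
  intro c c' h
  ext y
  refine sub_eq_zero.1 (D.sep _ fun ω hω => ?_)
  rw [map_sub, sub_eq_zero]
  exact congrFun h (y, ⟨ω, hω⟩)

lemma isCompact_bd (ρ : A → ℝ) : IsCompact {c : Fl D | ∀ y, ‖c y‖ ≤ ρ y} := by
  refine isCompact_iff_ultrafilter_le_nhds.2 fun U hU => ?_
  have h : ∀ y, ∃ x : A, ‖x‖ ≤ ρ y ∧ ∀ ω ∈ D.Ω,
      Tendsto ω ((U.map fun c : Fl D => c y : Ultrafilter A) : Filter A) (𝓝 (ω x)) := fun y =>
    D.cpt _ _ (by
      have : ∀ᶠ c in (U : Filter (Fl D)), ∀ y, ‖c y‖ ≤ ρ y := le_principal_iff.1 hU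
      exact this.mono fun c hc => hc y)
  choose x hx hl using h
  exact ⟨x, hx, (tendsto_fl_iff (F := id) (c := x)).2 fun y ω hω => hl y ω hω⟩

lemma isClosed_lin : IsClosed {c : Fl D | IsLinearMap ℂ (c : A → A)} := by
  have : {c : Fl D | IsLinearMap ℂ (c : A → A)} =
      (⋂ x, ⋂ y, {c : Fl D | c (x + y) = c x + c y}) ∩
        ⋂ t : ℂ, ⋂ x, {c : Fl D | c (t • x) = t • c x} := by
    ext c
    simp only [Set.mem_ofPred_eq, Set.mem_inter_iff, Set.mem_iInter]
    exact ⟨fun h => ⟨h.1, h.2⟩, fun h => ⟨h.1, h.2⟩⟩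
  rw [this]
  exact (isClosed_iInter fun x => isClosed_iInter fun y =>
    (wcont_eval _).isClosed_eq ((wcont_eval _).add (wcont_eval _))).inter
    (isClosed_iInter fun t => isClosed_iInter fun x =>
      (wcont_eval _).isClosed_eq ((wcont_eval _).smul t))

lemma isCompact_linB (r : ℝ) : IsCompact {c : Fl D | LinB r (c : A → A)} := by
  have : {c : Fl D | LinB r (c : A → A)} =
      {c : Fl D | ∀ y, ‖c y‖ ≤ r * ‖y‖} ∩ {c : Fl D | IsLinearMap ℂ (c : A → A)} := by
    ext c; exact ⟨fun h => ⟨h.2, h.1⟩, fun h => ⟨h.2, h.1⟩⟩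
  rw [this]
  exact (isCompact_bd _).inter_right isClosed_lin

lemma isClosed_linB (r : ℝ) : IsClosed {c : Fl D | LinB r (c : A → A)} :=
  (isCompact_linB r).isClosed

lemma convex_lin : Convex ℝ {c : Fl D | IsLinearMap ℂ (c : A → A)} := by
  intro c hc c' hc' s t _ _ _
  have hc : IsLinearMap ℂ (c : A → A) := hc
  have hc' : IsLinearMap ℂ (c' : A → A) := hc'
  refine ⟨fun x y => ?_, fun a x => ?_⟩
  · simp only [Fl.add_apply, Fl.smul_apply, hc.map_add, hc'.map_add, smul_add]; abel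
  · simp only [Fl.add_apply, Fl.smul_apply, hc.map_smul, hc'.map_smul, smul_add]
    rw [smul_comm s a, smul_comm t a]

lemma convex_linB (r : ℝ) : Convex ℝ {c : Fl D | LinB r (c : A → A)} := by
  intro c hc c' hc' s t hs ht hst
  refine ⟨convex_lin hc.1 hc'.1 hs ht hst, fun y => ?_⟩
  calc ‖s • c y + t • c' y‖ ≤ s * ‖c y‖ + t * ‖c' y‖ := by
        refine (norm_add_le _ _).trans ?_
        rw [norm_smul, norm_smul, Real.norm_of_nonneg hs, Real.norm_of_nonneg ht]
    _ ≤ s * (r * ‖y‖) + t * (r * ‖y‖) := by gcongr; exacts [hc.2 y, hc'.2 y]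
    _ = r * ‖y‖ := by rw [← add_mul, hst, one_mul]

lemma isClosed_modu {I : Type} (e : I → I → A) : IsClosed {c : Fl D | Modu e (c : A → A)} := by
  have : {c : Fl D | Modu e (c : A → A)} =
      ⋂ i, ⋂ j, ⋂ y, {c : Fl D | c (e i j * y) = e i j * c y} := by
    ext c; simp only [Set.mem_ofPred_eq, Set.mem_iInter]; rfl
  rw [this]
  exact isClosed_iInter fun i => isClosed_iInter fun j => isClosed_iInter fun y =>
    (wcont_eval _).isClosed_eq ((wcont_eval _).mul_left _)

lemma convex_modu {I : Type} (e : I → I → A) : Convex ℝ {c : Fl D | Modu e (c : A → A)} := by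
  intro c hc c' hc' s t _ _ _ i j y
  simp only [Fl.add_apply, Fl.smul_apply, hc i j y, hc' i j y, mul_add, mul_smul_comm]

lemma Modu.uact {I : Type} {e : I → I → A} {c : Fl D} (hc : Modu e (c : A → A)) {u : A}
    (hu : u ∈ comU e) : Modu e (uact u c : A → A) := by
  intro i j y
  have h1 : star u * e i j = e i j * star u := by
    have h := Unitary.mem_iff.1 hu.1
    calc star u * e i j = star u * e i j * (u * star u) := by rw [h.2, mul_one]
      _ = star u * (u * e i j) * star u := by rw [hu.2]; simp only [mul_assoc]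
      _ = e i j * star u := by rw [← mul_assoc, h.1, one_mul]
  simp only [uact_apply]
  rw [← mul_assoc u, hu.2, mul_assoc, hc, ← mul_assoc, h1, mul_assoc]

lemma continuous_uact (u : A) : Continuous (uact u : Fl D → Fl D) :=
  continuous_fl_iff.2 fun _ => (wcont_eval _).mul_left _

lemma continuous_cact {ι : Type} [Fintype ι] (n : ι → A) : Continuous (cact n : Fl D → Fl D) :=
  continuous_fl_iff.2 fun _ => WCont.sum _ fun _ _ => (wcont_eval _).mul_left _

lemma isLinearMap_uact (u : A) : IsLinearMap ℝ (uact u : Fl D → Fl D) :=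
  ⟨fun c c' => by ext y; simp [mul_add], fun t c => by ext y; simp⟩

lemma isLinearMap_cact {ι : Type} [Fintype ι] (n : ι → A) :
    IsLinearMap ℝ (cact n : Fl D → Fl D) :=
  ⟨fun c c' => by ext y; simp [mul_add, Finset.sum_add_distrib],
    fun t c => by ext y; simp [Finset.smul_sum]⟩

lemma IsLinearMap.uact {c : Fl D} (hc : IsLinearMap ℂ (c : A → A)) (u : A) :
    IsLinearMap ℂ (uact u c : A → A) :=
  ⟨fun x y => by simp [mul_add, hc.map_add], fun t x => by simp [hc.map_smul]⟩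

lemma IsLinearMap.cact {ι : Type} [Fintype ι] {c : Fl D} (hc : IsLinearMap ℂ (c : A → A))
    (n : ι → A) : IsLinearMap ℂ (cact n c : A → A) :=
  ⟨fun x y => by simp [mul_add, hc.map_add, Finset.sum_add_distrib],
    fun t x => by simp [hc.map_smul, Finset.smul_sum]⟩

lemma LinB.uact {r : ℝ} {c : Fl D} (hc : LinB r (c : A → A)) {u : A} (hu : u ∈ unitary A) :
    LinB r (uact u c : A → A) := by
  refine ⟨IsLinearMap.uact hc.1 u, fun y => ?_⟩
  rw [uact_apply, CStarRing.norm_mem_unitary_mul _ (Unitary.star_mem hu)]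
  simpa only [CStarRing.norm_mem_unitary_mul _ hu] using hc.2 (u * y)

lemma one_mem_comU {I : Type} (e : I → I → A) : (1 : A) ∈ comU e :=
  ⟨one_mem _, fun _ _ => by rw [one_mul, mul_one]⟩

lemma mul_mem_comU {I : Type} {e : I → I → A} {u v : A} (hu : u ∈ comU e) (hv : v ∈ comU e) :
    u * v ∈ comU e :=
  ⟨mul_mem hu.1 hv.1, fun i j => by rw [mul_assoc, hv.2, ← mul_assoc, hu.2, mul_assoc]⟩

lemma star_mem_comU {I : Type} {e : I → I → A} {u : A} (hu : u ∈ comU e) : star u ∈ comU e := by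
  refine ⟨Unitary.star_mem hu.1, fun i j => ?_⟩
  have h := Unitary.mem_iff.1 hu.1
  calc star u * e i j = star u * e i j * (u * star u) := by rw [h.2, mul_one]
    _ = star u * (u * e i j) * star u := by rw [hu.2]; simp only [mul_assoc]
    _ = e i j * star u := by rw [← mul_assoc, h.1, one_mul]

/-- Orbit lemma: a closed convex set containing one orbit contains the minimal set. -/
theorem IsMin.subset_of_orbit {Γ : Set A} {K : Set (Fl D)} (hK : IsMin (uS D Γ) K)
    (h1 : (1 : A) ∈ Γ) (hm : ∀ u ∈ Γ, ∀ v ∈ Γ, u * v ∈ Γ) {c : Fl D} (hc : c ∈ K)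
    {L : Set (Fl D)} (hL : IsClosed L) (hcv : Convex ℝ L) (ho : ∀ u ∈ Γ, uact u c ∈ L) :
    K ⊆ L := by
  have h := hK.min (⋂ u ∈ Γ, uact u ⁻¹' L)
    (isClosed_biInter fun u _ => hL.preimage (continuous_uact u))
    (convex_iInter₂ fun u _ => hcv.is_linear_preimage (isLinearMap_uact u))
    ⟨c, hc, Set.mem_iInter₂.2 ho⟩ (by
      rintro _ ⟨v, hv, rfl⟩ x _ hx
      refine Set.mem_iInter₂.2 fun u hu => ?_
      show uact u (uact v x) ∈ L
      rw [uact_uact]
      exact Set.mem_iInter₂.1 hx _ (hm v hv u hu))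
  intro x hx
  have := Set.mem_iInter₂.1 (h hx) 1 h1
  rwa [Set.mem_preimage, uact_one] at this

lemma Good.uact_mem {Γ : Set A} {K : Set (Fl D)} (hK : Good (uS D Γ) K) {u : A} (hu : u ∈ Γ)
    {c : Fl D} (hc : c ∈ K) : uact u c ∈ K := hK.inv _ ⟨u, hu, rfl⟩ c hc

end Alg

end Crest.Agent.R121
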