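import Crest.Agent.R121.CSAux

/-! # Row 121: the Christensen–Sinclair averaging theorem. -/

set_option autoImplicit false

open scoped InnerProductSpace Topology
open Filter

noncomputable section

namespace Crest.Agent.R121

universe u

section VN
variable {H : Type u} [NormedAddCommGroup H] [InnerProductSpace ℂ H] [CompleteSpace H]
  {M : VonNeumannAlgebra H}

/-- The real pairing `re ⟪ξ, c(X) η⟫`. -/
def csB (c : Alg M → Alg M) {I J : Type} [Fintype I] [Fintype J] (ξ : I → H)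
    (X : I → J → Alg M) (η : J → H) : ℝ :=
  ∑ i, ∑ j, (⟪ξ i, (c (X i j) : H →L[ℂ] H) (η j)⟫_ℂ).re

/-- Squared norm of a tuple of vectors. -/
def csN {I : Type} [Fintype I] (ξ : I → H) : ℝ := ∑ i, ‖ξ i‖ ^ 2

/-- Squared norm of `X η`. -/
def csC {I J : Type} [Fintype I] [Fintype J] (X : I → J → Alg M) (η : J → H) : ℝ :=
  ∑ i, ‖∑ j, (X i j : H →L[ℂ] H) (η j)‖ ^ 2

/-- Complete boundedness tested on vectors in `W`. -/
def csP (W : Set H) (c : Alg M → Alg M) (t : ℝ) : Prop :=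
  ∀ (I J : Type) [Fintype I] [Fintype J] (X : I → J → Alg M), (∀ η, csC X η ≤ csN η) →
    ∀ ξ : I → H, (∀ i, ξ i ∈ W) → ∀ η, 2 * csB c ξ X η ≤ t * csN ξ + csN η

/-- Joint complete boundedness. -/
def csP2 (W : Set H) (c₁ c₂ : Alg M → Alg M) (t : ℝ) : Prop :=
  ∀ (I₁ I₂ J : Type) [Fintype I₁] [Fintype I₂] [Fintype J] (X₁ : I₁ → J → Alg M)
    (X₂ : I₂ → J → Alg M), (∀ η, csC X₁ η + csC X₂ η ≤ csN η) →
    ∀ (ξ₁ : I₁ → H) (ξ₂ : I₂ → H), (∀ i, ξ₁ i ∈ W) → (∀ i, ξ₂ i ∈ W) → ∀ η,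
      2 * (csB c₁ ξ₁ X₁ η + csB c₂ ξ₂ X₂ η) ≤ t * (csN ξ₁ + csN ξ₂) + csN η

theorem csP2_symm {W : Set H} {c₁ c₂ : Alg M → Alg M} {t : ℝ} (h : csP2 W c₁ c₂ t) :
    csP2 W c₂ c₁ t := by
  intro I₁ I₂ J _ _ _ X₁ X₂ hX ξ₁ ξ₂ h₁ h₂ η
  have := h I₂ I₁ J X₂ X₁ (fun η => by rw [add_comm]; exact hX η) ξ₂ ξ₁ h₂ h₁ η
  linarith

theorem cs_mul_apply (x y : Alg M) (ξ : H) :
    ((x * y : Alg M) : H →L[ℂ] H) ξ = (x : H →L[ℂ] H) ((y : H →L[ℂ] H) ξ) := rfl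

theorem cs_smul_apply (a : ℂ) (x : Alg M) (ξ : H) :
    ((a • x : Alg M) : H →L[ℂ] H) ξ = a • (x : H →L[ℂ] H) ξ := rfl

variable {D : Pred (Alg M)}

theorem csB_cact {ι : Type} [Fintype ι] (n : ι → Alg M) (c : Fl D) {I J : Type} [Fintype I]
    [Fintype J] (ξ : I → H) (X : I → J → Alg M) (η : J → H) :
    csB (cact n c) ξ X η = csB c (fun p : I × ι => (n p.2 : H →L[ℂ] H) (ξ p.1))
      (fun p j => n p.2 * X p.1 j) η := by
  unfold csB
  rw [Fintype.sum_prod_type]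
  refine Finset.sum_congr rfl fun i _ => ?_
  rw [Finset.sum_comm]
  refine Finset.sum_congr rfl fun j _ => ?_
  rw [cact_apply, AddSubmonoidClass.coe_finsetSum, sum_apply, inner_sum, Complex.re_sum]
  refine Finset.sum_congr rfl fun k _ => ?_
  rw [cs_mul_apply, cs_inner_star]

theorem csN_col {ι : Type} [Fintype ι] {n : ι → Alg M} (hn : ∑ i, star (n i) * n i = 1)
    {I : Type} [Fintype I] (ξ : I → H) :
    csN (fun p : I × ι => (n p.2 : H →L[ℂ] H) (ξ p.1)) = csN ξ := by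
  unfold csN
  rw [Fintype.sum_prod_type]
  exact Finset.sum_congr rfl fun i _ => cs_col hn (ξ i)

theorem csC_col {ι : Type} [Fintype ι] {n : ι → Alg M} (hn : ∑ i, star (n i) * n i = 1)
    {I J : Type} [Fintype I] [Fintype J] (X : I → J → Alg M) (η : J → H) :
    csC (fun (p : I × ι) j => n p.2 * X p.1 j) η = csC X η := by
  unfold csC
  rw [Fintype.sum_prod_type]
  refine Finset.sum_congr rfl fun i _ => ?_
  simp only [cs_mul_apply, ← map_sum]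
  exact cs_col hn _

theorem csP2_of_csP {W : Set H} {c : Alg M → Alg M} {t : ℝ} (h : csP W c t) : csP2 W c c t := by
  intro I₁ I₂ J _ _ _ X₁ X₂ hX ξ₁ ξ₂ h₁ h₂ η
  have := h (I₁ ⊕ I₂) J (Sum.elim X₁ X₂) (fun η => by simpa [csC] using hX η) (Sum.elim ξ₁ ξ₂)
    (by rintro (i | i); exacts [h₁ i, h₂ i]) η
  simpa [csB, csN] using this

theorem csP2_cact {W : Set H} (hW : ∀ n : Alg M, ∀ ξ ∈ W, (n : H →L[ℂ] H) ξ ∈ W) {c : Fl D}
    {c' : Alg M → Alg M} {t : ℝ} (h : csP2 W c c' t) {θ : Fl D → Fl D} (hθ : θ ∈ cS D) :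
    csP2 W (θ c) c' t := by
  obtain ⟨ι, _, n, hn, rfl⟩ := hθ
  intro I₁ I₂ J _ _ _ X₁ X₂ hX ξ₁ ξ₂ h₁ h₂ η
  have := h (I₁ × ι) I₂ J (fun p j => n p.2 * X₁ p.1 j) X₂
    (fun η => by rw [csC_col hn]; exact hX η) (fun p => (n p.2 : H →L[ℂ] H) (ξ₁ p.1)) ξ₂
    (fun p => hW _ _ (h₁ _)) h₂ η
  rwa [csN_col hn, ← csB_cact] at this

theorem csB_cont (hD : D.Ω = vecSpan M) {I J : Type} [Fintype I] [Fintype J] (ξ : I → H)
    (X : I → J → Alg M) (η : J → H) : Continuous fun c : Fl D => csB c ξ X η := by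
  refine continuous_finsetSum _ fun i _ => continuous_finsetSum _ fun j _ => ?_
  exact Complex.continuous_re.comp (wcont_eval (X i j) (vecFun M (ξ i) (η j))
    (hD ▸ Submodule.subset_span ⟨_, _, rfl⟩))

theorem csB_comb (c c' : Fl D) (a b : ℝ) {I J : Type} [Fintype I] [Fintype J] (ξ : I → H)
    (X : I → J → Alg M) (η : J → H) :
    csB (a • c + b • c' : Fl D) ξ X η = a * csB c ξ X η + b * csB c' ξ X η := by
  unfold csB
  simp only [Finset.mul_sum, ← Finset.sum_add_distrib]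
  refine Finset.sum_congr rfl fun i _ => Finset.sum_congr rfl fun j _ => ?_
  change (⟪ξ i, (a : ℂ) • (c (X i j) : H →L[ℂ] H) (η j) +
    (b : ℂ) • (c' (X i j) : H →L[ℂ] H) (η j)⟫_ℂ).re = _
  simp

theorem csP2_all (hD : D.Ω = vecSpan M) {K : Set (Fl D)} (hK : IsMin (cS D) K) {W : Set H}
    (hW : ∀ n : Alg M, ∀ ξ ∈ W, (n : H →L[ℂ] H) ξ ∈ W) {c : Fl D} (hc : c ∈ K)
    {c' : Alg M → Alg M} {t : ℝ} (h : csP2 W c c' t) : ∀ c₁ ∈ K, csP2 W c₁ c' t := by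
  refine cs_orbit hK hc (L := {c₁ : Fl D | csP2 W c₁ c' t}) ?_ ?_ fun θ hθ => csP2_cact hW h hθ
  · simp only [csP2, Set.ofPred_forall]
    iterate 14 refine isClosed_iInter fun _ => ?_
    exact isClosed_le (continuous_const.mul ((csB_cont hD _ _ _).add continuous_const))
      continuous_const
  · intro x hx y hy a b ha hb hab I₁ I₂ J _ _ _ X₁ X₂ hX ξ₁ ξ₂ h₁ h₂ η
    have e1 := hx I₁ I₂ J X₁ X₂ hX ξ₁ ξ₂ h₁ h₂ η
    have e2 := hy I₁ I₂ J X₁ X₂ hX ξ₁ ξ₂ h₁ h₂ η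
    rw [csB_comb]
    obtain rfl : b = 1 - a := by linarith
    nlinarith [mul_le_mul_of_nonneg_left e1 ha, mul_le_mul_of_nonneg_left e2 hb]

theorem cs_hadamard {W : Set H} (hW : ∀ a : ℂ, ∀ ξ ∈ W, a • ξ ∈ W) {c₁ c₂ : Fl D}
    (l₁ : IsLinearMap ℂ (c₁ : Alg M → Alg M)) (l₂ : IsLinearMap ℂ (c₂ : Alg M → Alg M)) {t : ℝ}
    (h : csP2 W c₁ c₂ t) {y : Alg M} (hy : ‖y‖ ≤ 1) {b : Alg M} (hb : c₁ y - c₂ y = b + b)
    {I J : Type} [Fintype I] [Fintype J] (X : I → J → Alg M) (hX : ∀ η, csC X η ≤ csN η)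
    (ξ : I → H) (hξ : ∀ i, ξ i ∈ W) (η : J → H) :
    2 * csB ((1 / 2 : ℝ) • c₁ + (1 / 2 : ℝ) • c₂ : Fl D) ξ X η ≤
      t * csN ξ - ∑ i, ‖((star b : Alg M) : H →L[ℂ] H) (ξ i)‖ ^ 2 + csN η := by
  classical
  obtain ⟨a, ha⟩ : ∃ a : ℝ, a * a = 1 / 2 := ⟨√(1 / 2), Real.mul_self_sqrt (by norm_num)⟩
  have hn : ∀ v : H, ‖(a : ℂ) • v‖ ^ 2 = 1 / 2 * ‖v‖ ^ 2 := fun v => by
    rw [norm_smul, mul_pow, Complex.norm_real, Real.norm_eq_abs, sq_abs, sq, ha]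
  let Z : ℂ → I → J ⊕ I → Alg M := fun e i =>
    Sum.elim (fun j => (a : ℂ) • X i j) fun i' => if i = i' then (e * a) • y else 0
  have hZ : ∀ e i (η' : J ⊕ I → H), ∑ j, (Z e i j : H →L[ℂ] H) (η' j) =
      (a : ℂ) • (∑ j, (X i j : H →L[ℂ] H) (η' (Sum.inl j)) +
        e • (y : H →L[ℂ] H) (η' (Sum.inr i))) := by
    intro e i η'
    rw [Fintype.sum_sum_type, Finset.sum_eq_single i]
    · simp [Z, Finset.smul_sum, smul_smul, mul_comm]
    · intro i' _ hi'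
      simp [Z, hi'.symm]
    · simp
  have hB : ∀ (c : Alg M → Alg M), IsLinearMap ℂ c → ∀ (e : ℝ) (η' : I → H),
      csB c (fun i => (a : ℂ) • ξ i) (Z e) (Sum.elim η η') =
        1 / 2 * (csB c ξ X η + e * ∑ i, (⟪ξ i, (c y : H →L[ℂ] H) (η' i)⟫_ℂ).re) := by
    intro c l e η'
    unfold csB
    rw [Finset.mul_sum, ← Finset.sum_add_distrib, Finset.mul_sum]
    refine Finset.sum_congr rfl fun i _ => ?_
    rw [Fintype.sum_sum_type, Finset.sum_eq_single i, mul_add, Finset.mul_sum, ← ha]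
    · congr 1
      · refine Finset.sum_congr rfl fun j _ => ?_
        simp only [Z, Sum.elim_inl, l.map_smul, cs_smul_apply, inner_smul_left, inner_smul_right,
          Complex.conj_ofReal, Complex.re_ofReal_mul, mul_assoc]
      · simp only [Z, Sum.elim_inr, if_true, l.map_smul, cs_smul_apply, inner_smul_left,
          inner_smul_right, Complex.conj_ofReal, Complex.re_ofReal_mul, mul_assoc]
        ring
    · intro i' _ hi'
      simp [Z, hi'.symm, l.map_zero]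
    · simp
  have key := h I I (J ⊕ I) (Z (1 : ℝ)) (Z (-1 : ℝ)) (fun η' => by
      have e1 := hX fun j => η' (Sum.inl j)
      unfold csC csN at *
      simp only [hZ, hn]
      rw [← Finset.sum_add_distrib, Fintype.sum_sum_type]
      refine le_trans (Finset.sum_le_sum fun i _ => (?_ : _ ≤
        ‖∑ j, (X i j : H →L[ℂ] H) (η' (Sum.inl j))‖ ^ 2 + ‖η' (Sum.inr i)‖ ^ 2)) ?_
      · have e2 := parallelogram_law_with_norm ℂ (∑ j, (X i j : H →L[ℂ] H) (η' (Sum.inl j)))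
          ((y : H →L[ℂ] H) (η' (Sum.inr i)))
        have e3 : ‖(y : H →L[ℂ] H) (η' (Sum.inr i))‖ ≤ ‖η' (Sum.inr i)‖ :=
          ((y : H →L[ℂ] H).le_opNorm _).trans (mul_le_of_le_one_left (norm_nonneg _) hy)
        have e4 := pow_le_pow_left₀ (norm_nonneg _) e3 2
        simp only [Complex.ofReal_one, one_smul, Complex.ofReal_neg, neg_smul, ← sub_eq_add_neg]
        nlinarith
      · rw [Finset.sum_add_distrib]; linarith)
    (fun i => (a : ℂ) • ξ i) (fun i => (a : ℂ) • ξ i) (fun i => hW _ _ (hξ i))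
    (fun i => hW _ _ (hξ i)) (Sum.elim η fun i => ((star b : Alg M) : H →L[ℂ] H) (ξ i))
  rw [hB _ l₁, hB _ l₂] at key
  have e5 : ∑ i, (⟪ξ i, (c₁ y : H →L[ℂ] H) (((star b : Alg M) : H →L[ℂ] H) (ξ i))⟫_ℂ).re -
      ∑ i, (⟪ξ i, (c₂ y : H →L[ℂ] H) (((star b : Alg M) : H →L[ℂ] H) (ξ i))⟫_ℂ).re =
      2 * ∑ i, ‖((star b : Alg M) : H →L[ℂ] H) (ξ i)‖ ^ 2 := by
    rw [← Finset.sum_sub_distrib, Finset.mul_sum]
    refine Finset.sum_congr rfl fun i _ => ?_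
    rw [cs_norm_sq, star_star, cs_mul_apply, ← Complex.sub_re, ← inner_sub_right]
    change (⟪ξ i, ((c₁ y - c₂ y : Alg M) : H →L[ℂ] H) _⟫_ℂ).re = _
    rw [hb]
    change (⟪ξ i, (b : H →L[ℂ] H) _ + (b : H →L[ℂ] H) _⟫_ℂ).re = _
    rw [inner_add_right, Complex.add_re, two_mul]
  have e6 : csN (fun i => (a : ℂ) • ξ i) = 1 / 2 * csN ξ := by
    unfold csN; simp only [hn, Finset.mul_sum]
  have e7 : csN (Sum.elim η fun i => ((star b : Alg M) : H →L[ℂ] H) (ξ i)) =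
      csN η + ∑ i, ‖((star b : Alg M) : H →L[ℂ] H) (ξ i)‖ ^ 2 := by
    unfold csN; rw [Fintype.sum_sum_type]; rfl
  rw [e6, e7] at key
  rw [csB_comb]
  linarith

theorem cs_drop (hD : D.Ω = vecSpan M) {K : Set (Fl D)} (hK : IsMin (cS D) K) {c₁ c₂ : Fl D}
    (h₁ : c₁ ∈ K) (h₂ : c₂ ∈ K) (l₁ : IsLinearMap ℂ (c₁ : Alg M → Alg M))
    (l₂ : IsLinearMap ℂ (c₂ : Alg M → Alg M)) {y : Alg M} (hy : ‖y‖ ≤ 1) {b : Alg M}
    (hb : c₁ y - c₂ y = b + b) {h : Alg M} (hh : IsSelfAdjoint h) {κ : ℝ} (hκ : 0 < κ)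
    (hbh : ∀ ζ, κ * ‖(h : H →L[ℂ] H) ζ‖ ^ 2 ≤
      ‖((star b : Alg M) : H →L[ℂ] H) ((h : H →L[ℂ] H) ζ)‖ ^ 2)
    {t : ℝ} (hP : csP2 (csW h) c₁ c₂ t) : ∃ c ∈ K, csP (csW h) c (t - κ) := by
  classical
  let L : Finset H × ℕ → Set (Fl D) := fun p => {c | ∀ (I J : Type) [Fintype I] [Fintype J]
    (X : I → J → Alg M), (∀ η, csC X η ≤ csN η) → ∀ ξ : I → H, (∀ i, ξ i ∈ csW h) →
      (∀ i, ξ i ∈ p.1) → ∀ η, 2 * csB c ξ X η ≤ (t - κ) * csN ξ + csN η +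
        Fintype.card I * (1 / ((p.2 : ℝ) + 1))}
  have hLc : ∀ p, IsClosed (L p) := fun p => by
    simp only [L, Set.ofPred_forall]
    iterate 10 refine isClosed_iInter fun _ => ?_
    exact isClosed_le (continuous_const.mul (csB_cont hD _ _ _)) continuous_const
  have hanti : Antitone fun p => K ∩ L p := by
    intro p q hpq c hc
    refine ⟨hc.1, fun I J _ _ X hX ξ hξ hξ' η => ?_⟩
    refine (hc.2 I J X hX ξ hξ (fun i => hpq.1 (hξ' i)) η).trans ?_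
    have : (p.2 : ℝ) ≤ q.2 := by exact_mod_cast hpq.2
    gcongr
  obtain ⟨c, hc⟩ := IsCompact.nonempty_iInter_of_directed_nonempty_isCompact_isClosed
    (fun p => K ∩ L p) hanti.directed_ge (fun p => by
      obtain ⟨ι, _, n, hn, hcov⟩ := cs_cover hh hκ hbh p.1 (ε := 1 / ((p.2 : ℝ) + 1))
        (by positivity)
      refine ⟨cact n ((1 / 2 : ℝ) • c₁ + (1 / 2 : ℝ) • c₂), hK.inv _ ⟨ι, _, n, hn, rfl⟩ _
        (hK.cvx h₁ h₂ (by norm_num) (by norm_num) (by norm_num)),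
        fun I J _ _ X hX ξ hξ hξ' η => ?_⟩
      have e1 := cs_hadamard (fun a ξ hξ => csW_smul a hξ) l₁ l₂ hP hy hb
        (fun (p : I × ι) j => n p.2 * X p.1 j) (fun η => by rw [csC_col hn]; exact hX η)
        (fun p => (n p.2 : H →L[ℂ] H) (ξ p.1)) (fun p => csW_mul _ (hξ _)) η
      rw [← csB_cact, csN_col hn, Fintype.sum_prod_type] at e1
      have e2 := Finset.sum_le_sum fun i (_ : i ∈ Finset.univ) => hcov (ξ i) (hξ' i) (hξ i)
      rw [Finset.sum_sub_distrib, ← Finset.mul_sum, Finset.sum_const, Finset.card_univ,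
        nsmul_eq_mul] at e2
      unfold csN at *
      linarith)
    (fun p => hK.cpt.inter_right (hLc p)) (fun p => hK.cpt.isClosed.inter (hLc p))
  rw [Set.mem_iInter] at hc
  refine ⟨c, (hc (∅, 0)).1, fun I J _ _ X hX ξ hξ η => ?_⟩
  have ht : Tendsto (fun m : ℕ => (t - κ) * csN ξ + csN η + Fintype.card I * (1 / ((m : ℝ) + 1)))
      atTop (𝓝 ((t - κ) * csN ξ + csN η + Fintype.card I * 0)) :=
    tendsto_const_nhds.add (tendsto_one_div_add_atTop_nhds_zero_nat.const_mul _)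
  rw [mul_zero, add_zero] at ht
  exact ge_of_tendsto' ht fun m => (hc (Finset.univ.image ξ, m)).2 I J X hX ξ hξ
    (fun i => Finset.mem_image_of_mem _ (Finset.mem_univ i)) η

theorem csP_of_CB {W : Set H} {r : ℝ} {c : Alg M → Alg M} (h : CB M r c) :
    csP W c (r ^ 2 + 1) := by
  intro I J _ _ X hX ξ _ η
  have h1 := h I J X hX η
  have hr : 0 < r ^ 2 + 1 := by positivity
  have h2 : ∀ i, (r ^ 2 + 1) * (2 * ∑ j, (⟪ξ i, (c (X i j) : H →L[ℂ] H) (η j)⟫_ℂ).re) ≤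
      (r ^ 2 + 1) ^ 2 * ‖ξ i‖ ^ 2 + ‖∑ j, (c (X i j) : H →L[ℂ] H) (η j)‖ ^ 2 := by
    intro i
    rw [← Complex.re_sum, ← inner_sum]
    have h3 := re_inner_le_norm (𝕜 := ℂ) (ξ i) (∑ j, (c (X i j) : H →L[ℂ] H) (η j))
    rw [RCLike.re_to_complex] at h3
    nlinarith [sq_nonneg ((r ^ 2 + 1) * ‖ξ i‖ - ‖∑ j, (c (X i j) : H →L[ℂ] H) (η j)‖),
      mul_le_mul_of_nonneg_left h3 hr.le]
  have h4 := Finset.sum_le_sum fun i (_ : i ∈ Finset.univ) => h2 i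
  rw [← Finset.mul_sum, ← Finset.mul_sum, Finset.sum_add_distrib, ← Finset.mul_sum] at h4
  have h5 : 0 ≤ ∑ j, ‖η j‖ ^ 2 := by positivity
  refine le_of_mul_le_mul_left ?_ hr
  unfold csB csN
  nlinarith

theorem cs_single (hD : D.Ω = vecSpan M) {r : ℝ} {K : Set (Fl D)} (hK : IsMin (cS D) K)
    (hL : ∀ c ∈ K, LinB r (c : Alg M → Alg M) ∧ CB M r (c : Alg M → Alg M)) {c₁ c₂ : Fl D}
    (h₁ : c₁ ∈ K) (h₂ : c₂ ∈ K) {y : Alg M} (hy : ‖y‖ ≤ 1) : c₁ y = c₂ y := by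
  by_contra hne
  obtain ⟨b, hb⟩ : ∃ b, c₁ y - c₂ y = b + b :=
    ⟨(1 / 2 : ℝ) • (c₁ y - c₂ y), by rw [← add_smul]; norm_num⟩
  have hb0 : b ≠ 0 := fun h => hne (by rwa [h, add_zero, sub_eq_zero] at hb)
  obtain ⟨κ, h, w, hκ, hh0, hh, hw⟩ := cs_exists_h hb0
  have hbh : ∀ ζ, κ * ‖(h : H →L[ℂ] H) ζ‖ ^ 2 ≤
      ‖((star b : Alg M) : H →L[ℂ] H) ((h : H →L[ℂ] H) ζ)‖ ^ 2 := by
    intro ζ
    rw [← cs_mul_apply, cs_norm_sq (star b * h), hw, cs_norm_sq h]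
    have e1 := cs_norm_sq w ζ
    change _ ≤ (⟪ζ, (κ : ℂ) • ((star h * h : Alg M) : H →L[ℂ] H) ζ +
      ((star w * w : Alg M) : H →L[ℂ] H) ζ⟫_ℂ).re
    rw [inner_add_right, Complex.add_re, ← e1, inner_smul_right, Complex.re_ofReal_mul]
    exact le_add_of_nonneg_right (sq_nonneg _)
  have hW : ∀ n : Alg M, ∀ ξ ∈ csW h, (n : H →L[ℂ] H) ξ ∈ csW h := fun n ξ hξ => csW_mul n hξ
  have key : ∀ m : ℕ, ∃ c ∈ K, csP (csW h) c (r ^ 2 + 1 - m * κ) := by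
    intro m
    induction m with
    | zero => exact ⟨c₁, h₁, by simpa using csP_of_CB (hL c₁ h₁).2⟩
    | succ m ih =>
      obtain ⟨c, hc, hP⟩ := ih
      have e1 := csP2_all hD hK hW hc (csP2_of_csP hP) c₂ h₂
      have e2 := csP2_all hD hK hW hc (csP2_symm e1) c₁ h₁
      have e3 := cs_drop hD hK h₁ h₂ (hL c₁ h₁).1.1 (hL c₂ h₂).1.1 hy hb hh hκ hbh e2
      have e4 : r ^ 2 + 1 - ((m + 1 : ℕ) : ℝ) * κ = r ^ 2 + 1 - m * κ - κ := by push_cast; ring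
      rwa [e4]
  obtain ⟨m, hm⟩ := exists_nat_gt ((r ^ 2 + 1) / κ)
  rw [div_lt_iff₀ hκ] at hm
  obtain ⟨c, -, hP⟩ := key m
  refine hh0 (Subtype.ext (ContinuousLinearMap.ext fun ζ => ?_))
  have e1 := hP Unit Empty (fun _ _ => 0) (fun η => by simp [csC, csN])
    (fun _ => (h : H →L[ℂ] H) ζ) (fun _ => csW_self h ζ) (fun _ => 0)
  simp only [csB, csN, Finset.univ_eq_empty, Finset.sum_empty, Finset.sum_const_zero, mul_zero,
    add_zero, Finset.univ_unique, Finset.sum_singleton] at e1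
  have e2 : ‖(h : H →L[ℂ] H) ζ‖ ^ 2 ≤ 0 := by
    by_contra hcon
    nlinarith [mul_pos (sub_pos.2 hm) (not_le.1 hcon)]
  exact norm_eq_zero.1 (pow_eq_zero_iff two_ne_zero |>.1 (le_antisymm e2 (sq_nonneg _)))

end VN

theorem csStmt : CSStmt.{u} := by
  intro H _ _ _ M D hD r K hK hL c hc a y
  have l := (hL c hc).1.1
  have hsing : ∀ c' ∈ K, ∀ y, c' y = c y := by
    intro c' hc' y
    have l' := (hL c' hc').1.1
    have h0 : (0 : ℝ) < ‖y‖ + 1 := by positivity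
    have h1 : ‖(((‖y‖ + 1)⁻¹ : ℝ) : ℂ) • y‖ ≤ 1 := by
      rw [norm_smul, Complex.norm_real, Real.norm_of_nonneg (by positivity),
        inv_mul_le_iff₀ h0]
      linarith
    have h2 := cs_single hD hK hL hc' hc h1
    rw [l.map_smul, l'.map_smul] at h2
    exact smul_right_injective _ (by exact_mod_cast (inv_pos.2 h0).ne') h2
  have ha : a ∈ Submodule.span ℂ (unitary (Alg M) : Set (Alg M)) := by
    rw [CStarAlgebra.span_unitary]; trivial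
  induction ha using Submodule.span_induction with
  | mem u hu =>
    have h1 := hsing _ (hK.inv _ (uS_subset_cS (Γ := unitary (Alg M)) le_rfl ⟨u, hu, rfl⟩) c hc) y
    rw [uact_apply] at h1
    rw [← h1, ← mul_assoc, (Unitary.mem_iff.1 hu).2, one_mul]
  | zero => rw [zero_mul, zero_mul, l.map_zero]
  | add x x' _ _ ih ih' => rw [add_mul, add_mul, l.map_add, ih, ih']
  | smul t x _ ih => rw [smul_mul_assoc, smul_mul_assoc, l.map_smul, ih]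

theorem cs (_hc : CSuppStmt.{u}) (_hb : CBSetStmt.{u}) : CSStmt.{u} := csStmt

end Crest.Agent.R121
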