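import Crest.Agent.R121.Base

/-! # Row 121: auxiliary facts for the Christensen–Sinclair averaging theorem. -/

set_option autoImplicit false

open scoped InnerProductSpace Topology
open Filter

noncomputable section

namespace Crest.Agent.R121

universe u

section Alg
variable {A : Type u} [CStarAlgebra A]

theorem cs_exists_h {b : A} (hb : b ≠ 0) : ∃ (κ : ℝ) (h w : A), 0 < κ ∧ h ≠ 0 ∧ IsSelfAdjoint h ∧
    star (star b * h) * (star b * h) = κ • (star h * h) + star w * w := by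
  set g := star (star b) * star b with hg
  have hsa : IsSelfAdjoint g := IsSelfAdjoint.star_mul_self _
  have hg0 : g ≠ 0 := fun h => hb (star_eq_zero.1 (CStarRing.star_mul_self_eq_zero_iff _ |>.1 h))
  obtain ⟨l, hl, hl0⟩ : ∃ l ∈ spectrum ℝ g, l ≠ 0 := by
    by_contra hcon
    push Not at hcon
    apply hg0
    rw [← cfc_id' ℝ g, cfc_congr (g := fun _ => (0 : ℝ)) fun r hr => hcon r hr]
    exact cfc_const_zero ..
  have hlpos : 0 < l := lt_of_le_of_ne (spectrum_star_mul_self_nonneg l hl) hl0.symm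
  refine ⟨l / 2, cfc (fun t : ℝ => max (t - l / 2) 0) g,
    cfc (fun t : ℝ => √(max (t - l / 2) 0) * max (t - l / 2) 0) g, by positivity, ?_,
    cfc_predicate _ _, ?_⟩
  · intro h
    rw [← cfc_const_zero ℝ g] at h
    have : max (l - l / 2) 0 = 0 := eqOn_of_cfc_eq_cfc h (by fun_prop) (by fun_prop) hsa hl
    rw [max_eq_left (by linarith)] at this
    linarith
  · rw [star_mul, (cfc_predicate _ _ : IsSelfAdjoint _).star_eq,
      (cfc_predicate _ _ : IsSelfAdjoint _).star_eq, mul_assoc, ← mul_assoc (star (star b)), ← hg]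
    nth_rw 2 [← cfc_id' ℝ g]
    rw [← cfc_mul .., ← cfc_mul .., ← cfc_mul .., ← cfc_mul .., ← cfc_smul .., ← cfc_add ..]
    refine cfc_congr fun r _ => ?_
    have h1 : √(max (r - l / 2) 0) * √(max (r - l / 2) 0) = max (r - l / 2) 0 :=
      Real.mul_self_sqrt (le_max_right _ _)
    simp only [smul_eq_mul]
    rcases le_total (r - l / 2) 0 with h | h
    · rw [max_eq_right h]; simp
    · rw [max_eq_left h] at h1 ⊢
      linear_combination (-(r - l / 2) ^ 2) * h1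

theorem cs_exists_s {ι : Type} [Fintype ι] (T : ι → A) {δ : ℝ} (hδ : 0 < δ) :
    ∃ s : A, IsSelfAdjoint s ∧ s * (∑ m, T m * star (T m)) * s + δ • (s * s) = 1 := by
  let := CStarAlgebra.spectralOrder A
  have := CStarAlgebra.spectralOrderedRing A
  have h0 : 0 ≤ ∑ m, T m * star (T m) := Finset.sum_nonneg fun m _ => mul_star_self_nonneg _
  set a := ∑ m, T m * star (T m)
  have hsa : IsSelfAdjoint a := .of_nonneg h0
  have hsp : ∀ r ∈ spectrum ℝ a, 0 ≤ r := fun r hr => spectrum_nonneg_of_nonneg h0 hr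
  obtain ⟨f, hf, hf'⟩ : ∃ f : ℝ → ℝ, Continuous f ∧ ∀ r, 0 ≤ r → f r * f r = (r + δ)⁻¹ := by
    refine ⟨fun r => (√(max r 0 + δ))⁻¹, Continuous.inv₀ (by fun_prop) fun r => ?_, fun r hr => ?_⟩
    · exact (Real.sqrt_pos.2 (add_pos_of_nonneg_of_pos (le_max_right _ _) hδ)).ne'
    · beta_reduce
      rw [max_eq_left hr, ← mul_inv, Real.mul_self_sqrt (by positivity)]
  clear_value a
  refine ⟨cfc f a, cfc_predicate _ _, ?_⟩
  nth_rw 2 [← cfc_id' ℝ a]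
  rw [← cfc_mul .., ← cfc_mul .., ← cfc_mul .., ← cfc_smul .., ← cfc_add ..,
    cfc_congr (g := fun _ : ℝ => (1 : ℝ)) fun r hr => ?_, cfc_const_one ..]
  have h1 := hsp r hr
  simp only [smul_eq_mul]
  rw [mul_right_comm, hf' r h1]
  field_simp

variable {D : Pred A}

theorem cs_id_mem : (fun c => c) ∈ cS D := by
  refine ⟨Unit, inferInstance, fun _ => 1, by simp, ?_⟩
  funext c; ext y; simp

theorem cs_comp_mem {θ θ' : Fl D → Fl D} (h : θ ∈ cS D) (h' : θ' ∈ cS D) :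
    (fun c => θ' (θ c)) ∈ cS D := by
  obtain ⟨ι, _, n, hn, rfl⟩ := h
  obtain ⟨ι', _, m, hm, rfl⟩ := h'
  refine ⟨ι' × ι, inferInstance, fun p => n p.2 * m p.1, ?_, ?_⟩
  · rw [Fintype.sum_prod_type, ← hm]
    refine Finset.sum_congr rfl fun j _ => ?_
    simp only [star_mul, mul_assoc, ← Finset.mul_sum]
    simp only [← mul_assoc, ← Finset.sum_mul, hn, one_mul]
  · funext c; ext y
    simp only [cact_apply, Fintype.sum_prod_type, Finset.mul_sum, star_mul, mul_assoc]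

theorem cs_orbit {K : Set (Fl D)} (hK : IsMin (cS D) K) {c : Fl D} (hc : c ∈ K)
    {L : Set (Fl D)} (hL : IsClosed L) (hcv : Convex ℝ L) (ho : ∀ θ ∈ cS D, θ c ∈ L) :
    K ⊆ L := by
  have h := hK.min (⋂ θ ∈ cS D, θ ⁻¹' L)
    (isClosed_biInter (by
      rintro _ ⟨ι, _, n, -, rfl⟩
      exact hL.preimage (continuous_cact n)))
    (convex_iInter₂ (by
      rintro _ ⟨ι, _, n, -, rfl⟩
      exact hcv.is_linear_preimage (isLinearMap_cact n)))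
    ⟨c, hc, Set.mem_iInter₂.2 ho⟩ (by
      intro θ hθ x _ hx
      exact Set.mem_iInter₂.2 fun θ' hθ' => Set.mem_iInter₂.1 hx _ (cs_comp_mem hθ hθ'))
  intro x hx
  exact Set.mem_iInter₂.1 (h hx) _ cs_id_mem

end Alg

section VN
variable {H : Type u} [NormedAddCommGroup H] [InnerProductSpace ℂ H] [CompleteSpace H]
  {M : VonNeumannAlgebra H}

theorem cs_inner_star (x : Alg M) (ξ v : H) :
    ⟪ξ, ((star x : Alg M) : H →L[ℂ] H) v⟫_ℂ = ⟪(x : H →L[ℂ] H) ξ, v⟫_ℂ :=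
  ContinuousLinearMap.adjoint_inner_right _ _ _

theorem cs_norm_sq (x : Alg M) (ξ : H) :
    ‖(x : H →L[ℂ] H) ξ‖ ^ 2 = (⟪ξ, ((star x * x : Alg M) : H →L[ℂ] H) ξ⟫_ℂ).re := by
  change _ = (⟪ξ, ((star x : Alg M) : H →L[ℂ] H) ((x : H →L[ℂ] H) ξ)⟫_ℂ).re
  rw [cs_inner_star, inner_self_eq_norm_sq_to_K]
  norm_cast

theorem cs_col {ι : Type} [Fintype ι] {n : ι → Alg M} (hn : ∑ i, star (n i) * n i = 1) (ξ : H) :
    ∑ i, ‖(n i : H →L[ℂ] H) ξ‖ ^ 2 = ‖ξ‖ ^ 2 := by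
  simp only [cs_norm_sq]
  rw [← Complex.re_sum, ← inner_sum, ← sum_apply,
    ← AddSubmonoidClass.coe_finsetSum, hn]
  change (⟪ξ, ξ⟫_ℂ).re = _
  rw [inner_self_eq_norm_sq_to_K]
  norm_cast

omit [CompleteSpace H] in
theorem cs_two_re_le (ξ v : H) : 2 * (⟪ξ, v⟫_ℂ).re ≤ ‖ξ‖ ^ 2 + ‖v‖ ^ 2 := by
  have h1 : (⟪ξ, v⟫_ℂ).re ≤ ‖ξ‖ * ‖v‖ := re_inner_le_norm (𝕜 := ℂ) ξ v
  nlinarith [sq_nonneg (‖ξ‖ - ‖v‖)]

/-- The algebraic span of `M h H`. -/
def csW (h : Alg M) : Set H :=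
  {ξ | ∃ (ι : Type) (_ : Fintype ι) (x : ι → Alg M) (η : ι → H),
    ξ = ∑ m, (x m : H →L[ℂ] H) ((h : H →L[ℂ] H) (η m))}

theorem csW_mul {h : Alg M} (n : Alg M) {ξ : H} (hξ : ξ ∈ csW h) :
    (n : H →L[ℂ] H) ξ ∈ csW h := by
  obtain ⟨ι, _, x, η, rfl⟩ := hξ
  exact ⟨ι, inferInstance, fun m => n * x m, η, by rw [map_sum]; rfl⟩

theorem csW_smul {h : Alg M} (a : ℂ) {ξ : H} (hξ : ξ ∈ csW h) : a • ξ ∈ csW h :=
  csW_mul (a • 1) hξ

theorem csW_self (h : Alg M) (η : H) : (h : H →L[ℂ] H) η ∈ csW h :=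
  ⟨Unit, inferInstance, fun _ => 1, fun _ => η, by simp⟩

theorem csW_finset (h : Alg M) (F : Finset H) : ∃ (ι : Type) (_ : Fintype ι) (x : ι → Alg M),
    ∀ ξ ∈ F, ξ ∈ csW h → ∃ η : ι → H, ξ = ∑ m, (x m : H →L[ℂ] H) ((h : H →L[ℂ] H) (η m)) := by
  classical
  induction F using Finset.induction_on with
  | empty => exact ⟨Empty, inferInstance, fun _ => 0, by simp⟩
  | insert ξ₀ F _ ih =>
    obtain ⟨ι, _, x, hx⟩ := ih
    by_cases h0 : ξ₀ ∈ csW h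
    · obtain ⟨ι', _, x', η', h'⟩ := h0
      refine ⟨ι ⊕ ι', inferInstance, Sum.elim x x', fun ξ hξ hW => ?_⟩
      rcases Finset.mem_insert.1 hξ with rfl | hξ
      · exact ⟨Sum.elim 0 η', by simp [h']⟩
      · obtain ⟨η, hη⟩ := hx ξ hξ hW
        exact ⟨Sum.elim η 0, by simp [hη]⟩
    · refine ⟨ι, inferInstance, x, fun ξ hξ hW => ?_⟩
      rcases Finset.mem_insert.1 hξ with rfl | hξ
      · exact absurd hW h0
      · exact hx ξ hξ hW

theorem cs_cover {h b : Alg M} (hh : IsSelfAdjoint h) {κ : ℝ} (hκ : 0 < κ)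
    (hb : ∀ ζ, κ * ‖(h : H →L[ℂ] H) ζ‖ ^ 2 ≤ ‖(b : H →L[ℂ] H) ((h : H →L[ℂ] H) ζ)‖ ^ 2)
    (F : Finset H) {ε : ℝ} (hε : 0 < ε) :
    ∃ (ι : Type) (_ : Fintype ι) (n : ι → Alg M), ∑ i, star (n i) * n i = 1 ∧
      ∀ ξ ∈ F, ξ ∈ csW h →
        κ * ‖ξ‖ ^ 2 - ε ≤ ∑ i, ‖(b : H →L[ℂ] H) ((n i : H →L[ℂ] H) ξ)‖ ^ 2 := by
  obtain ⟨ι, _, x, hx⟩ := csW_finset h F
  choose! η hη using hx
  set C := ∑ ξ ∈ F, ∑ m, ‖η ξ m‖ ^ 2 + 1 with hC
  have hC0 : 0 < C := by positivity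
  obtain ⟨s, hs, hs1⟩ := cs_exists_s (fun m => x m * h) (δ := ε / (κ * C)) (by positivity)
  let n : Option ι → Alg M := fun o => o.elim (√(ε / (κ * C)) • s) fun m => h * (star (x m) * s)
  have hn : ∑ i, star (n i) * n i = 1 := by
    rw [Fintype.sum_option, ← hs1, add_comm]
    congr 1
    · simp only [n, Option.elim, star_mul, hs.star_eq, hh.star_eq, star_star, Finset.mul_sum,
        Finset.sum_mul, mul_assoc]
    · simp only [n, Option.elim, star_smul, hs.star_eq, star_trivial, smul_mul_smul_comm]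
      rw [Real.mul_self_sqrt (by positivity)]
  refine ⟨Option ι, inferInstance, n, hn, fun ξ hξ hW => ?_⟩
  have hcol := fun v => cs_col hn v
  simp only [Fintype.sum_option] at hcol ⊢
  have h1 : ‖(s : H →L[ℂ] H) ξ‖ ^ 2 ≤ ∑ m, ‖η ξ m‖ ^ 2 := by
    have e1 : (s : H →L[ℂ] H) ξ = ∑ m, ((star (n (some m)) : Alg M) : H →L[ℂ] H) (η ξ m) := by
      conv_lhs => rw [hη ξ hξ hW, map_sum]
      simp only [n, Option.elim, star_mul, hs.star_eq, hh.star_eq, star_star]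
      rfl
    have e2 : ‖(s : H →L[ℂ] H) ξ‖ ^ 2 =
        ∑ m, (⟪(n (some m) : H →L[ℂ] H) ((s : H →L[ℂ] H) ξ), η ξ m⟫_ℂ).re := by
      simp only [← cs_inner_star (n (some _))]
      rw [← Complex.re_sum, ← inner_sum, ← e1, inner_self_eq_norm_sq_to_K]
      norm_cast
    have e3 := Finset.sum_le_sum fun m (_ : m ∈ Finset.univ) =>
      cs_two_re_le ((n (some m) : H →L[ℂ] H) ((s : H →L[ℂ] H) ξ)) (η ξ m)
    rw [← Finset.mul_sum, ← e2, Finset.sum_add_distrib] at e3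
    have e4 := hcol ((s : H →L[ℂ] H) ξ)
    nlinarith [sq_nonneg ‖(n none : H →L[ℂ] H) ((s : H →L[ℂ] H) ξ)‖]
  have h2 : ∑ m, ‖η ξ m‖ ^ 2 ≤ C := by
    have := Finset.single_le_sum (f := fun ξ => ∑ m, ‖η ξ m‖ ^ 2) (fun _ _ => by positivity) hξ
    linarith
  have h3 : ‖(n none : H →L[ℂ] H) ξ‖ ^ 2 = ε / (κ * C) * ‖(s : H →L[ℂ] H) ξ‖ ^ 2 := by
    change ‖√(ε / (κ * C)) • (s : H →L[ℂ] H) ξ‖ ^ 2 = _
    rw [norm_smul, mul_pow, Real.norm_eq_abs, sq_abs, Real.sq_sqrt (by positivity)]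
  have h4 : κ * ∑ m, ‖(n (some m) : H →L[ℂ] H) ξ‖ ^ 2 ≤
      ∑ m, ‖(b : H →L[ℂ] H) ((n (some m) : H →L[ℂ] H) ξ)‖ ^ 2 := by
    rw [Finset.mul_sum]
    exact Finset.sum_le_sum fun m _ => hb (((star (x m) * s : Alg M) : H →L[ℂ] H) ξ)
  have h5 : κ * ‖(n none : H →L[ℂ] H) ξ‖ ^ 2 ≤ ε := by
    rw [h3]
    calc κ * (ε / (κ * C) * ‖(s : H →L[ℂ] H) ξ‖ ^ 2) ≤ κ * (ε / (κ * C) * C) := by
          gcongr; exact h1.trans h2
      _ = ε := by field_simp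
  have h6 := hcol ξ
  nlinarith [sq_nonneg ‖(b : H →L[ℂ] H) ((n none : H →L[ℂ] H) ξ)‖]

end VN

end Crest.Agent.R121
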