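import Crest.Agent.R121.CornerTraceA

/-! A faithful normal trace on a corner of the finite part. -/

set_option autoImplicit false

open scoped InnerProductSpace Topology
open Filter Crest.Agent.R124

noncomputable section

namespace Crest.Agent.R121

universe u

/-- A uniformly bounded semigroup of uniformly bounded below operators has a fixed point in every
nonempty closed convex invariant set. -/
theorem ct_fixed {E : Type*} [NormedAddCommGroup E] [InnerProductSpace ℂ E] [CompleteSpace E]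
    {U : Type*} [Nonempty U] (β : U → E →L[ℂ] E) {C : ℝ} (hC : 0 < C)
    (h1 : ∀ u x, ‖β u x‖ ≤ C * ‖x‖) (h2 : ∀ u x, ‖x‖ ≤ C * ‖β u x‖)
    (h3 : ∀ u v, ∃ w, ∀ x, β u (β v x) = β w x) {L : Set E} (hL : IsClosed L)
    (hcv : ∀ a ∈ L, ∀ b ∈ L, (2⁻¹ : ℂ) • (a + b) ∈ L) (hne : L.Nonempty)
    (hinv : ∀ u, ∀ a ∈ L, β u a ∈ L) : ∃ a ∈ L, ∀ u, β u a = a := by
  let T : Set ℝ := {t | ∃ a ∈ L, ∀ u, ‖β u a‖ ^ 2 ≤ t}
  have hTne : T.Nonempty := by
    obtain ⟨a, ha⟩ := hne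
    exact ⟨(C * ‖a‖) ^ 2, a, ha, fun u => pow_le_pow_left₀ (norm_nonneg _) (h1 u a) 2⟩
  have hTb : BddBelow T := ⟨0, fun t ⟨a, _, ha⟩ =>
    (sq_nonneg _).trans (ha (Classical.arbitrary U))⟩
  have key : ∀ a ∈ L, ∀ b ∈ L, ∀ ε : ℝ, (∀ u, ‖β u a‖ ^ 2 ≤ sInf T + ε) →
      (∀ u, ‖β u b‖ ^ 2 ≤ sInf T + ε) → ‖a - b‖ ^ 2 ≤ 4 * C ^ 2 * ε := by
    intro a ha b hb ε h4 h5
    have : sInf T ≤ sInf T + ε - ‖a - b‖ ^ 2 / (4 * C ^ 2) := by
      refine csInf_le hTb ⟨_, hcv a ha b hb, fun u => ?_⟩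
      have p1 := parallelogram_law_with_norm ℂ (β u a) (β u b)
      have p2 := pow_le_pow_left₀ (norm_nonneg _) (h2 u (a - b)) 2
      rw [map_sub, mul_pow] at p2
      have p3 : ‖a - b‖ ^ 2 / (4 * C ^ 2) ≤ ‖β u a - β u b‖ ^ 2 / 4 := by
        rw [div_le_div_iff₀ (by positivity) (by positivity)]
        nlinarith
      rw [map_smul, map_add, norm_smul, mul_pow]
      simp only [norm_inv, Complex.norm_ofNat]
      nlinarith [h4 u, h5 u]
    have h6 : ‖a - b‖ ^ 2 / (4 * C ^ 2) ≤ ε := by linarith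
    rwa [div_le_iff₀ (by positivity), mul_comm] at h6
  have hex : ∀ n : ℕ, ∃ a ∈ L, ∀ u, ‖β u a‖ ^ 2 ≤ sInf T + 1 / ((n : ℝ) + 1) := fun n => by
    obtain ⟨t, ⟨a, ha, ht⟩, hlt⟩ := exists_lt_of_csInf_lt hTne
      (lt_add_of_pos_right (sInf T) (show (0 : ℝ) < 1 / ((n : ℝ) + 1) by positivity))
    exact ⟨a, ha, fun u => (ht u).trans hlt.le⟩
  choose a ha ha' using hex
  have hcau : CauchySeq a := by
    refine cauchySeq_of_le_tendsto_0 (fun n : ℕ => √(4 * C ^ 2 * (1 / ((n : ℝ) + 1))))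
      (fun n m N hn hm => ?_) ?_
    · rw [dist_eq_norm]
      refine Real.le_sqrt_of_sq_le (key _ (ha n) _ (ha m) _ (fun u => (ha' n u).trans ?_)
        (fun u => (ha' m u).trans ?_))
      · gcongr
      · gcongr
    · have := ((tendsto_one_div_add_atTop_nhds_zero_nat (𝕜 := ℝ)).const_mul (4 * C ^ 2)).sqrt
      simpa using this
  obtain ⟨x, hx⟩ := cauchySeq_tendsto_of_complete hcau
  have hxL : x ∈ L := hL.mem_of_tendsto hx (Eventually.of_forall ha)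
  have hxm : ∀ u, ‖β u x‖ ^ 2 ≤ sInf T + 0 := fun u =>
    le_of_tendsto_of_tendsto' ((((β u).continuous.tendsto x).comp hx).norm.pow 2)
      ((tendsto_one_div_add_atTop_nhds_zero_nat (𝕜 := ℝ)).const_add (sInf T)) fun n => ha' n u
  refine ⟨x, hxL, fun v => ?_⟩
  have := key _ (hinv v x hxL) x hxL 0 (fun u => by
    obtain ⟨w, hw⟩ := h3 u v
    rw [hw]; exact hxm w) hxm
  rw [mul_zero] at this
  exact sub_eq_zero.1 (norm_eq_zero.1 (pow_eq_zero_iff two_ne_zero |>.1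
    (le_antisymm this (sq_nonneg _))))

variable {H : Type u} [NormedAddCommGroup H] [InnerProductSpace ℂ H] [CompleteSpace H]

/-- The corner as a submodule. -/
def ctA (M : VonNeumannAlgebra H) (e : H →L[ℂ] H) : Submodule ℂ (H →L[ℂ] H) where
  carrier := {x | x ∈ M ∧ e * x = x ∧ x * e = x}
  add_mem' hx hy := ⟨add_mem hx.1 hy.1, by rw [mul_add, hx.2.1, hy.2.1],
    by rw [add_mul, hx.2.2, hy.2.2]⟩
  zero_mem' := ⟨zero_mem _, mul_zero _, zero_mul _⟩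
  smul_mem' c _ hx := ⟨ct_smul_mem c hx.1, by rw [mul_smul_comm, hx.2.1],
    by rw [smul_mul_assoc, hx.2.2]⟩

/-- The unitaries of `M` commuting with `e`. -/
def ctU (M : VonNeumannAlgebra H) (e : H →L[ℂ] H) : Set (H →L[ℂ] H) :=
  {u | u ∈ M ∧ u ∈ unitary (H →L[ℂ] H) ∧ u * e = e * u}

variable {M : VonNeumannAlgebra H} {e : H →L[ℂ] H}

theorem ctU_star (he : IsStarProjection e) {u : H →L[ℂ] H} (hu : u ∈ ctU M e) :
    star u ∈ ctU M e :=
  ⟨star_mem hu.1, Unitary.star_mem hu.2.1, by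
    simpa [he.isSelfAdjoint.star_eq] using (congrArg star hu.2.2).symm⟩

theorem ctU_mul {u v : H →L[ℂ] H} (hu : u ∈ ctU M e) (hv : v ∈ ctU M e) : u * v ∈ ctU M e :=
  ⟨mul_mem hu.1 hv.1, mul_mem hu.2.1 hv.2.1, by
    rw [mul_assoc, hv.2.2, ← mul_assoc, hu.2.2, mul_assoc]⟩

theorem ctA_left {u x : H →L[ℂ] H} (hu : u ∈ ctU M e) (hx : x ∈ ctA M e) : u * x ∈ ctA M e :=
  ⟨mul_mem hu.1 hx.1, by rw [← mul_assoc, ← hu.2.2, mul_assoc, hx.2.1],
    by rw [mul_assoc, hx.2.2]⟩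

theorem ctA_right {u x : H →L[ℂ] H} (hu : u ∈ ctU M e) (hx : x ∈ ctA M e) : x * u ∈ ctA M e :=
  ⟨mul_mem hx.1 hu.1, by rw [← mul_assoc, hx.2.1],
    by rw [mul_assoc, hu.2.2, ← mul_assoc, hx.2.2]⟩

theorem ctA_star (he : IsStarProjection e) {x : H →L[ℂ] H} (hx : x ∈ ctA M e) :
    star x ∈ ctA M e :=
  ⟨star_mem hx.1, by simpa [he.isSelfAdjoint.star_eq] using congrArg star hx.2.2,
    by simpa [he.isSelfAdjoint.star_eq] using congrArg star hx.2.1⟩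

theorem ctA_mul {x y : H →L[ℂ] H} (hx : x ∈ ctA M e) (hy : y ∈ ctA M e) : x * y ∈ ctA M e :=
  ⟨mul_mem hx.1 hy.1, by rw [← mul_assoc, hx.2.1], by rw [mul_assoc, hy.2.2]⟩

theorem ct_span (he : IsStarProjection e) {x : H →L[ℂ] H} (hx : x ∈ ctA M e) :
    ∃ (u : Fin 4 → (H →L[ℂ] H)) (c : Fin 4 → ℂ), (∀ i, u i ∈ ctU M e) ∧ x = ∑ i, c i • u i := by
  let B : StarSubalgebra ℂ (H →L[ℂ] H) := M.toStarSubalgebra ⊓ StarSubalgebra.centralizer ℂ {e}
  have hB : ∀ y, y ∈ B ↔ y ∈ M ∧ y * e = e * y := fun y => by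
    simp only [B, StarSubalgebra.mem_inf, StarSubalgebra.mem_centralizer_iff,
      Set.mem_singleton_iff, forall_eq, he.isSelfAdjoint.star_eq, and_self]
    exact and_congr Iff.rfl eq_comm
  have : IsClosed (B : Set (H →L[ℂ] H)) := by
    have e1 : (B : Set (H →L[ℂ] H)) = (M.toStarSubalgebra : Set _) ∩ {y | y * e = e * y} :=
      Set.ext hB
    rw [e1]
    exact (vnClosed M).inter (isClosed_eq (by fun_prop) (by fun_prop))
  obtain ⟨u, c, h, -⟩ := CStarAlgebra.exists_sum_four_unitary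
    (⟨x, (hB x).2 ⟨hx.1, hx.2.2.trans hx.2.1.symm⟩⟩ : B)
  refine ⟨fun i => ((u i : B) : H →L[ℂ] H), c, fun i => ⟨((hB _).1 (u i : B).2).1, ?_,
    ((hB _).1 (u i : B).2).2⟩, ?_⟩
  · exact ⟨congrArg Subtype.val (u i).2.1, congrArg Subtype.val (u i).2.2⟩
  · simpa using congrArg Subtype.val h

theorem ct_trace (heM : e ∈ M) (he : IsStarProjection e) {ξ : H} {C : ℝ} (hC : 0 < C)
    (h : ∀ x ∈ ctA M e, ‖x ξ‖ ^ 2 ≤ C * ‖star x ξ‖ ^ 2) :
    ∃ ζ : H, (∀ u ∈ ctU M e, ∀ x ∈ ctA M e, ⟪ζ, (u * x * star u) ξ⟫_ℂ = ⟪ζ, x ξ⟫_ℂ) ∧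
      ∀ x ∈ ctA M e, (⟪ζ, (star x * x) ξ⟫_ℂ).im = 0 ∧
        ‖x ξ‖ ^ 2 / C ^ 2 ≤ (⟪ζ, (star x * x) ξ⟫_ℂ).re := by
  have hun : ∀ u ∈ ctU M e, ∀ η, ‖u η‖ = ‖η‖ := fun u hu η =>
    ContinuousLinearMap.norm_map_of_mem_unitary hu.2.1 η
  have hb : ∀ u ∈ ctU M e, ∀ x ∈ ctA M e, ‖(x * u) ξ‖ ≤ C * ‖x ξ‖ := fun u hu x hx => by
    have a1 := h _ (ctA_right hu hx)
    have a2 := h _ (ctA_star he hx)
    have a3 : ‖star (x * u) ξ‖ = ‖star x ξ‖ := by
      rw [star_mul]; exact hun _ (ctU_star he hu) _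
    rw [a3] at a1
    rw [star_star] at a2
    refine le_of_sq_le_sq ?_ (by positivity)
    nlinarith
  let ev : ctA M e →ₗ[ℂ] H :=
    (ContinuousLinearMap.apply ℂ H ξ).toLinearMap.comp (ctA M e).subtype
  let H0 : Submodule ℂ H := (LinearMap.range ev).topologicalClosure
  let ev0 : ctA M e →ₗ[ℂ] H0 := ev.codRestrict H0 fun x =>
    Submodule.le_topologicalClosure _ (LinearMap.mem_range_self ev x)
  have hdense : DenseRange ev0 := by
    rw [DenseRange, Subtype.dense_iff, ← Set.range_comp]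
    exact fun x hx => hx
  let cj : ctU M e → (ctA M e →ₗ[ℂ] ctA M e) := fun u =>
    { toFun := fun x => ⟨u.1 * x.1 * star u.1, ctA_right (ctU_star he u.2) (ctA_left u.2 x.2)⟩
      map_add' := fun x y => Subtype.ext (by simp [mul_add, add_mul])
      map_smul' := fun c x => Subtype.ext (by simp) }
  have hnorm : ∀ u x, ‖(ev0.comp (cj u)) x‖ ≤ C * ‖ev0 x‖ := fun u x => by
    change ‖(u.1 * x.1 * star u.1) ξ‖ ≤ C * ‖x.1 ξ‖
    rw [mul_assoc]
    exact (hun _ u.2 _).trans_le (hb _ (ctU_star he u.2) _ x.2)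
  let α : ctU M e → (H0 →L[ℂ] H0) := fun u => (ev0.comp (cj u)).extendOfNorm ev0
  have hα : ∀ u x, α u (ev0 x) = ev0 (cj u x) := fun u x =>
    LinearMap.extendOfNorm_eq hdense ⟨C, hnorm u⟩ x
  have hαn : ∀ u, ‖α u‖ ≤ C := fun u => LinearMap.opNorm_extendOfNorm_le hdense hC.le (hnorm u)
  have hext : ∀ a b : H0, (∀ x, ⟪a, ev0 x⟫_ℂ = ⟪b, ev0 x⟫_ℂ) → a = b := fun a b hab =>
    ext_inner_right ℂ fun y => hdense.induction_on y
      (isClosed_eq (by fun_prop) (by fun_prop)) hab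
  let β : ctU M e → (H0 →L[ℂ] H0) := fun u => ContinuousLinearMap.adjoint (α u)
  have hβ : ∀ u a x, ⟪β u a, ev0 x⟫_ℂ = ⟪(a : H), (u.1 * x.1 * star u.1) ξ⟫_ℂ := fun u a x => by
    rw [ContinuousLinearMap.adjoint_inner_left, hα]; rfl
  have hβn : ∀ u a, ‖β u a‖ ≤ C * ‖a‖ := fun u a =>
    (β u).le_of_opNorm_le (by simpa [β] using hαn u) a
  have hββ : ∀ u v a, β u (β v a) = β ⟨v.1 * u.1, ctU_mul v.2 u.2⟩ a := fun u v a => by
    refine hext _ _ fun x => ?_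
    rw [hβ, hβ]
    have := hβ v a (cj u x)
    refine Eq.trans this ?_
    simp only [cj, LinearMap.coe_mk, AddHom.coe_mk, star_mul, mul_assoc]
  have h1U : (1 : H →L[ℂ] H) ∈ ctU M e := ⟨one_mem _, one_mem _, by simp⟩
  have hβ1 : ∀ a, β ⟨1, h1U⟩ a = a := fun a => hext _ _ fun x => by
    rw [hβ]; simp only [one_mul, star_one, mul_one]; rfl
  have : Nonempty (ctU M e) := ⟨⟨1, h1U⟩⟩
  let L : Set H0 := {a | ∀ x ∈ ctA M e, (⟪(a : H), (star x * x) ξ⟫_ℂ).im = 0 ∧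
    ∀ t : ℝ, (∀ u ∈ ctU M e, t ≤ ‖(x * u) ξ‖ ^ 2) → t ≤ (⟪(a : H), (star x * x) ξ⟫_ℂ).re}
  have hee : e * e = e := he.isIdempotentElem
  obtain ⟨a, ha, hfix⟩ := ct_fixed β hC hβn (fun u a => by
      have e1 : β ⟨star u.1, ctU_star he u.2⟩ (β u a) = a := by
        rw [hββ]
        refine Eq.trans ?_ (hβ1 a)
        congr 2
        exact Subtype.ext u.2.2.1.2
      simpa only [e1] using hβn ⟨star u.1, ctU_star he u.2⟩ (β u a))
    (fun u v => ⟨_, hββ u v⟩) (L := L) (by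
      simp only [L, Set.ofPred_forall, Set.ofPred_and]
      refine isClosed_iInter fun x => isClosed_iInter fun _ => IsClosed.inter
        (isClosed_eq (by fun_prop) continuous_const)
        (isClosed_iInter fun t => isClosed_iInter fun _ => isClosed_le continuous_const
          (by fun_prop))) (by
      intro a ha b hb' x hx
      have e1 : ⟪(((2⁻¹ : ℂ) • (a + b) : H0) : H), (star x * x) ξ⟫_ℂ =
          ((2⁻¹ : ℝ) : ℂ) * (⟪(a : H), (star x * x) ξ⟫_ℂ + ⟪(b : H), (star x * x) ξ⟫_ℂ) := by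
        rw [Submodule.coe_smul, Submodule.coe_add, inner_smul_left, inner_add_left]
        congr 1
        simp [map_ofNat]
      rw [e1, Complex.im_ofReal_mul, Complex.re_ofReal_mul, Complex.add_im, Complex.add_re,
        (ha x hx).1, (hb' x hx).1]
      refine ⟨by simp, fun t ht => ?_⟩
      linarith [(ha x hx).2 t ht, (hb' x hx).2 t ht])
    ⟨ev0 ⟨e, heM, hee, hee⟩, fun x hx => by
      have e1 : ⟪((ev0 ⟨e, heM, hee, hee⟩ : H0) : H), (star x * x) ξ⟫_ℂ =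
          ((‖x ξ‖ ^ 2 : ℝ) : ℂ) := by
        change ⟪e ξ, (star x * x) ξ⟫_ℂ = _
        rw [vn1_inner_star_mul, he.isSelfAdjoint.star_eq, ← mul_assoc, (ctA_star he hx).2.1,
          ← vn1_inner_star_mul, inner_self_eq_norm_sq_to_K]
        norm_cast
      rw [e1, Complex.ofReal_im, Complex.ofReal_re]
      exact ⟨rfl, fun t ht => by simpa using ht 1 h1U⟩⟩ (by
      intro u a ha x hx
      have e1 : ⟪((β u a : H0) : H), (star x * x) ξ⟫_ℂ =
          ⟪(a : H), (star (x * star u.1) * (x * star u.1)) ξ⟫_ℂ := by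
        refine Eq.trans (hβ u a ⟨_, ctA_mul (ctA_star he hx) hx⟩) ?_
        simp only [star_mul, star_star, mul_assoc]
      rw [e1]
      have := ha _ (ctA_right (ctU_star he u.2) hx)
      refine ⟨this.1, fun t ht => this.2 t fun v hv => ?_⟩
      rw [mul_assoc]
      exact ht _ (ctU_mul (ctU_star he u.2) hv))
  refine ⟨a, fun u hu x hx => ?_, fun x hx => ⟨(ha x hx).1, (ha x hx).2 _ fun u hu => ?_⟩⟩
  · have := hβ ⟨u, hu⟩ a ⟨x, hx⟩
    rw [hfix] at this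
    exact this.symm
  · have := hb _ (ctU_star he hu) _ (ctA_right hu hx)
    rw [mul_assoc, hu.2.1.2, mul_one] at this
    rw [div_le_iff₀ (by positivity), ← mul_pow, mul_comm]
    exact pow_le_pow_left₀ (norm_nonneg _) this 2

theorem cornerTrace (hz : ZornStmt.{u}) (hc : CSuppStmt.{u}) (hs : SeqStmt.{u}) :
    CornerTraceStmt.{u} := by
  intro H _ _ _ M z hcz hno h0
  obtain ⟨e, heM, ξ, C, hC, he, hze, he0, hsep, hall⟩ := ct_approx hz hc hs hcz hno h0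
  have hee : e * e = e := he.isIdempotentElem
  obtain ⟨ζ, h1, h2⟩ := ct_trace heM he hC (fun x hx => hall x hx.1 hx.2.1 hx.2.2)
  have hA : ∀ x ∈ M, e * x * e = x → x ∈ ctA M e := fun x hx h =>
    ⟨hx, by rw [← h, ← mul_assoc, ← mul_assoc, hee], by rw [← h, mul_assoc _ e e, hee]⟩
  refine ⟨e, ζ, ξ, heM, he, hze, he0, fun x hx y hy ex ey => ?_, fun x hx ex => ?_⟩
  · obtain ⟨u, c, hu, rfl⟩ := ct_span he (hA x hx ex)
    simp only [Finset.sum_mul, Finset.mul_sum, smul_mul_assoc, mul_smul_comm, sum_apply,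
      smul_apply, inner_sum, inner_smul_right]
    refine Finset.sum_congr rfl fun i _ => ?_
    have := h1 _ (hu i) _ (ctA_right (hu i) (hA y hy ey))
    rw [mul_assoc, mul_assoc, (hu i).2.1.2, mul_one] at this
    rw [this]
  · obtain ⟨a1, a2⟩ := h2 x (hA x hx ex)
    refine ⟨a1, le_trans (by positivity) a2, fun a3 => hsep x hx (hA x hx ex).2.2 ?_⟩
    rw [a3, div_le_iff₀ (by positivity), zero_mul] at a2
    exact norm_eq_zero.1 (pow_eq_zero_iff two_ne_zero |>.1 (le_antisymm a2 (sq_nonneg _)))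

end Crest.Agent.R121
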