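import Crest.Agent.R121.Base
import Crest.Agent.R124.VN1

/-! An approximately tracial vector state on a corner of the finite part. -/

set_option autoImplicit false

open scoped InnerProductSpace Topology
open Filter Crest.Agent.R124

noncomputable section

namespace Crest.Agent.R121

universe u

variable {H : Type u} [NormedAddCommGroup H] [InnerProductSpace ℂ H] [CompleteSpace H]

theorem ct_smul_mem {M : VonNeumannAlgebra H} (c : ℂ) {x : H →L[ℂ] H} (hx : x ∈ M) :
    c • x ∈ M := M.toStarSubalgebra.smul_mem hx c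

theorem ct_fin (hs : SeqStmt.{u}) {M : VonNeumannAlgebra H} {z p v : H →L[ℂ] H} (hz : NoPI M z)
    (hp : IsStarProjection p) (hv : v ∈ M) (h1 : star v * v = p) (h2 : p * v = v)
    (h3 : z * p = p) : v * star v = p := by
  have hpp : p * p = p := hp.isIdempotentElem
  have hps : star p = p := hp.isSelfAdjoint
  have hvp : v * p = v := vn1_mul_proj hp h1
  have hpM : p ∈ M := h1 ▸ mul_mem (star_mem hv) hv
  have h2' : star v * p = star v := by simpa [hps] using congrArg star h2
  set q := p - v * star v with hq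
  have hqv : q * v = 0 := by rw [hq, sub_mul, mul_assoc, h1, h2, hvp, sub_self]
  have hpq : p * q = q := by rw [hq, mul_sub, hpp, ← mul_assoc, h2]
  have hqs : star q = q := by simp [hq, hps]
  have hqq : q * q = q := by
    nth_rw 2 [hq]
    rw [mul_sub, ← mul_assoc, hqv, zero_mul, sub_zero]
    simpa [hqs, hps] using congrArg star hpq
  have hpn : ∀ n : ℕ, p * (v ^ n * q) = v ^ n * q := fun n => by
    rcases n with _ | n
    · simpa using hpq
    · rw [pow_succ', ← mul_assoc, ← mul_assoc, h2]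
  have key : ∀ n k : ℕ, star (v ^ n * q) * (v ^ (n + k) * q) = q * (v ^ k * q) := by
    intro n k
    induction n with
    | zero => simp [hqs]
    | succ n ih =>
      rw [← ih, Nat.add_right_comm, pow_succ' v n, pow_succ' v (n + k), mul_assoc v, mul_assoc v,
        star_mul v, mul_assoc, ← mul_assoc (star v), h1, hpn]
  have key' : ∀ n m : ℕ, n < m → star (v ^ n * q) * (v ^ m * q) = 0 := fun n m h => by
    obtain ⟨k, rfl⟩ := Nat.exists_eq_add_of_lt h
    rw [add_assoc, key, pow_succ', ← mul_assoc, ← mul_assoc, hqv, zero_mul, zero_mul]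
  have := hs H M z q hz ⟨hqq, hqs⟩ (fun n => v ^ n * q)
    (fun n => mul_mem (pow_mem hv n) (sub_mem hpM (mul_mem hv (star_mem hv))))
    (fun n => by rw [← hpn n, ← mul_assoc, h3]) (fun n m => by
      rcases lt_trichotomy n m with h | rfl | h
      · rw [key' n m h, if_neg h.ne]
      · simpa [hqq] using key n 0
      · have := congrArg star (key' m n h)
        rw [star_mul, star_star, star_zero] at this
        rw [this, if_neg h.ne'])
  exact (sub_eq_zero.1 this).symm

theorem ct_cyc (M : VonNeumannAlgebra H) (ξ : H) :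
    ∃ e ∈ M, IsStarProjection e ∧ e ξ = ξ ∧ ∀ x ∈ M, x ξ = 0 → x * e = 0 := by
  let S : Submodule ℂ H :=
    (Submodule.span ℂ {v : H | ∃ y ∈ M.commutant, v = y ξ}).topologicalClosure
  have hS : ∀ (x : H →L[ℂ] H) (T : Submodule ℂ H), IsClosed (T : Set H) →
      (∀ y ∈ M.commutant, x (y ξ) ∈ T) → ∀ η ∈ S, x η ∈ T := by
    intro x T hT h η hη
    have : S ≤ T.comap x.toLinearMap := by
      refine Submodule.topologicalClosure_minimal _ (Submodule.span_le.2 ?_)
        (hT.preimage x.continuous)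
      rintro _ ⟨y, hy, rfl⟩
      exact h y hy
    exact this hη
  have hmem : ∀ y ∈ M.commutant, y ξ ∈ S := fun y hy =>
    Submodule.le_topologicalClosure _ (Submodule.subset_span ⟨y, hy, rfl⟩)
  have hproj : IsStarProjection S.starProjection := isStarProjection_starProjection
  refine ⟨S.starProjection, ?_, hproj, ?_, fun x hx h0 => ?_⟩
  · rw [VonNeumannAlgebra.IsStarProjection.mem_iff hproj]
    intro y hy
    rw [Submodule.range_starProjection, Module.End.mem_invtSubmodule]
    intro η hη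
    exact hS y S (Submodule.isClosed_topologicalClosure _)
      (fun y' hy' => hmem _ (mul_mem hy hy')) η hη
  · exact Submodule.starProjection_eq_self_iff.2 (hmem 1 (one_mem _))
  · ext η
    have := hS x ⊥ (by simp) (fun y hy => by
      have h1 : x (y ξ) = y (x ξ) := congrArg (fun T : H →L[ℂ] H => T ξ) (vn1_comm_of_mem M hx hy)
      rw [h1, h0, map_zero]; exact Submodule.zero_mem _) _ (S.starProjection_apply_mem η)
    simpa using this

omit [CompleteSpace H] in
theorem ct_tendsto {Λ : Type u} {l : Filter Λ} {a : Λ → H →L[ℂ] H} {A : H →L[ℂ] H} {x : Λ → H}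
    {X : H} (ha : ∀ i, ‖a i‖ ≤ 1) (hA : ∀ η, Tendsto (fun i => a i η) l (𝓝 (A η)))
    (hx : Tendsto x l (𝓝 X)) : Tendsto (fun i => a i (x i)) l (𝓝 (A X)) := by
  have h1 : Tendsto (fun i => a i (x i - X)) l (𝓝 0) := by
    refine squeeze_zero_norm (fun i => ?_) (tendsto_iff_norm_sub_tendsto_zero.1 hx)
    simpa using (a i).le_of_opNorm_le (ha i) (x i - X)
  simpa using h1.add (hA X)

theorem ct_add_sq {w w' : H →L[ℂ] H} (h : star w * w' = 0) (ξ : H) :
    ‖(w + w') ξ‖ ^ 2 = ‖w ξ‖ ^ 2 + ‖w' ξ‖ ^ 2 := by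
  have : ⟪w ξ, w' ξ⟫_ℂ = 0 := by rw [vn1_inner_star_mul, h]; simp
  simpa [sq] using norm_add_sq_eq_norm_sq_add_norm_sq_of_inner_eq_zero _ _ this

/-- The class of partial isometries to which Zorn's lemma is applied. -/
structure CtP (M : VonNeumannAlgebra H) (E : H →L[ℂ] H) (ξ₁ ξ₂ : H) (lam : ℝ) (σ : Prop)
    (w : H →L[ℂ] H) : Prop where
  mem : w ∈ M
  iso : w * star w * w = w
  left : E * w = w
  right : w * E = w
  proj : σ → star w * w = w
  ineq : lam * ‖star w ξ₁‖ ^ 2 ≤ ‖w ξ₂‖ ^ 2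

theorem ct_max (hz : ZornStmt.{u}) (M : VonNeumannAlgebra H) (E : H →L[ℂ] H) (ξ₁ ξ₂ : H)
    (lam : ℝ) (σ : Prop) : ∃ w, CtP M E ξ₁ ξ₂ lam σ w ∧ ∀ w', CtP M E ξ₁ ξ₂ lam σ w' →
      star w * w' = 0 → w * star w' = 0 → w' = 0 := by
  obtain ⟨v, hv, hmax⟩ := hz H Unit () {v | CtP M E ξ₁ ξ₂ lam σ (v ())}
    ⟨zero_mem _, by simp, by simp, by simp, by simp, by simp⟩
    (fun v hv => ⟨vn1_isStarProjection_of hv.iso, fun _ => rfl⟩) (by
      intro v hv v' hv' h1 h2
      have a1 : star (v ()) * v' () = 0 := h1 () ()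
      have a1' : star (v' ()) * v () = 0 := by simpa using congrArg star a1
      have a2' : v' () * star (v ()) = 0 := by simpa using congrArg star h2
      change CtP M E ξ₁ ξ₂ lam σ (v () + v' ())
      refine ⟨add_mem hv.mem hv'.mem, ?_, by rw [mul_add, hv.left, hv'.left],
        by rw [add_mul, hv.right, hv'.right], fun hσ => ?_, ?_⟩
      · have b1 := hv.iso
        have b2 := hv'.iso
        simp only [star_add, add_mul, mul_add, h2, a2', add_zero, zero_add, b1, b2]
        simp only [mul_assoc, a1, a1', mul_zero, add_zero, zero_add]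
      · simp only [star_add, add_mul, mul_add, a1, a1', add_zero, zero_add, hv.proj hσ,
          hv'.proj hσ]
      · rw [star_add, ct_add_sq (by rwa [star_star]), ct_add_sq a1, mul_add]
        exact add_le_add hv.ineq hv'.ineq) (by
      intro Λ l _ v V hv h1 h2
      have hn : ∀ a, ‖v a ()‖ ≤ 1 := fun a =>
        vn1_norm_le_one (vn1_isStarProjection_of (hv a).iso) rfl
      have hn' : ∀ a, ‖star (v a ())‖ ≤ 1 := fun a => by rw [norm_star]; exact hn a
      change CtP M E ξ₁ ξ₂ lam σ (V ())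
      refine ⟨vn1_mem_of_comm M _ fun y hy => ?_, ?_, ?_, ?_, fun hσ => ?_, ?_⟩
      · ext η
        refine tendsto_nhds_unique ((y.continuous.tendsto _).comp (h1 () η)) ?_
        refine (h1 () (y η)).congr fun a => ?_
        exact congrArg (fun T : H →L[ℂ] H => T η) (vn1_comm_of_mem M (hv a).mem hy)
      · ext η
        change V () (star (V ()) (V () η)) = V () η
        refine tendsto_nhds_unique
          (ct_tendsto hn (h1 ()) (ct_tendsto hn' (h2 ()) (h1 () η))) ?_
        refine (h1 () η).congr fun a => ?_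
        exact (congrArg (fun T : H →L[ℂ] H => T η) (hv a).iso).symm
      · ext η
        refine tendsto_nhds_unique ((E.continuous.tendsto _).comp (h1 () η)) ?_
        refine (h1 () η).congr fun a => ?_
        exact (congrArg (fun T : H →L[ℂ] H => T η) (hv a).left).symm
      · ext η
        refine tendsto_nhds_unique (h1 () (E η)) ?_
        refine (h1 () η).congr fun a => ?_
        exact (congrArg (fun T : H →L[ℂ] H => T η) (hv a).right).symm
      · ext η
        change star (V ()) (V () η) = V () η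
        refine tendsto_nhds_unique (ct_tendsto hn' (h2 ()) (h1 () η)) ?_
        refine (h1 () η).congr fun a => ?_
        exact (congrArg (fun T : H →L[ℂ] H => T η) ((hv a).proj hσ)).symm
      · exact le_of_tendsto_of_tendsto' (((h2 () ξ₁).norm.pow 2).const_mul lam)
          ((h1 () ξ₂).norm.pow 2) fun a => (hv a).ineq)
  exact ⟨v (), hv, fun w' hw' h1 h2 => hmax (fun _ => w') hw' (fun _ _ => h1) h2⟩

theorem ct_step1 (hz : ZornStmt.{u}) (hc : CSuppStmt.{u}) (hs : SeqStmt.{u})
    {M : VonNeumannAlgebra H} {z E : H →L[ℂ] H} (hno : NoPI M z) (hEM : E ∈ M)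
    (hE : IsStarProjection E) (hzE : z * E = E) {ξ : H} (hξ : E ξ = ξ) (h0 : ξ ≠ 0) :
    ∃ w₁ ∈ M, w₁ ≠ 0 ∧ w₁ * star w₁ * w₁ = w₁ ∧ w₁ * E = w₁ ∧
      ∀ v ∈ M, v * star v * v = v → star w₁ * w₁ * v = v → v * (star w₁ * w₁) = v →
        ‖v ξ‖ ^ 2 ≤ 2 * ‖star v (star w₁ ξ)‖ ^ 2 := by
  obtain ⟨w, hw, hmax⟩ := ct_max hz M E ξ ξ 2 False
  have hEE : E * E = E := hE.isIdempotentElem
  have hEs : star E = E := hE.isSelfAdjoint
  have hl' : star w * E = star w := by simpa [hEs] using congrArg star hw.left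
  have hr' : E * star w = star w := by simpa [hEs] using congrArg star hw.right
  have hiso' : star w * w * star w = star w := by simpa [mul_assoc] using congrArg star hw.iso
  have hf := vn1_isStarProjection_of hw.iso
  have hg := vn1_isStarProjection_of' hw.iso
  have hgE : w * star w ≠ E := fun h => by
    have a1 : ‖star w ξ‖ ^ 2 = ‖ξ‖ ^ 2 := by
      rw [vn1_norm_sq, star_star, h, hξ, inner_self_eq_norm_sq_to_K]; norm_cast
    have a2 : ‖w ξ‖ ≤ ‖ξ‖ := by simpa using w.le_of_opNorm_le (vn1_norm_le_one hf rfl) ξ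
    have a3 := hw.ineq
    have a4 := norm_pos_iff.2 h0
    nlinarith [norm_nonneg (w ξ)]
  have hP : IsStarProjection (E - w * star w) :=
    hg.sub_of_mul_eq_right hE (by rw [← mul_assoc, hw.left])
  have hQ : IsStarProjection (E - star w * w) :=
    hf.sub_of_mul_eq_right hE (by rw [← mul_assoc, hr'])
  have hex : ∃ x ∈ M, (E - w * star w) * x * (E - star w * w) ≠ 0 := by
    by_contra hno'
    push Not at hno'
    obtain ⟨c, hcc, hc1, -, hc2⟩ := hc H M (E - w * star w)
      (sub_mem hEM (mul_mem hw.mem (star_mem hw.mem)))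
    have a1 : (E - star w * w) * c = 0 := hc2 _ fun x hx => by
      have := congrArg star (hno' (star x) (star_mem hx))
      rwa [star_mul, star_mul, hP.isSelfAdjoint.star_eq, hQ.isSelfAdjoint.star_eq, star_star,
        star_zero, ← mul_assoc] at this
    have hcc' : c * c = c := hcc.proj.isIdempotentElem
    have hcs : star c = c := hcc.proj.isSelfAdjoint
    have hcw := hcc.comm w hw.mem
    have hcw' := hcc.comm _ (star_mem hw.mem)
    have hcE := hcc.comm E hEM
    have a2 : star w * w * c = E * c := by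
      rw [sub_mul, sub_eq_zero] at a1; exact a1.symm
    have a3 := ct_fin hs (p := E * c) (v := w * c) hno (hE.mul hcc.proj hcE.symm)
      (mul_mem hw.mem hcc.mem)
      (by rw [star_mul, hcs, hcw', mul_assoc, ← mul_assoc c, hcw, mul_assoc w, hcc',
        ← mul_assoc, a2])
      (by rw [mul_assoc, ← mul_assoc c, hcw, mul_assoc w, hcc', ← mul_assoc, hw.left])
      (by rw [← mul_assoc, hzE])
    rw [star_mul, hcs, mul_assoc, ← mul_assoc c, hcc', ← mul_assoc, ← hcw, ← hcE] at a3
    rw [mul_sub, ← a3, mul_assoc, sub_self] at hc1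
    exact hgE (sub_eq_zero.1 hc1.symm).symm
  obtain ⟨x, hx, hx0⟩ := hex
  obtain ⟨w₁, h1, h2, h3, h4⟩ := polar H M _ _ _ hP hQ
    (mul_mem (mul_mem (sub_mem hEM (mul_mem hw.mem (star_mem hw.mem))) hx)
      (sub_mem hEM (mul_mem (star_mem hw.mem) hw.mem)))
    (by
      have b1 : (E - w * star w) * (E - w * star w) = E - w * star w := hP.isIdempotentElem
      have b2 : (E - star w * w) * (E - star w * w) = E - star w * w := hQ.isIdempotentElem
      rw [← mul_assoc, ← mul_assoc, b1, mul_assoc _ (E - star w * w), b2]) hx0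
  have hEw : E * w₁ = w₁ := by
    rw [← h4, ← mul_assoc, ← mul_assoc, mul_sub E, hEE, ← mul_assoc, hw.left]
  have hwE : w₁ * E = w₁ := by
    rw [← h4, mul_assoc _ _ E, sub_mul E (star w * w), hEE, mul_assoc (star w), hw.right]
  have hww : star w * w₁ = 0 := by
    rw [← h4, ← mul_assoc, ← mul_assoc, mul_sub (star w), hl', ← mul_assoc, hiso', sub_self,
      zero_mul, zero_mul]
  have hww' : w₁ * star w = 0 := by
    rw [← h4, mul_assoc _ _ (star w), sub_mul E (star w * w), hr', hiso', sub_self, mul_zero]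
  refine ⟨w₁, h1, h2, h3, hwE, fun v hv v1 v2 v3 => ?_⟩
  have e1 : star (w₁ * v) * (w₁ * v) = star v * v := by
    rw [star_mul, mul_assoc, ← mul_assoc (star w₁), v2]
  have e2 : ‖(w₁ * v) ξ‖ ^ 2 = ‖v ξ‖ ^ 2 := by rw [vn1_norm_sq, e1, ← vn1_norm_sq]
  have e3 : star (w₁ * v) ξ = star v (star w₁ ξ) := by rw [star_mul]; rfl
  by_contra hlt
  have := hmax (w₁ * v) ⟨mul_mem h1 hv, by
      rw [mul_assoc, e1, mul_assoc, ← mul_assoc v, v1], by rw [← mul_assoc, hEw], by
      rw [← v3]; simp only [mul_assoc, hwE], False.elim, by rw [e2, e3]; linarith⟩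
    (by rw [← mul_assoc, hww, zero_mul]) (by
      have : w₁ * v * star w = 0 := by
        rw [← v3]; simp only [mul_assoc, hww', mul_zero]
      simpa using congrArg star this)
  rw [← e2, this] at hlt
  exact hlt (by simp)

theorem ct_step2 (hz : ZornStmt.{u}) {M : VonNeumannAlgebra H} {F : H →L[ℂ] H} (hFM : F ∈ M)
    (hF : IsStarProjection F) {ξ : H} (h0 : F ξ ≠ 0) (ξ' : H) :
    ∃ e ∈ M, ∃ lam : ℝ, 0 < lam ∧ IsStarProjection e ∧ F * e = e ∧ e ≠ 0 ∧
      ∀ p ∈ M, IsStarProjection p → e * p = p → ‖p ξ'‖ ^ 2 ≤ lam * ‖p ξ‖ ^ 2 := by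
  have hpos : 0 < ‖F ξ‖ ^ 2 := by positivity
  obtain ⟨h, hh, hmax⟩ := ct_max hz M F ξ ξ' (‖F ξ'‖ ^ 2 / ‖F ξ‖ ^ 2 + 1) True
  have hFF : F * F = F := hF.isIdempotentElem
  have hFs : star F = F := hF.isSelfAdjoint
  have hproj : IsStarProjection h := hh.proj trivial ▸ vn1_isStarProjection_of hh.iso
  have hhh : h * h = h := hproj.isIdempotentElem
  have hhs : star h = h := hproj.isSelfAdjoint
  have he := hproj.sub_of_mul_eq_right hF hh.left
  refine ⟨F - h, sub_mem hFM hh.mem, ‖F ξ'‖ ^ 2 / ‖F ξ‖ ^ 2 + 1, by positivity, he,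
    by rw [mul_sub, hFF, hh.left], fun e0 => ?_, fun p hp hpp hep => ?_⟩
  · have := hh.ineq
    rw [← sub_eq_zero.1 e0, hFs, add_mul, div_mul_cancel₀ _ hpos.ne'] at this
    linarith
  · have p1 : p * p = p := hpp.isIdempotentElem
    have p2 : star p = p := hpp.isSelfAdjoint
    have a1 : h * p = 0 := by
      rw [← hep, ← mul_assoc, mul_sub, hh.right, hhh, sub_self, zero_mul]
    have a2 : F * p = p := by rw [← hep, ← mul_assoc, mul_sub, hFF, hh.left]
    by_contra hlt
    have := hmax p ⟨hp, by rw [p2, p1, p1], a2, by simpa [p2, hFs] using congrArg star a2,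
      fun _ => by rw [p2, p1], by rw [p2]; linarith⟩ (by rwa [hhs]) (by rwa [p2])
    rw [this] at hlt
    exact hlt (by simp)

/-- A functional that is positive on projections is positive. -/
theorem ct_pos {M : VonNeumannAlgebra H} {s : H →L[ℂ] H} (hsM : s ∈ M) (hs : IsStarProjection s)
    (ρ : (H →L[ℂ] H) →L[ℝ] ℝ)
    (hρ : ∀ r ∈ M, IsStarProjection r → s * r * s = r → 0 ≤ ρ r)
    {x : H →L[ℂ] H} (hx : x ∈ M) (hxs : x * s = x) : 0 ≤ ρ (star x * x) := by
  have hss : s * s = s := hs.isIdempotentElem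
  have hst : star s = s := hs.isSelfAdjoint
  have key : ∀ n : ℕ, ∀ b ∈ M, IsSelfAdjoint b → s * b * s = b →
      -(‖ρ‖ * ‖b‖ / 2 ^ n) ≤ ρ b + ‖b‖ * ρ s := by
    have hρs := hρ s hsM hs (by rw [hss, hss])
    intro n
    induction n with
    | zero =>
      intro b _ _ _
      have := (abs_le.1 (ρ.le_opNorm b)).1
      have : 0 ≤ ‖b‖ * ρ s := by positivity
      simp only [pow_zero, div_one]
      linarith
    | succ n ih =>
      intro b hb hbs hsb
      obtain ⟨r, r1, r2, r3, r4⟩ := signProj H M s b hs hsM hb hbs hsb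
      have r5 : star r = r := r2.isSelfAdjoint
      set b₁ := b - ((‖b‖ / 2 : ℝ) : ℂ) • (r - (s - r)) with hb₁
      have h1 := ih b₁ (sub_mem hb (ct_smul_mem _ (sub_mem r1 (sub_mem hsM r1))))
        (by simp [IsSelfAdjoint, hb₁, hbs.star_eq, r5, hst])
        (by simp only [hb₁, mul_sub, sub_mul, mul_smul_comm, smul_mul_assoc, hsb, r3, hss])
      have h2 : ρ b₁ = ρ b - ‖b‖ / 2 * (ρ r - (ρ s - ρ r)) := by
        rw [hb₁, Complex.coe_smul, map_sub, map_smul, map_sub, map_sub, smul_eq_mul]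
      have h3 := hρ r r1 r2 r3
      have h4 : ‖ρ‖ * ‖b₁‖ / 2 ^ n ≤ ‖ρ‖ * ‖b‖ / 2 ^ (n + 1) := by
        rw [pow_succ', ← div_div, mul_div_assoc ‖ρ‖ ‖b‖]
        gcongr
      have h5 : ‖b₁‖ * ρ s ≤ ‖b‖ / 2 * ρ s := by gcongr
      have h6 : 0 ≤ ‖b‖ * ρ r := by positivity
      nlinarith
  have hρs := hρ s hsM hs (by rw [hss, hss])
  have hsx : s * star x = star x := by simpa [hst] using congrArg star hxs
  set b := star x * x - ((‖x‖ ^ 2 / 2 : ℝ) : ℂ) • s with hb
  have hbn : ‖b‖ ≤ ‖x‖ ^ 2 / 2 := by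
    refine ContinuousLinearMap.opNorm_le_bound _ (by positivity) fun η => ?_
    have e1 : b η = star x (x (s η)) - ((‖x‖ ^ 2 / 2 : ℝ) : ℂ) • s η := by
      have : x (s η) = x η := congrArg (fun T : H →L[ℂ] H => T η) hxs
      rw [this]; rfl
    have e2 : ‖s η‖ ≤ ‖η‖ := by simpa using s.le_of_opNorm_le hs.norm_le η
    have e3 : ‖star x (x (s η))‖ ≤ ‖x‖ * ‖x (s η)‖ := by
      simpa using (star x).le_opNorm (x (s η))
    have e4 : (⟪star x (x (s η)), s η⟫_ℂ).re = ‖x (s η)‖ ^ 2 := by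
      rw [ContinuousLinearMap.star_eq_adjoint, ContinuousLinearMap.adjoint_inner_left,
        inner_self_eq_norm_sq_to_K]
      norm_cast
    refine le_trans (le_of_sq_le_sq ?_ (by positivity)) (mul_le_mul_of_nonneg_left e2
      (by positivity))
    rw [e1, @norm_sub_sq ℂ, inner_smul_right, norm_smul]
    simp only [RCLike.re_to_complex, Complex.re_ofReal_mul, e4, Complex.norm_real,
      Real.norm_eq_abs]
    rw [abs_of_nonneg (by positivity)]
    have e5 := pow_le_pow_left₀ (norm_nonneg _) e3 2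
    nlinarith
  have hlim : 0 ≤ ρ b + ‖b‖ * ρ s := by
    have h1 : Tendsto (fun n : ℕ => -(‖ρ‖ * ‖b‖ / 2 ^ n)) atTop (𝓝 (-0)) :=
      (tendsto_const_nhds.div_atTop (tendsto_pow_atTop_atTop_of_one_lt one_lt_two)).neg
    rw [neg_zero] at h1
    refine le_of_tendsto' h1 fun n => key n b
      (sub_mem (mul_mem (star_mem hx) hx) (ct_smul_mem _ hsM))
      (by simp [IsSelfAdjoint, hb, hst]) ?_
    simp only [hb, mul_sub, sub_mul, mul_smul_comm, smul_mul_assoc, hss]
    rw [← mul_assoc, hsx, mul_assoc, hxs]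
  have h2 : ρ b = ρ (star x * x) - ‖x‖ ^ 2 / 2 * ρ s := by
    rw [hb, Complex.coe_smul, map_sub, map_smul, smul_eq_mul]
  have h5 : ‖b‖ * ρ s ≤ ‖x‖ ^ 2 / 2 * ρ s := by gcongr
  linarith

/-- The real quadratic functional of a vector. -/
def ctQ (ξ : H) : (H →L[ℂ] H) →L[ℝ] ℝ :=
  Complex.reCLM.comp ((((innerSL ℂ ξ).comp (ContinuousLinearMap.apply ℂ H ξ))).restrictScalars ℝ)

omit [CompleteSpace H] in
theorem ctQ_apply (ξ : H) (a : H →L[ℂ] H) : ctQ ξ a = (⟪ξ, a ξ⟫_ℂ).re := rfl

theorem ct_all {M : VonNeumannAlgebra H} {e : H →L[ℂ] H} {ξ : H} {C : ℝ}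
    (h : ∀ v ∈ M, v * star v * v = v → e * v = v → v * e = v → ‖v ξ‖ ^ 2 ≤ C * ‖star v ξ‖ ^ 2)
    {x : H →L[ℂ] H} (hx : x ∈ M) (h1 : e * x = x) (h2 : x * e = x) :
    ‖x ξ‖ ^ 2 ≤ C * ‖star x ξ‖ ^ 2 := by
  obtain ⟨w, hw, w1, w2, w3, w4, w5⟩ := vn1_polar_aux M x hx
  have hew := w5 e h1
  have hwe : w * e = w := by
    have := vn1_mul_eq_zero (y := 1 - e) w2 (by rw [mul_sub, h2, mul_one, sub_self])
    rw [mul_sub, mul_one, sub_eq_zero] at this
    exact this.symm
  have hs := vn1_isStarProjection_of w4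
  have ha : star (CFC.abs x) = CFC.abs x := (IsSelfAdjoint.of_nonneg (CFC.abs_nonneg x)).star_eq
  have has : CFC.abs x * (star w * w) = CFC.abs x := by
    simpa [ha] using congrArg star w3
  have hxs : x * (star w * w) = x := by rw [← w1, mul_assoc, has]
  have hxx : star x * x = CFC.abs x * CFC.abs x := (CFC.abs_mul_abs x).symm
  have key := ct_pos (mul_mem (star_mem hw) hw) hs (C • ctQ (star w ξ) - ctQ ξ) (by
    intro r hr rp rs
    have r1 : r * r = r := rp.isIdempotentElem
    have r2 : star r = r := rp.isSelfAdjoint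
    have ss : star w * w * (star w * w) = star w * w := hs.isIdempotentElem
    have r3 : star w * w * r = r := by
      rw [← rs, ← mul_assoc (star w * w), ← mul_assoc (star w * w), ss]
    have e1 : star (w * r) * (w * r) = r := by
      rw [star_mul, r2, mul_assoc, ← mul_assoc (star w), r3, r1]
    have := h (w * r) (mul_mem hw hr) (by rw [mul_assoc, e1, mul_assoc, r1])
      (by rw [← mul_assoc, hew]) (by rw [← rs]; simp only [mul_assoc, hwe])
    have e2 : star (w * r) ξ = r (star w ξ) := by rw [star_mul, r2]; rfl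
    rw [vn1_norm_sq, e1, e2, vn1_norm_sq, r2, r1] at this
    simp only [sub_apply, smul_apply, ctQ_apply,
      smul_eq_mul]
    linarith) hx hxs
  simp only [sub_apply, smul_apply, ctQ_apply,
    smul_eq_mul] at key
  have e3 : ‖star x ξ‖ ^ 2 = (⟪star w ξ, (star x * x) (star w ξ)⟫_ℂ).re := by
    have : star x ξ = CFC.abs x (star w ξ) := by
      conv_lhs => rw [← w1, star_mul, ha]
      rfl
    rw [this, vn1_norm_sq, ha, hxx]
  rw [e3, vn1_norm_sq]
  linarith

theorem ct_approx (hz : ZornStmt.{u}) (hc : CSuppStmt.{u}) (hs : SeqStmt.{u})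
    {M : VonNeumannAlgebra H} {z : H →L[ℂ] H} (hcz : CProj M z) (hno : NoPI M z) (h0 : z ≠ 0) :
    ∃ e ∈ M, ∃ (ξ : H) (C : ℝ), 0 < C ∧ IsStarProjection e ∧ z * e = e ∧ e ≠ 0 ∧
      (∀ x ∈ M, x * e = x → x ξ = 0 → x = 0) ∧
      ∀ x ∈ M, e * x = x → x * e = x → ‖x ξ‖ ^ 2 ≤ C * ‖star x ξ‖ ^ 2 := by
  obtain ⟨η, hη⟩ : ∃ η, z η ≠ 0 := by
    by_contra hh
    push Not at hh
    exact h0 (ContinuousLinearMap.ext hh)
  have hzz : z * z = z := hcz.proj.isIdempotentElem
  obtain ⟨E, hEM, hE, hEξ, hsep⟩ := ct_cyc M (z η)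
  have hzE : z * E = E := by
    have := hsep (1 - z) (sub_mem (one_mem _) hcz.mem) (by
      have : z (z η) = z η := congrArg (fun T : H →L[ℂ] H => T η) hzz
      simp [this])
    rw [sub_mul, one_mul, sub_eq_zero] at this
    exact this.symm
  obtain ⟨w₁, w1, w2, w3, w4, w5⟩ := ct_step1 hz hc hs hno hEM hE hzE hEξ hη
  have hF := vn1_isStarProjection_of w3
  have hFE : star w₁ * w₁ * E = star w₁ * w₁ := by rw [mul_assoc, w4]
  have hEF : E * (star w₁ * w₁) = star w₁ * w₁ := by
    simpa [hE.isSelfAdjoint.star_eq] using congrArg star hFE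
  obtain ⟨e, heM, lam, hlam, he, hFe, he0, hmax⟩ := ct_step2 hz (mul_mem (star_mem w1) w1) hF
    (ξ := z η) (fun hh => w2 (by
      have := hsep _ (mul_mem (star_mem w1) w1) hh
      rw [hFE] at this
      exact CStarRing.star_mul_self_eq_zero_iff _ |>.1 this)) (star w₁ (z η))
  have heF : e * (star w₁ * w₁) = e := by
    simpa [he.isSelfAdjoint.star_eq] using congrArg star hFe
  have heE : e * E = e := by rw [← heF, mul_assoc, hFE]
  have hEe : E * e = e := by rw [← hFe, ← mul_assoc, hEF]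
  refine ⟨e, heM, z η, 2 * lam, by positivity, he, by rw [← hEe, ← mul_assoc, hzE], he0,
    fun x hx h1 h2 => ?_, fun x hx h1 h2 => ct_all (fun v hv v1 v2 v3 => ?_) hx h1 h2⟩
  · rw [← h1, ← heE, ← mul_assoc, h1]
    exact hsep x hx h2
  · have a1 := w5 v hv v1 (by rw [← v2, ← mul_assoc, hFe]) (by rw [← v3, mul_assoc, heF])
    have hp := vn1_isStarProjection_of' v1
    have a2 := hmax (v * star v) (mul_mem hv (star_mem hv)) hp (by rw [← mul_assoc, v2])
    have a3 : ∀ ζ, ‖(v * star v) ζ‖ ^ 2 = ‖star v ζ‖ ^ 2 := fun ζ => by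
      have b : v * star v * (v * star v) = v * star v := hp.isIdempotentElem
      rw [vn1_norm_sq, vn1_norm_sq, hp.isSelfAdjoint.star_eq, b, star_star]
    rw [a3, a3] at a2
    linarith

end Crest.Agent.R121
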