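import Crest.Prelude.Def_Hochschild
import Crest.Agent.Lib.Tracial.Basic
import Crest.Agent.R124.Defs

/-!
# Row 121 (S0161, vanishing of Hochschild cohomology): definitions and interface statements.

Every `...Stmt` below is a `Prop`; the proofs live in the other files of `Crest/Agent/R121/`.
Conventions: maps `c : A → A` are averaged on the LEFT, `c ↦ (y ↦ u⋆ c (u y))`.
-/

set_option autoImplicit false

open scoped InnerProductSpace Topology
open Filter Crest.Agent.Lib.Tracial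

noncomputable section

namespace Crest.Agent.R121

universe u

open Crest.Agent.R124 (IsMU)

/-! ### Minimal compact convex invariant sets -/

section Flow
variable {X : Type*} [AddCommGroup X] [Module ℝ X] [TopologicalSpace X]

/-- Nonempty, compact, convex and invariant under the maps in `S`. -/
structure Good (S : Set (X → X)) (K : Set X) : Prop where
  ne : K.Nonempty
  cpt : IsCompact K
  cvx : Convex ℝ K
  inv : ∀ θ ∈ S, ∀ c ∈ K, θ c ∈ K

/-- Minimal among the good sets, in elimination form: a closed convex set meeting `K` and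
invariant on `K` contains `K`. -/
structure IsMin (S : Set (X → X)) (K : Set X) : Prop extends Good S K where
  min : ∀ L : Set X, IsClosed L → Convex ℝ L → (K ∩ L).Nonempty →
    (∀ θ ∈ S, ∀ c ∈ K, c ∈ L → θ c ∈ L) → K ⊆ L

end Flow

/-! ### Weak topology data on a C⋆-algebra -/

/-- A space of functionals making bounded balls compact (a "predual"). -/
structure Pred (A : Type u) [CStarAlgebra A] where
  /-- the test functionals -/
  Ω : Submodule ℂ (A →L[ℂ] ℂ)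
  mulL : ∀ ω ∈ Ω, ∀ a : A, ∃ ω' ∈ Ω, ∀ x, ω' x = ω (a * x)
  mulR : ∀ ω ∈ Ω, ∀ a : A, ∃ ω' ∈ Ω, ∀ x, ω' x = ω (x * a)
  sep : ∀ x : A, (∀ ω ∈ Ω, ω x = 0) → x = 0
  cpt : ∀ (U : Ultrafilter A) (r : ℝ), (∀ᶠ x in (U : Filter A), ‖x‖ ≤ r) →
    ∃ x : A, ‖x‖ ≤ r ∧ ∀ ω ∈ Ω, Tendsto ω (U : Filter A) (𝓝 (ω x))

/-- Maps `A → A` with the topology of pointwise weak convergence. -/
@[nolint unusedArguments]
def Fl {A : Type u} [CStarAlgebra A] (_D : Pred A) : Type u := A → A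

section Alg
variable {A : Type u} [CStarAlgebra A]

instance (D : Pred A) : AddCommGroup (Fl D) := inferInstanceAs (AddCommGroup (A → A))
instance (D : Pred A) : Module ℝ (Fl D) := inferInstanceAs (Module ℝ (A → A))
instance (D : Pred A) : CoeFun (Fl D) (fun _ => A → A) := ⟨fun c => c⟩
instance (D : Pred A) : TopologicalSpace (Fl D) :=
  TopologicalSpace.induced (fun (c : Fl D) (p : A × D.Ω) => (p.2 : A →L[ℂ] ℂ) (c p.1))
    inferInstance

/-- Averaging by a unitary. -/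
def uact {D : Pred A} (u : A) (c : Fl D) : Fl D := fun y => star u * c (u * y)

/-- Averaging by a column. -/
def cact {D : Pred A} {ι : Type} [Fintype ι] (n : ι → A) (c : Fl D) : Fl D :=
  fun y => ∑ i, star (n i) * c (n i * y)

/-- The maps `uact u`, `u ∈ Γ`. -/
def uS (D : Pred A) (Γ : Set A) : Set (Fl D → Fl D) := {θ | ∃ u ∈ Γ, θ = uact u}

/-- The maps `cact n` for all finite isometric columns `n`. -/
def cS (D : Pred A) : Set (Fl D → Fl D) :=
  {θ | ∃ (ι : Type) (_ : Fintype ι) (n : ι → A), ∑ i, star (n i) * n i = 1 ∧ θ = cact n}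

/-- Complex linear and bounded by `r`. -/
structure LinB (r : ℝ) (c : A → A) : Prop where
  lin : IsLinearMap ℂ c
  bd : ∀ y, ‖c y‖ ≤ r * ‖y‖

/-- The unitaries commuting with all `e i j`. -/
def comU {I : Type} (e : I → I → A) : Set A :=
  {u | u ∈ unitary A ∧ ∀ i j, u * e i j = e i j * u}

/-- Left modular over the `e i j`. -/
def Modu {I : Type} (e : I → I → A) (c : A → A) : Prop :=
  ∀ i j y, c (e i j * y) = e i j * c y

/-- Order-free consequence of the polar decomposition. -/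
def HasPolar (A : Type u) [CStarAlgebra A] : Prop :=
  ∀ x : A, ∃ w : A, w * star w * w = w ∧ x * (star w * w) = x ∧
    (∀ p, p * x = x → p * w = w) ∧ (∀ y, x * y = 0 → w * y = 0)

/-- Uniform `‖·‖₂`-continuity on the unit ball. -/
def NormalMod (τ : TrState A) (K : Set (A → A)) : Prop :=
  ∀ ε : ℝ, 0 < ε → ∃ η : ℝ, 0 < η ∧
    ∀ c ∈ K, ∀ y : A, ‖y‖ ≤ 1 → τ.n2 y ≤ η → τ.n2 (c y) ≤ ε

/-- A system of matrix units whose sum is central and carries the trace. -/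
structure TrMU (τ : TrState A) {I : Type} [Fintype I] (e : I → I → A) : Prop where
  mu : IsMU e
  central : ∀ x, (∑ i, e i i) * x = x * ∑ i, e i i
  tr : τ (∑ i, e i i) = 1

end Alg

/-! ### Abstract statements -/

/-- Markov–Kakutani. -/
def MKStmt : Prop :=
  ∀ (X : Type u) [AddCommGroup X] [Module ℝ X] [TopologicalSpace X] [IsTopologicalAddGroup X]
    [ContinuousSMul ℝ X] [T2Space X] (S : Set (X → X)) (K : Set X), Good S K →
    (∀ θ ∈ S, Continuous θ ∧ IsLinearMap ℝ θ) →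
    (∀ θ ∈ S, ∀ θ' ∈ S, ∀ c ∈ K, θ (θ' c) = θ' (θ c)) → ∃ c ∈ K, ∀ θ ∈ S, θ c = c

/-- An invariant set of linear maps contains a map modular over given matrix units. -/
def ModStmt : Prop :=
  ∀ (A : Type u) [CStarAlgebra A] (D : Pred A) (K : Set (Fl D)), Good (uS D (unitary A)) K →
    (∀ c ∈ K, IsLinearMap ℂ (c : A → A)) →
    ∀ (I : Type) [Fintype I] (e : I → I → A), IsMU e → ∃ c ∈ K, Modu e (c : A → A)

/-- The homogeneous type I case. -/
def TypeIStmt : Prop :=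
  ∀ (A : Type u) [CStarAlgebra A] (D : Pred A) (r : ℝ) (K : Set (Fl D)),
    IsMin (uS D (unitary A)) K → (∀ c ∈ K, LinB r (c : A → A)) →
    ∀ (I : Type) [Fintype I] (e : I → I → A), IsMU e →
      (∀ x, (∑ i, e i i) * x = x * ∑ i, e i i) →
      (∀ a i j x, (∑ k, e k i * a * e j k) * x = x * ∑ k, e k i * a * e j k) →
      ∀ c ∈ K, ∀ a y, (∑ i, e i i) * (c (a * y) - a * c y) = 0

/-- Mean ergodic theorem for conjugation on `L²(τ)`; `Q b x = τ (P b * x)` where `P` is the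
orthogonal projection onto the `Γ`-invariant vectors of `L²(τ)`. -/
def DixStmt : Prop :=
  ∀ (A : Type u) [CStarAlgebra A] (τ : TrState A) (Γ : Set A), Γ ⊆ unitary A → (1 : A) ∈ Γ →
    (∀ u ∈ Γ, ∀ v ∈ Γ, u * v ∈ Γ) → (∀ u ∈ Γ, star u ∈ Γ) →
    ∃ Q : A →ₗ[ℂ] A →ₗ[ℂ] ℂ,
      (∀ b x, ‖Q b x‖ ≤ τ.n2 b * τ.n2 x) ∧ (∀ b x, Q b x = Q x b) ∧
      (∀ b, ∀ u ∈ Γ, ∀ x, Q b (u * x) = Q b (x * u)) ∧
      (∀ b x, (∀ u ∈ Γ, u * x = x * u) → Q b x = τ (b * x)) ∧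
      ∀ (b : A) (η : ℝ), 0 < η → ∃ (ι : Type) (_ : Fintype ι) (w : ι → ℝ) (u : ι → A),
        (∀ k, 0 ≤ w k) ∧ ∑ k, w k = 1 ∧ (∀ k, u k ∈ Γ) ∧
        ∀ x, ‖τ ((∑ k, w k • (star (u k) * b * u k)) * x) - Q b x‖ ≤ η * τ.n2 x

/-- (A) The diameter of a minimal set of modular maps is small as maps into `L²`. -/
def TreeStmt : Prop :=
  ∀ (A : Type u) [CStarAlgebra A] (D : Pred A) (τ : TrState A), τ.clm ∈ D.Ω →
    ∀ (I : Type) [Fintype I] (e : I → I → A) (T : ℕ), Fintype.card I = 2 ^ T → TrMU τ e →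
    ∀ (r : ℝ) (K : Set (Fl D)), IsMin (uS D (comU e)) K →
      (∀ c ∈ K, LinB r (c : A → A) ∧ Modu e (c : A → A)) →
      ∀ c ∈ K, ∀ c' ∈ K, ∀ x, (T : ℝ) * τ.n2 (c x - c' x) ^ 2 ≤ 16 * r ^ 2 * ‖x‖ ^ 2

/-- (B) Maps in a minimal set are uniformly `‖·‖₂`-continuous on the unit ball. -/
def NormalStmt : Prop :=
  ∀ (A : Type u) [CStarAlgebra A] (D : Pred A) (τ : TrState A), τ.clm ∈ D.Ω → HasPolar A →
    ∀ (r : ℝ) (K : Set (Fl D)), IsMin (uS D (unitary A)) K → (∀ c ∈ K, LinB r (c : A → A)) →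
      NormalMod τ (K : Set (A → A))

/-- (C) Upgrade of a uniform `A → L²` bound to a column bound. -/
def SliceStmt : Prop :=
  ∀ (A : Type u) [CStarAlgebra A] (D : Pred A) (τ : TrState A), τ.clm ∈ D.Ω →
    ∀ (I : Type) [Fintype I] (e : I → I → A), TrMU τ e →
    ∀ (r : ℝ) (K : Set (Fl D)), IsMin (uS D (comU e)) K →
      (∀ c ∈ K, LinB r (c : A → A) ∧ Modu e (c : A → A)) → NormalMod τ (K : Set (A → A)) →
      (∀ (ι : Type) [Fintype ι] (y : ι → A) (c : ι → Fl D), (∀ l, c l ∈ K) →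
        ∑ l, τ.n2 (c l (y l)) ^ 2 ≤ 12 * r ^ 2 * ‖∑ l, star (y l) * y l‖) ∧
      ∀ ε : ℝ, 0 ≤ ε → (∀ c ∈ K, ∀ c' ∈ K, ∀ x, τ.n2 (c x - c' x) ≤ ε * ‖x‖) →
        ∀ (ι : Type) [Fintype ι] (y : ι → A) (c c' : ι → Fl D), (∀ l, c l ∈ K ∧ c' l ∈ K) →
          ∑ l, τ.n2 (c l (y l) - c' l (y l)) ^ 2 ≤ 48 * ε ^ 2 * ‖∑ l, star (y l) * y l‖

/-- Pietsch domination. -/
def PietschStmt : Prop :=
  ∀ (A : Type u) [CStarAlgebra A] (J : Type u) (q : J → ℝ) (y : J → A),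
    (∀ (ι : Type) [Fintype ι] (j : ι → J) (t : ι → ℝ), (∀ l, 0 ≤ t l) →
      ∑ l, t l * q (j l) ≤ ‖∑ l, (t l : ℂ) • (star (y (j l)) * y (j l))‖) →
    ∃ f : A →ₗ[ℂ] ℂ, (∀ x, 0 ≤ (f (star x * x)).re ∧ (f (star x * x)).im = 0) ∧
      (f 1).re ≤ 1 ∧ ∀ j, q j ≤ (f (star (y j) * y j)).re

/-- (D) Application of the solution of the similarity problem. -/
def SimStmt : Prop :=
  ∃ C : ℝ, ∀ (A : Type u) [CStarAlgebra A] (τ : TrState A) (I : Type) [Fintype I]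
    (e : I → I → A), TrMU τ e → ∀ (c : A → A), IsLinearMap ℂ c → Modu e c →
    ∀ R ε : ℝ, 0 < R → 0 < ε →
      (∀ (ι : Type) [Fintype ι] (y : ι → A),
        ∑ l, τ.n2 (c (y l)) ^ 2 ≤ R ^ 2 * ‖∑ l, star (y l) * y l‖) →
      (∀ (ι : Type) [Fintype ι] (y u : ι → A), (∀ l, u l ∈ comU e) →
        ∑ l, τ.n2 (star (u l) * c (u l * y l) - c (y l)) ^ 2 ≤ ε ^ 2 * ‖∑ l, star (y l) * y l‖) →
      ∀ x, τ.n2 (c x - x * c 1) ≤ C * ε * ‖x‖

/-- The type II₁ case. -/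
def TypeIIStmt : Prop :=
  ∀ (A : Type u) [CStarAlgebra A] (D : Pred A) (τ : TrState A), τ.clm ∈ D.Ω → HasPolar A →
    (∀ T : ℕ, ∃ e : Fin (2 ^ T) → Fin (2 ^ T) → A, TrMU τ e) →
    ∀ (r : ℝ) (K : Set (Fl D)), IsMin (uS D (unitary A)) K → (∀ c ∈ K, LinB r (c : A → A)) →
      ∀ c ∈ K, ∀ a y, τ.n2 (c (a * y) - a * c y) = 0

/-- From averaging theorems for single maps to coboundaries. -/
def AssembleStmt : Prop :=
  ∀ (A : Type u) [CStarAlgebra A] (D : Pred A) (S : Set (Fl D → Fl D)), S ⊆ cS D →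
    ∀ (Q : ℝ → Set (Fl D)), (∀ r, IsClosed (Q r)) → (∀ r, Convex ℝ (Q r)) →
      (∀ r, ∀ c ∈ Q r, LinB r (c : A → A)) → (∀ r, ∀ θ ∈ S, ∀ c ∈ Q r, θ c ∈ Q r) →
    ∀ e : A, (∀ x, e * x = x * e) →
      (∀ (r : ℝ) (K : Set (Fl D)), IsMin S K → K ⊆ Q r →
        ∀ c ∈ K, ∀ a y, e * (c (a * y) - a * c y) = 0) →
    ∀ (n : ℕ) (f : ContinuousMultilinearMap ℂ (fun _ : Fin (n + 1) => A) A),
      (∀ a : Fin (n + 2) → A, Crest.OpAlg.hochschildDiff f a = 0) →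
      ∀ C : ℝ, (∀ x : Fin n → A,
        (fun y => f (Fin.cons y x) : A → A) ∈ Q (C * ∏ i, ‖x i‖)) →
      ∃ g : ContinuousMultilinearMap ℂ (fun _ : Fin n => A) A,
        ∀ a : Fin (n + 1) → A, Crest.OpAlg.hochschildDiff g a = e * f a

/-! ### Von Neumann algebras -/

section VN
variable {H : Type u} [NormedAddCommGroup H] [InnerProductSpace ℂ H] [CompleteSpace H]

instance vnClosed (M : VonNeumannAlgebra H) :
    IsClosed (M.toStarSubalgebra : Set (H →L[ℂ] H)) := by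
  have : (M.toStarSubalgebra : Set (H →L[ℂ] H)) =
      Set.centralizer (Set.centralizer (M : Set (H →L[ℂ] H))) := M.centralizer_centralizer'.symm
  rw [this]
  exact Set.isClosed_centralizer _

/-- The von Neumann algebra as a type. -/
abbrev Alg (M : VonNeumannAlgebra H) : Type u := M.toStarSubalgebra

/-- The vector functional `x ↦ ⟪ζ, x ξ⟫`. -/
def vecFun (M : VonNeumannAlgebra H) (ζ ξ : H) : Alg M →L[ℂ] ℂ :=
  (innerSL ℂ ζ).comp (((ContinuousLinearMap.apply ℂ H ξ)).comp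
    (M.toStarSubalgebra.toSubalgebra.toSubmodule.subtypeL))

/-- The span of the vector functionals. -/
def vecSpan (M : VonNeumannAlgebra H) : Submodule ℂ (Alg M →L[ℂ] ℂ) :=
  Submodule.span ℂ {ω | ∃ ζ ξ : H, ω = vecFun M ζ ξ}

/-- Complete boundedness by `r`. -/
def CB (M : VonNeumannAlgebra H) (r : ℝ) (c : Alg M → Alg M) : Prop :=
  ∀ (I J : Type) [Fintype I] [Fintype J] (X : I → J → Alg M),
    (∀ η : J → H, ∑ i, ‖∑ j, (X i j : H →L[ℂ] H) (η j)‖ ^ 2 ≤ ∑ j, ‖η j‖ ^ 2) →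
    ∀ η : J → H, ∑ i, ‖∑ j, (c (X i j) : H →L[ℂ] H) (η j)‖ ^ 2 ≤ r ^ 2 * ∑ j, ‖η j‖ ^ 2

/-- Central projections of `M`. -/
structure CProj (M : VonNeumannAlgebra H) (z : H →L[ℂ] H) : Prop where
  mem : z ∈ M
  proj : IsStarProjection z
  comm : ∀ x ∈ M, z * x = x * z

/-- `q` is properly infinite. -/
def PI (M : VonNeumannAlgebra H) (q : H →L[ℂ] H) : Prop :=
  ∃ s₁ ∈ M, ∃ s₂ ∈ M, star s₁ * s₁ = q ∧ star s₂ * s₂ = q ∧ star s₁ * s₂ = 0 ∧
    q * s₁ = s₁ ∧ q * s₂ = s₂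

/-- No nonzero properly infinite projection below `z`. -/
def NoPI (M : VonNeumannAlgebra H) (z : H →L[ℂ] H) : Prop :=
  ∀ q ∈ M, IsStarProjection q → z * q = q → PI M q → q = 0

/-- `e M e` is commutative. -/
def Abel (M : VonNeumannAlgebra H) (e : H →L[ℂ] H) : Prop :=
  ∀ x ∈ M, ∀ y ∈ M, e * x * e * y * e = e * y * e * x * e

end VN

/-- Vector functionals form a predual, and polar decomposition holds. -/
def VecStmt : Prop :=
  ∀ (H : Type u) [NormedAddCommGroup H] [InnerProductSpace ℂ H] [CompleteSpace H]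
    (M : VonNeumannAlgebra H), (∃ D : Pred (Alg M), D.Ω = vecSpan M) ∧ HasPolar (Alg M)

/-- Central support. -/
def CSuppStmt : Prop :=
  ∀ (H : Type u) [NormedAddCommGroup H] [InnerProductSpace ℂ H] [CompleteSpace H]
    (M : VonNeumannAlgebra H) (b : H →L[ℂ] H), b ∈ M →
    ∃ z, CProj M z ∧ z * b = b ∧
      (∀ ξ, z ξ ∈ (Submodule.span ℂ {v : H | ∃ x ∈ M, ∃ η, v = x (b η)}).topologicalClosure) ∧
      ∀ q : H →L[ℂ] H, (∀ x ∈ M, q * x * b = 0) → q * z = 0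

/-- Zorn's lemma for tuples of partial isometries with a common initial projection. -/
def ZornStmt : Prop :=
  ∀ (H : Type u) [NormedAddCommGroup H] [InnerProductSpace ℂ H] [CompleteSpace H]
    (ι : Type) (i₀ : ι) (𝒮 : Set (ι → (H →L[ℂ] H))), (0 : ι → (H →L[ℂ] H)) ∈ 𝒮 →
    (∀ v ∈ 𝒮, IsStarProjection (star (v i₀) * v i₀) ∧
      ∀ i, star (v i) * v i = star (v i₀) * v i₀) →
    (∀ v ∈ 𝒮, ∀ v' ∈ 𝒮, (∀ i j, star (v i) * v' j = 0) → v i₀ * star (v' i₀) = 0 →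
      v + v' ∈ 𝒮) →
    (∀ (Λ : Type u) (l : Filter Λ) [l.NeBot] (v : Λ → ι → (H →L[ℂ] H)) (V : ι → (H →L[ℂ] H)),
      (∀ a, v a ∈ 𝒮) → (∀ i ξ, Tendsto (fun a => v a i ξ) l (𝓝 (V i ξ))) →
      (∀ i ξ, Tendsto (fun a => (star (v a i)) ξ) l (𝓝 ((star (V i)) ξ))) → V ∈ 𝒮) →
    ∃ v ∈ 𝒮, ∀ v' ∈ 𝒮, (∀ i j, star (v i) * v' j = 0) → v i₀ * star (v' i₀) = 0 → v' i₀ = 0

/-- Decomposition into a properly infinite and a finite part. -/
def DecompStmt : Prop :=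
  ∀ (H : Type u) [NormedAddCommGroup H] [InnerProductSpace ℂ H] [CompleteSpace H]
    (M : VonNeumannAlgebra H), ∃ z, CProj M z ∧ PI M z ∧ NoPI M (1 - z)

/-- No infinite sequence of orthogonal copies in the finite part. -/
def SeqStmt : Prop :=
  ∀ (H : Type u) [NormedAddCommGroup H] [InnerProductSpace ℂ H] [CompleteSpace H]
    (M : VonNeumannAlgebra H) (z e : H →L[ℂ] H), NoPI M z → IsStarProjection e →
    ∀ v : ℕ → (H →L[ℂ] H), (∀ n, v n ∈ M) → (∀ n, z * v n = v n) →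
      (∀ n m, star (v n) * v m = if n = m then e else 0) → e = 0

/-- A central piece of the finite part is covered by finitely many copies of `e`. -/
def FinCoverStmt : Prop :=
  ∀ (H : Type u) [NormedAddCommGroup H] [InnerProductSpace ℂ H] [CompleteSpace H]
    (M : VonNeumannAlgebra H) (z₀ e : H →L[ℂ] H), CProj M z₀ → NoPI M z₀ → e ∈ M →
    IsStarProjection e → z₀ * e = e → e ≠ 0 →
    ∃ (z : H →L[ℂ] H) (k : ℕ) (v : Fin (k + 1) → (H →L[ℂ] H)) (w : H →L[ℂ] H),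
      CProj M z ∧ z₀ * z = z ∧ z * e ≠ 0 ∧ (∀ i, v i ∈ M) ∧ w ∈ M ∧
      (∀ i j, star (v i) * v j = if i = j then z * e else 0) ∧ (∀ i, star (v i) * w = 0) ∧
      w * star w * w = w ∧ w * (z * e) = w ∧ (∑ i, v i * star (v i)) + w * star w = z

/-- A faithful normal trace on a corner of the finite part. -/
def CornerTraceStmt : Prop :=
  ∀ (H : Type u) [NormedAddCommGroup H] [InnerProductSpace ℂ H] [CompleteSpace H]
    (M : VonNeumannAlgebra H) (z₀ : H →L[ℂ] H), CProj M z₀ → NoPI M z₀ → z₀ ≠ 0 →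
    ∃ (e : H →L[ℂ] H) (ζ ξ : H), e ∈ M ∧ IsStarProjection e ∧ z₀ * e = e ∧ e ≠ 0 ∧
      (∀ x ∈ M, ∀ y ∈ M, e * x * e = x → e * y * e = y → ⟪ζ, (x * y) ξ⟫_ℂ = ⟪ζ, (y * x) ξ⟫_ℂ) ∧
      ∀ x ∈ M, e * x * e = x → (⟪ζ, (star x * x) ξ⟫_ℂ).im = 0 ∧
        0 ≤ (⟪ζ, (star x * x) ξ⟫_ℂ).re ∧ ((⟪ζ, (star x * x) ξ⟫_ℂ).re = 0 → x = 0)

/-- A faithful normal trace on a central piece of the finite part. -/
def TraceStmt : Prop :=
  ∀ (H : Type u) [NormedAddCommGroup H] [InnerProductSpace ℂ H] [CompleteSpace H]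
    (M : VonNeumannAlgebra H) (z₀ : H →L[ℂ] H), CProj M z₀ → NoPI M z₀ → z₀ ≠ 0 →
    ∃ (z : Alg M) (τ : TrState (Alg M)), CProj M (z : H →L[ℂ] H) ∧ z₀ * z = z ∧ z ≠ 0 ∧
      τ.clm ∈ vecSpan M ∧ τ z = 1 ∧ ∀ x, τ.n2 x = 0 → z * x = 0

/-- An abelian projection in the finite part gives a homogeneous central piece. -/
def AbelStmt : Prop :=
  ∀ (H : Type u) [NormedAddCommGroup H] [InnerProductSpace ℂ H] [CompleteSpace H]
    (M : VonNeumannAlgebra H) (z₀ p : H →L[ℂ] H), CProj M z₀ → NoPI M z₀ → p ∈ M →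
    IsStarProjection p → z₀ * p = p → p ≠ 0 → Abel M p →
    ∃ (I : Type) (_ : Fintype I) (e : I → I → Alg M), IsMU e ∧
      CProj M ((∑ i, e i i : Alg M) : H →L[ℂ] H) ∧
      z₀ * ((∑ i, e i i : Alg M) : H →L[ℂ] H) = (∑ i, e i i : Alg M) ∧ (∑ i, e i i) ≠ 0 ∧
      ∀ a i j x, (∑ k, e k i * a * e j k) * x = x * ∑ k, e k i * a * e j k

/-- Without abelian projections there are unital systems of matrix units of every size. -/
def NonAbelStmt : Prop :=
  ∀ (H : Type u) [NormedAddCommGroup H] [InnerProductSpace ℂ H] [CompleteSpace H]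
    (M : VonNeumannAlgebra H) (z : Alg M), CProj M (z : H →L[ℂ] H) →
    (∀ p ∈ M, IsStarProjection p → (z : H →L[ℂ] H) * p = p → Abel M p → p = 0) →
    ∀ d : ℕ, 1 ≤ d → ∃ e : Fin d → Fin d → Alg M, IsMU e ∧ ∑ i, e i i = z

/-- The averaging theorem on the finite part. -/
def FiniteStmt : Prop :=
  ∀ (H : Type u) [NormedAddCommGroup H] [InnerProductSpace ℂ H] [CompleteSpace H]
    (M : VonNeumannAlgebra H) (D : Pred (Alg M)), D.Ω = vecSpan M →
    ∀ z : Alg M, CProj M (z : H →L[ℂ] H) → NoPI M (z : H →L[ℂ] H) →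
    ∀ (r : ℝ) (K : Set (Fl D)), IsMin (uS D (unitary (Alg M))) K →
      (∀ c ∈ K, LinB r (c : Alg M → Alg M)) → ∀ c ∈ K, ∀ a y, z * (c (a * y) - a * c y) = 0

/-- The Christensen–Sinclair averaging theorem for completely bounded maps. -/
def CSStmt : Prop :=
  ∀ (H : Type u) [NormedAddCommGroup H] [InnerProductSpace ℂ H] [CompleteSpace H]
    (M : VonNeumannAlgebra H) (D : Pred (Alg M)), D.Ω = vecSpan M →
    ∀ (r : ℝ) (K : Set (Fl D)), IsMin (cS D) K →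
      (∀ c ∈ K, LinB r (c : Alg M → Alg M) ∧ CB M r (c : Alg M → Alg M)) →
      ∀ c ∈ K, ∀ a y, c (a * y) = a * c y

/-- The completely bounded maps form a closed convex invariant set. -/
def CBSetStmt : Prop :=
  ∀ (H : Type u) [NormedAddCommGroup H] [InnerProductSpace ℂ H] [CompleteSpace H]
    (M : VonNeumannAlgebra H) (D : Pred (Alg M)), D.Ω = vecSpan M → ∀ r : ℝ,
    IsClosed {c : Fl D | LinB r (c : Alg M → Alg M) ∧ CB M r (c : Alg M → Alg M)} ∧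
    Convex ℝ {c : Fl D | LinB r (c : Alg M → Alg M) ∧ CB M r (c : Alg M → Alg M)} ∧
    ∀ θ ∈ cS D, ∀ c : Fl D, LinB r (c : Alg M → Alg M) → CB M r (c : Alg M → Alg M) →
      LinB r (θ c : Alg M → Alg M) ∧ CB M r (θ c : Alg M → Alg M)

/-- On the properly infinite part a cocycle is cohomologous to one that is completely bounded
in the first variable. -/
def HomotopyStmt : Prop :=
  ∀ (H : Type u) [NormedAddCommGroup H] [InnerProductSpace ℂ H] [CompleteSpace H]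
    (M : VonNeumannAlgebra H) (D : Pred (Alg M)), D.Ω = vecSpan M →
    ∀ z : Alg M, CProj M (z : H →L[ℂ] H) → PI M (z : H →L[ℂ] H) →
    ∀ (n : ℕ) (f : ContinuousMultilinearMap ℂ (fun _ : Fin (n + 1) => Alg M) (Alg M)),
      (∀ a : Fin (n + 2) → Alg M, Crest.OpAlg.hochschildDiff f a = 0) →
      ∃ (h : ContinuousMultilinearMap ℂ (fun _ : Fin n => Alg M) (Alg M))
        (f' : ContinuousMultilinearMap ℂ (fun _ : Fin (n + 1) => Alg M) (Alg M)) (C : ℝ),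
        (∀ a, f' a = z * f a - Crest.OpAlg.hochschildDiff h a) ∧
        (∀ a : Fin (n + 2) → Alg M, Crest.OpAlg.hochschildDiff f' a = 0) ∧
        ∀ x : Fin n → Alg M, LinB (C * ∏ i, ‖x i‖) (fun y => f' (Fin.cons y x)) ∧
          CB M (C * ∏ i, ‖x i‖) (fun y => f' (Fin.cons y x))

end Crest.Agent.R121
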