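import Crest.Agent.R121.Base

/-! # Row 121: the mean ergodic theorem for conjugation on `L²(τ)`. -/

set_option autoImplicit false

open scoped InnerProductSpace Topology
open Filter Crest.Agent.Lib.Tracial

noncomputable section

namespace Crest.Agent.R121

universe u

section Hilb
variable {E : Type*} [NormedAddCommGroup E] [InnerProductSpace ℂ E] [CompleteSpace E]

/-- The common fixed vectors of a set of operators. -/
def dixFix (S : Set (E →L[ℂ] E)) : Submodule ℂ E where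
  carrier := {v | ∀ T ∈ S, T v = v}
  add_mem' ha hb T hT := by rw [map_add, ha T hT, hb T hT]
  zero_mem' T _ := map_zero T
  smul_mem' c v hv T hT := by rw [map_smul, hv T hT]

omit [CompleteSpace E] in
lemma dix_isClosed_fix (S : Set (E →L[ℂ] E)) : IsClosed (dixFix S : Set E) := by
  have : (dixFix S : Set E) = ⋂ T ∈ S, {v | T v = v} := by
    ext v; simp only [Set.mem_iInter]; rfl
  rw [this]
  exact isClosed_biInter fun T _ => isClosed_eq T.continuous continuous_id

instance dixHasProj (S : Set (E →L[ℂ] E)) : (dixFix S).HasOrthogonalProjection := by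
  have := (dix_isClosed_fix S).completeSpace_coe
  infer_instance

/-- Alaoglu–Birkhoff mean ergodic theorem for a semigroup of isometries. -/
lemma dix_ergodic (S : Set (E →L[ℂ] E)) (hne : S.Nonempty)
    (hiso : ∀ T ∈ S, ∀ x y, ⟪T x, T y⟫_ℂ = ⟪x, y⟫_ℂ)
    (hmul : ∀ T ∈ S, ∀ T' ∈ S, T.comp T' ∈ S) (v : E) :
    (dixFix S).starProjection v ∈ closure (convexHull ℝ {x | ∃ T ∈ S, x = T v}) := by
  set O : Set E := {x | ∃ T ∈ S, x = T v} with hO
  set C := closure (convexHull ℝ O) with hC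
  have hCc : Convex ℝ C := (convex_convexHull ℝ O).closure
  have hCne : C.Nonempty := by
    obtain ⟨T, hT⟩ := hne
    exact ⟨T v, subset_closure (subset_convexHull ℝ O ⟨T, hT, rfl⟩)⟩
  have hsub : ∀ L : Set E, IsClosed L → Convex ℝ L → O ⊆ L → C ⊆ L := fun L h1 h2 h3 =>
    closure_minimal (convexHull_min h3 h2) h1
  let _ : InnerProductSpace ℝ E := InnerProductSpace.rclikeToReal ℂ E
  obtain ⟨m, hm, hmin⟩ := exists_norm_eq_iInf_of_complete_convex hCne
    isClosed_closure.isComplete hCc 0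
  have hmin' : ∀ w ∈ C, ‖m‖ ≤ ‖w‖ := by
    intro w hw
    have h1 : (⨅ w : C, ‖(0 : E) - w‖) ≤ ‖(0 : E) - (⟨w, hw⟩ : C)‖ :=
      ciInf_le ⟨0, Set.forall_mem_range.2 fun _ => norm_nonneg _⟩ _
    rw [← hmin] at h1
    simpa using h1
  have hfix : m ∈ dixFix S := by
    intro T hT
    have hTm : T m ∈ C := by
      refine hsub (T ⁻¹' C) (isClosed_closure.preimage T.continuous)
        (hCc.linear_preimage ((T : E →ₗ[ℂ] E).restrictScalars ℝ)) ?_ hm
      rintro _ ⟨T', hT', rfl⟩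
      exact subset_closure (subset_convexHull ℝ O ⟨T.comp T', hmul T hT T' hT', rfl⟩)
    have hn : ‖T m‖ = ‖m‖ := by
      rw [@norm_eq_sqrt_re_inner ℂ, hiso T hT, ← @norm_eq_sqrt_re_inner ℂ]
    have hmid := hmin' _ (hCc hTm hm (a := 1 / 2) (b := 1 / 2) (by norm_num) (by norm_num)
      (by norm_num))
    rw [← smul_add, norm_smul, Real.norm_of_nonneg (by norm_num)] at hmid
    have hpar := parallelogram_law_with_norm ℂ (T m) m
    rw [hn] at hpar
    have h0 : ‖T m - m‖ = 0 := by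
      have := norm_nonneg (T m - m)
      have := norm_nonneg m
      nlinarith
    exact sub_eq_zero.1 (norm_eq_zero.1 h0)
  have : (dixFix S).starProjection v = m := by
    refine Submodule.eq_starProjection_of_mem_of_inner_eq_zero hfix fun w hw => ?_
    have : C ⊆ {x | ⟪x, w⟫_ℂ = ⟪v, w⟫_ℂ} := by
      refine hsub _ (isClosed_eq (by fun_prop) continuous_const) ?_ ?_
      · intro x hx y hy a b _ _ hab
        have hx : ⟪x, w⟫_ℂ = ⟪v, w⟫_ℂ := hx
        have hy : ⟪y, w⟫_ℂ = ⟪v, w⟫_ℂ := hy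
        show ⟪a • x + b • y, w⟫_ℂ = ⟪v, w⟫_ℂ
        rw [inner_add_left, ← Complex.coe_smul, ← Complex.coe_smul, inner_smul_left,
          inner_smul_left, hx, hy, Complex.conj_ofReal, Complex.conj_ofReal, ← add_mul,
          ← Complex.ofReal_add, hab, Complex.ofReal_one, one_mul]
      · rintro _ ⟨T, hT, rfl⟩
        show ⟪T v, w⟫_ℂ = ⟪v, w⟫_ℂ
        rw [← hiso T hT v w, hw T hT]
    rw [inner_sub_left, this hm, sub_self]
  rw [this]; exact hm

end Hilb

section Tr
variable {A : Type u} [CStarAlgebra A] (τ : TrState A)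

/-- The canonical map into the Hilbert space. -/
def dixJ : A →ₗ[ℂ] UniformSpace.Completion τ.L2 :=
  (UniformSpace.Completion.toComplₗᵢ (𝕜 := ℂ) (E := τ.L2)).toLinearMap ∘ₗ τ.toL2.toLinearMap

lemma dixJ_apply (x : A) : dixJ τ x = (τ.toL2 x : UniformSpace.Completion τ.L2) := rfl

lemma dixJ_inner (x y : A) : ⟪dixJ τ x, dixJ τ y⟫_ℂ = τ (star x * y) := by
  rw [dixJ_apply, dixJ_apply, UniformSpace.Completion.inner_coe, τ.inner_toL2]

lemma dixJ_norm (x : A) : ‖dixJ τ x‖ = τ.n2 x := by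
  rw [dixJ_apply, UniformSpace.Completion.norm_coe]; rfl

/-- Conjugation on the pre-Hilbert space. -/
def dixC0 (u : A) : τ.L2 →L[ℂ] τ.L2 :=
  LinearMap.mkContinuous
    (τ.toL2.toLinearMap ∘ₗ (LinearMap.mulRight ℂ u ∘ₗ LinearMap.mulLeft ℂ (star u)) ∘ₗ
      τ.toL2.symm.toLinearMap) (‖u‖ * ‖u‖) (fun x => by
      show τ.n2 (star u * τ.toL2.symm x * u) ≤ ‖u‖ * ‖u‖ * τ.n2 (τ.toL2.symm x)
      refine (τ.n2_mul_mul_le _ _ _).trans (le_of_eq ?_)
      rw [norm_star]; ring)

/-- Conjugation on the Hilbert space. -/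
def dixC (u : A) : UniformSpace.Completion τ.L2 →L[ℂ] UniformSpace.Completion τ.L2 :=
  (dixC0 τ u).completion

lemma dixC_J (u x : A) : dixC τ u (dixJ τ x) = dixJ τ (star u * x * u) := by
  rw [dixC, dixJ_apply, ContinuousLinearMap.completion_apply_coe]; rfl

lemma dixC_comp (u v : A) : (dixC τ u).comp (dixC τ v) = dixC τ (v * u) := by
  ext x
  induction x using UniformSpace.Completion.induction_on with
  | hp => exact isClosed_eq (by fun_prop) (by fun_prop)
  | ih x =>
    have : (x : UniformSpace.Completion τ.L2) = dixJ τ (τ.toL2.symm x) := rfl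
    rw [this, ContinuousLinearMap.comp_apply, dixC_J, dixC_J, dixC_J]
    simp only [star_mul, mul_assoc]

lemma dixC_inner {u : A} (hu : u ∈ unitary A) (x y : UniformSpace.Completion τ.L2) :
    ⟪dixC τ u x, dixC τ u y⟫_ℂ = ⟪x, y⟫_ℂ := by
  induction x, y using UniformSpace.Completion.induction_on₂ with
  | hp => exact isClosed_eq (by fun_prop) (by fun_prop)
  | ih x y =>
    have h1 : (x : UniformSpace.Completion τ.L2) = dixJ τ (τ.toL2.symm x) := rfl
    have h2 : (y : UniformSpace.Completion τ.L2) = dixJ τ (τ.toL2.symm y) := rfl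
    rw [h1, h2, dixC_J, dixC_J, dixJ_inner, dixJ_inner,
      ← τ.tr_conj_unitary' hu (star (τ.toL2.symm x) * τ.toL2.symm y)]
    congr 1
    simp only [star_mul, star_star, mul_assoc]
    rw [← mul_assoc u (star u), (Unitary.mem_iff.1 hu).2, one_mul]

end Tr

theorem dix : DixStmt.{u} := by
  intro A _ τ Γ hΓ h1 hmul hstar
  let S : Set (UniformSpace.Completion τ.L2 →L[ℂ] UniformSpace.Completion τ.L2) :=
    {T | ∃ u ∈ Γ, T = dixC τ u}
  let P := (dixFix S).starProjection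
  let Q : A →ₗ[ℂ] A →ₗ[ℂ] ℂ := LinearMap.mk₂ ℂ (fun b x => ⟪P (dixJ τ (star b)), dixJ τ x⟫_ℂ)
    (fun b b' x => by rw [star_add, map_add, map_add, inner_add_left])
    (fun c b x => by
      rw [star_smul, map_smul, map_smul, inner_smul_left]; simp)
    (fun b x x' => by rw [map_add, inner_add_right])
    (fun c b x => by rw [map_smul, inner_smul_right, smul_eq_mul])
  have hQ : ∀ b x, Q b x = ⟪P (dixJ τ (star b)), dixJ τ x⟫_ℂ := fun _ _ => rfl
  have hPfix : ∀ v, ∀ u ∈ Γ, dixC τ u (P v) = P v := fun v u hu =>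
    (dixFix S).starProjection_apply_mem v _ ⟨u, hu, rfl⟩
  have hconj : ∀ b, ∀ u ∈ Γ, ∀ x, Q b (star u * x * u) = Q b x := by
    intro b u hu x
    rw [hQ, hQ, ← dixC_J, ← dixC_inner τ (hΓ hu) (P _) (dixJ τ x), hPfix _ u hu]
  have happ : ∀ (b : A) (η : ℝ), 0 < η → ∃ (ι : Type) (_ : Fintype ι) (w : ι → ℝ) (u : ι → A),
      (∀ k, 0 ≤ w k) ∧ ∑ k, w k = 1 ∧ (∀ k, u k ∈ Γ) ∧
      ∀ x, ‖τ ((∑ k, w k • (star (u k) * b * u k)) * x) - Q b x‖ ≤ η * τ.n2 x := by
    intro b η hη
    have h := dix_ergodic S ⟨_, 1, h1, rfl⟩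
      (by rintro _ ⟨u, hu, rfl⟩; exact dixC_inner τ (hΓ hu))
      (by rintro _ ⟨u, hu, rfl⟩ _ ⟨v, hv, rfl⟩; exact ⟨v * u, hmul v hv u hu, dixC_comp τ u v⟩)
      (dixJ τ (star b))
    obtain ⟨z, hz, hd⟩ := Metric.mem_closure_iff.1 h η hη
    obtain ⟨ι, _, w, y, hw0, hw1, hy, rfl⟩ := mem_convexHull_iff_exists_fintype.1 hz
    choose T hT hyT using hy
    choose u hu hTu using hT
    refine ⟨ι, inferInstance, w, u, hw0, hw1, hu, fun x => ?_⟩
    have h2 : ∑ k, w k • y k = dixJ τ (star (∑ k, w k • (star (u k) * b * u k))) := by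
      rw [star_sum, map_sum]
      refine Finset.sum_congr rfl fun k _ => ?_
      rw [hyT, hTu, dixC_J, star_smul, star_trivial (w k), ← Complex.coe_smul, ← Complex.coe_smul,
        map_smul]
      simp only [star_mul, star_star, mul_assoc]
    rw [h2, dist_comm, dist_eq_norm] at hd
    rw [hQ, ← star_star (∑ k, w k • (star (u k) * b * u k)), ← dixJ_inner, ← inner_sub_left,
      ← dixJ_norm]
    exact (norm_inner_le_norm _ _).trans (mul_le_mul_of_nonneg_right hd.le (norm_nonneg _))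
  have havg : ∀ b x (ι : Type) [Fintype ι] (w : ι → ℝ) (u : ι → A), ∑ k, w k = 1 →
      (∀ k, u k ∈ Γ) → Q b (∑ k, w k • (star (u k) * x * u k)) = Q b x := by
    intro b x ι _ w u hw1 hu
    rw [map_sum]
    have : ∀ k, Q b (w k • (star (u k) * x * u k)) = (w k : ℂ) * Q b x := fun k => by
      rw [← Complex.coe_smul, map_smul, hconj b _ (hu k), smul_eq_mul]
    simp only [this]
    rw [← Finset.sum_mul, ← Complex.ofReal_sum, hw1, Complex.ofReal_one, one_mul]
  have hn2 : ∀ x (ι : Type) [Fintype ι] (w : ι → ℝ) (u : ι → A), (∀ k, 0 ≤ w k) → ∑ k, w k = 1 →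
      (∀ k, u k ∈ Γ) → τ.n2 (∑ k, w k • (star (u k) * x * u k)) ≤ τ.n2 x := by
    intro x ι _ w u hw0 hw1 hu
    refine (τ.n2_sum_le _ _).trans (le_of_eq ?_)
    have : ∀ k, τ.n2 (w k • (star (u k) * x * u k)) = w k * τ.n2 x := fun k => by
      rw [τ.n2_real_smul, abs_of_nonneg (hw0 k), τ.n2_mul_unitary _ (hΓ (hu k)),
        τ.n2_unitary_mul (Unitary.star_mem (hΓ (hu k)))]
    simp only [this]
    rw [← Finset.sum_mul, hw1, one_mul]
  refine ⟨Q, fun b x => ?_, fun b x => ?_, fun b u hu x => ?_, fun b x hx => ?_, happ⟩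
  · rw [hQ]
    refine (norm_inner_le_norm _ _).trans ?_
    rw [dixJ_norm, ← τ.n2_star b, ← dixJ_norm τ (star b)]
    exact mul_le_mul_of_nonneg_right (Submodule.norm_starProjection_apply_le _ _) (τ.n2_nonneg _)
  · refine sub_eq_zero.1 (norm_le_zero_iff.1 (le_of_forall_pos_le_add fun ε hε => ?_))
    have hpos : 0 < τ.n2 x + τ.n2 b + 1 := by
      have := τ.n2_nonneg x; have := τ.n2_nonneg b; linarith
    obtain ⟨ι, _, w, u, hw0, hw1, hu, h⟩ := happ b _ (div_pos hε hpos)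
    obtain ⟨ι', _, w', u', hw0', hw1', hu', h'⟩ := happ x _ (div_pos hε hpos)
    have e1 := h (∑ k, w' k • (star (u' k) * x * u' k))
    have e2 := h' (∑ k, w k • (star (u k) * b * u k))
    rw [havg b x ι' w' u' hw1' hu'] at e1
    rw [havg x b ι w u hw1 hu, τ.tr_comm] at e2
    have e3 := hn2 x ι' w' u' hw0' hw1' hu'
    have e4 := hn2 b ι w u hw0 hw1 hu
    have e5 := norm_sub_le_norm_sub_add_norm_sub (Q b x)
      (τ ((∑ k, w k • (star (u k) * b * u k)) * ∑ k, w' k • (star (u' k) * x * u' k))) (Q x b)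
    rw [norm_sub_rev (Q b x) (τ _)] at e5
    have e6 : ε / (τ.n2 x + τ.n2 b + 1) * (τ.n2 x + τ.n2 b + 1) = ε := div_mul_cancel₀ _ hpos.ne'
    have e7 := (div_pos hε hpos).le
    nlinarith [mul_le_mul_of_nonneg_left e3 e7, mul_le_mul_of_nonneg_left e4 e7]
  · rw [← hconj b u hu (u * x), ← mul_assoc, (Unitary.mem_iff.1 (hΓ hu)).1, one_mul]
  · have hfx : dixJ τ x ∈ dixFix S := by
      rintro _ ⟨u, hu, rfl⟩
      rw [dixC_J, mul_assoc, ← hx u hu, ← mul_assoc, (Unitary.mem_iff.1 (hΓ hu)).1, one_mul]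
    rw [hQ, Submodule.inner_starProjection_left_eq_right,
      Submodule.starProjection_eq_self_iff.2 hfx, dixJ_inner, star_star]

end Crest.Agent.R121
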