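import Crest.Agent.R121.Base

/-! # Row 121: assembly of the main theorem from the interface statements. -/

set_option autoImplicit false

open scoped InnerProductSpace Topology
open Filter Crest.Agent.Lib.Tracial

noncomputable section

namespace Crest.Agent.R121

universe u

open Crest.Agent.R124 (IsMU)

lemma final_convex_n2 {A : Type u} [CStarAlgebra A] {D : Pred A} (τ : TrState A) (b : A → A)
    (ρ : A → ℝ) : Convex ℝ {c : Fl D | ∀ x, τ.n2 (c x - b x) ≤ ρ x} := by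
  intro c hc c' hc' s t hs ht hst x
  have e : (s • c + t • c') x - b x = s • (c x - b x) + t • (c' x - b x) := by
    simp only [Fl.add_apply, Fl.smul_apply, smul_sub]
    have : b x = s • b x + t • b x := by rw [← add_smul, hst, one_smul]
    conv_lhs => rw [this]
    abel
  rw [e]
  calc τ.n2 (s • (c x - b x) + t • (c' x - b x))
      ≤ s * τ.n2 (c x - b x) + t * τ.n2 (c' x - b x) := by
        refine (τ.n2_add_le _ _).trans ?_
        rw [τ.n2_real_smul, τ.n2_real_smul, abs_of_nonneg hs, abs_of_nonneg ht]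
    _ ≤ s * ρ x + t * ρ x := by gcongr; exacts [hc x, hc' x]
    _ = ρ x := by rw [← add_mul, hst, one_mul]

theorem typeII (hM : ModStmt.{u}) (hT : TreeStmt.{u}) (hN : NormalStmt.{u})
    (hS : SliceStmt.{u}) (hD : SimStmt.{u}) : TypeIIStmt.{u} := by
  intro A _ D τ hτ hP hE r K hK hL
  obtain ⟨C, hC⟩ := hD
  have hNK := hN A D τ hτ hP r K hK hL
  have hr : 0 ≤ r := by
    obtain ⟨c, hc⟩ := hK.ne
    have := (hL c hc).2 1
    rw [τ.norm_one_eq, mul_one] at this
    exact (norm_nonneg _).trans this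
  -- for every `δ` there is `b` with `c x ≈ x b` on `K`
  have key : ∀ δ : ℝ, 0 < δ → ∃ b : A, ∀ c ∈ K, ∀ x, τ.n2 (c x - x * b) ≤ |C| * δ * ‖x‖ := by
    intro δ hδ
    obtain ⟨T, hT0⟩ := exists_nat_gt (16 * r ^ 2 * 48 / δ ^ 2)
    have hTpos : (0 : ℝ) < T := lt_of_le_of_lt (by positivity) hT0
    obtain ⟨e, he⟩ := hE T
    obtain ⟨c₀, hc₀, hm₀⟩ := hM A D K hK.toGood (fun c hc => (hL c hc).1) _ e he.mu
    have hG : Good (uS D (comU e)) (K ∩ {c : Fl D | Modu e (c : A → A)}) := by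
      refine (hK.toGood.mono ?_).inter (isClosed_modu e) (convex_modu e) ⟨c₀, hc₀, hm₀⟩ ?_
      · rintro _ ⟨u, hu, rfl⟩; exact ⟨u, hu.1, rfl⟩
      · rintro _ ⟨u, hu, rfl⟩ c _ hc; exact Modu.uact hc hu
    obtain ⟨K', hK'K, hK'⟩ := hG.exists_min
    have hL' : ∀ c ∈ K', LinB r (c : A → A) ∧ Modu e (c : A → A) :=
      fun c hc => ⟨hL c (hK'K hc).1, (hK'K hc).2⟩
    have hN' : NormalMod τ (K' : Set (A → A)) := fun ε hε => by
      obtain ⟨η, hη, h⟩ := hNK ε hε
      exact ⟨η, hη, fun c hc => h c (hK'K hc).1⟩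
    have htree := hT A D τ hτ _ e T (by simp) he r K' hK' hL'
    obtain ⟨h1, h2⟩ := hS A D τ hτ _ e he r K' hK' hL' hN'
    set ε : ℝ := δ / √48 with hε
    have h48 : (0 : ℝ) < √48 := by positivity
    have hε2 : 48 * ε ^ 2 = δ ^ 2 := by
      rw [hε, div_pow, Real.sq_sqrt (by norm_num)]; field_simp
    have hdiam : ∀ c ∈ K', ∀ c' ∈ K', ∀ x, τ.n2 (c x - c' x) ≤ ε * ‖x‖ := by
      intro c hc c' hc' x
      have h := htree c hc c' hc' x
      have h3 : 16 * r ^ 2 * 48 ≤ T * δ ^ 2 := by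
        rw [div_lt_iff₀ (by positivity)] at hT0; exact hT0.le
      have h4 : τ.n2 (c x - c' x) ^ 2 ≤ (ε * ‖x‖) ^ 2 := by
        have : (T : ℝ) * τ.n2 (c x - c' x) ^ 2 ≤ T * (ε * ‖x‖) ^ 2 := by
          refine h.trans ?_
          have : 16 * r ^ 2 ≤ T * ε ^ 2 := by nlinarith
          calc 16 * r ^ 2 * ‖x‖ ^ 2 ≤ T * ε ^ 2 * ‖x‖ ^ 2 := by gcongr
            _ = T * (ε * ‖x‖) ^ 2 := by ring
        exact le_of_mul_le_mul_left this hTpos
      exact (pow_le_pow_iff_left₀ (τ.n2_nonneg _) (by positivity) two_ne_zero).1 h4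
    obtain ⟨c₁, hc₁⟩ := hK'.ne
    have hsim := hC A τ _ e he c₁ (hL' c₁ hc₁).1.1 (hL' c₁ hc₁).2 (4 * r + 1) δ (by positivity) hδ
      (fun ι _ y => (h1 ι y (fun _ => c₁) fun _ => hc₁).trans (by gcongr; nlinarith))
      (fun ι _ y u hu => by
        have := h2 ε (by positivity) hdiam ι y (fun l => uact (u l) c₁) (fun _ => c₁)
          fun l => ⟨hK'.toGood.uact_mem (hu l) hc₁, hc₁⟩
        rw [hε2] at this
        exact this)
    refine ⟨c₁ 1, ?_⟩
    have hsub := hK.subset_of_orbit (one_mem _) (fun u hu v hv => mul_mem hu hv) (hK'K hc₁).1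
      (L := {c : Fl D | ∀ x, τ.n2 (c x - x * c₁ 1) ≤ |C| * δ * ‖x‖}) (by
        rw [Set.ofPred_forall]
        exact isClosed_iInter fun x => ((wcont_eval x).sub (WCont.const _)).isClosed_n2_le hτ _)
      (final_convex_n2 τ _ _) (by
        intro u hu x
        have hu' := Unitary.mem_iff.1 hu
        have e1 : uact u c₁ x - x * c₁ 1 = star u * (c₁ (u * x) - u * x * c₁ 1) := by
          rw [uact_apply, mul_sub, ← mul_assoc, ← mul_assoc, hu'.1, one_mul]
        rw [e1, τ.n2_unitary_mul (Unitary.star_mem hu)]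
        refine (hsim _).trans ?_
        rw [CStarRing.norm_mem_unitary_mul _ hu]
        gcongr
        exact le_abs_self C)
    exact fun c hc => hsub hc
  intro c hc a y
  refine le_antisymm (le_of_forall_pos_le_add fun η hη => ?_) (τ.n2_nonneg _)
  set B : ℝ := 2 * |C| * ‖a‖ * ‖y‖ + 1 with hB
  have hBpos : 0 < B := by positivity
  obtain ⟨b, hb⟩ := key (η / B) (by positivity)
  have e1 : c (a * y) - a * c y = (c (a * y) - a * y * b) - a * (c y - y * b) := by
    rw [mul_sub, mul_assoc]; abel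
  rw [e1, zero_add]
  calc τ.n2 ((c (a * y) - a * y * b) - a * (c y - y * b))
      ≤ |C| * (η / B) * ‖a * y‖ + ‖a‖ * (|C| * (η / B) * ‖y‖) := by
        refine (τ.n2_sub_le _ _).trans (add_le_add (hb c hc _) ?_)
        exact (τ.n2_mul_le_left _ _).trans (by gcongr; exact hb c hc y)
    _ ≤ |C| * (η / B) * (‖a‖ * ‖y‖) + ‖a‖ * (|C| * (η / B) * ‖y‖) := by
        gcongr; exact norm_mul_le _ _
    _ = (η / B) * (B - 1) := by rw [hB]; ring
    _ ≤ (η / B) * B := by gcongr; linarith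
    _ = η := by field_simp

theorem finite (hc : CSuppStmt.{u}) (hV : VecStmt.{u}) (hA : AbelStmt.{u}) (hI : TypeIStmt.{u})
    (hT : TraceStmt.{u}) (hN : NonAbelStmt.{u}) (hII : TypeIIStmt.{u}) : FiniteStmt.{u} := by
  intro H _ _ _ M D hD z hz hno r K hK hL c hcK a y
  set d : Alg M := c (a * y) - a * c y with hd
  by_contra hb
  obtain ⟨z₀, hz₀, hz₀b, -, hz₀q⟩ := hc H M ((z * d : Alg M) : H →L[ℂ] H) (z * d).2
  have hzz : (z : H →L[ℂ] H) * z = z := hz.proj.isIdempotentElem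
  have hzz₀ : (z : H →L[ℂ] H) * z₀ = z₀ := by
    have := hz₀q (1 - z) fun x hx => by
      rw [MulMemClass.coe_mul, sub_mul, one_mul, hz.comm x hx, sub_mul, mul_assoc x (z : H →L[ℂ] H),
        ← mul_assoc (z : H →L[ℂ] H), hzz, sub_self]
    rw [sub_mul, one_mul, sub_eq_zero] at this
    exact this.symm
  have hz₀ne : z₀ ≠ 0 := by
    rintro rfl
    exact hb (Subtype.ext (by rw [← hz₀b, zero_mul]; rfl))
  have hno₀ : NoPI M z₀ := fun q hq hqp hzq hpi =>
    hno q hq hqp (by rw [← hzq, ← mul_assoc, hzz₀]) hpi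
  -- a nonzero central piece of `z₀` cannot kill `d`
  have key : ∀ z' : Alg M, CProj M (z' : H →L[ℂ] H) → z₀ * z' = z' → z' * d = 0 → z' = 0 := by
    intro z' hz' h1 h2
    have h3 := hz₀q z' fun x hx => by
      have h4 : (z' : H →L[ℂ] H) * d = 0 := congrArg Subtype.val h2
      rw [MulMemClass.coe_mul, hz'.comm x hx, mul_assoc, ← mul_assoc (z' : H →L[ℂ] H),
        hz'.comm _ z.2, mul_assoc, h4, mul_zero, mul_zero]
    rw [hz'.comm _ hz₀.mem, h1] at h3
    exact Subtype.ext h3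
  by_cases hab : ∃ p ∈ M, IsStarProjection p ∧ z₀ * p = p ∧ Abel M p ∧ p ≠ 0
  · obtain ⟨p, hpM, hp, hzp, hpa, hp0⟩ := hab
    obtain ⟨I, _, e, he, hcp, hle, hne, hcen⟩ := hA H M z₀ p hz₀ hno₀ hpM hp hzp hp0 hpa
    refine hne (key _ hcp hle ?_)
    exact hI (Alg M) D r K hK hL I e he (fun x => Subtype.ext (hcp.comm x x.2)) hcen c hcK a y
  · obtain ⟨z', τ, hz', hle, hne, hτ, hτ1, hfaith⟩ := hT H M z₀ hz₀ hno₀ hz₀ne
    refine hne (key z' hz' hle (hfaith _ ?_))
    refine hII (Alg M) D τ (hD ▸ hτ) (hV H M).2 (fun T => ?_) r K hK hL c hcK a y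
    obtain ⟨e, he, hs⟩ := hN H M z' hz' (fun p hpM hp hzp hpa => by
      by_contra hp0
      exact hab ⟨p, hpM, hp, by rw [← hzp, ← mul_assoc, hle], hpa, hp0⟩) (2 ^ T) Nat.one_le_two_pow
    exact ⟨e, he, fun x => by rw [hs]; exact Subtype.ext (hz'.comm x x.2), by rw [hs]; exact hτ1⟩

lemma final_diff_add {A : Type*} [Ring A] {k : ℕ} (f g : (Fin k → A) → A) (a : Fin (k + 1) → A) :
    Crest.OpAlg.hochschildDiff (fun x => f x + g x) a =
      Crest.OpAlg.hochschildDiff f a + Crest.OpAlg.hochschildDiff g a := by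
  simp only [Crest.OpAlg.hochschildDiff, mul_add, add_mul, smul_add, Finset.sum_add_distrib]
  abel

theorem main_of (hV : VecStmt.{u}) (hDec : DecompStmt.{u}) (hF : FiniteStmt.{u})
    (hCS : CSStmt.{u}) (hCB : CBSetStmt.{u}) (hH : HomotopyStmt.{u}) (hA : AssembleStmt.{u})
    (H : Type u) [NormedAddCommGroup H] [InnerProductSpace ℂ H] [CompleteSpace H]
    (M : VonNeumannAlgebra H) (n : ℕ)
    (f : ContinuousMultilinearMap ℂ (fun _ : Fin (n + 1) => M.toStarSubalgebra) M.toStarSubalgebra)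
    (hf : ∀ a : Fin (n + 2) → M.toStarSubalgebra, Crest.OpAlg.hochschildDiff f a = 0) :
    ∃ g : ContinuousMultilinearMap ℂ (fun _ : Fin n => M.toStarSubalgebra) M.toStarSubalgebra,
      ∀ a : Fin (n + 1) → M.toStarSubalgebra, Crest.OpAlg.hochschildDiff g a = f a := by
  obtain ⟨D, hD⟩ := (hV H M).1
  obtain ⟨z₁, hz₁, hpi, hno⟩ := hDec H M
  set z : Alg M := ⟨z₁, hz₁.mem⟩ with hz
  have hz' : CProj M ((1 - z : Alg M) : H →L[ℂ] H) :=
    ⟨(1 - z).2, hz₁.proj.one_sub, fun x hx => by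
      show (1 - z₁) * x = x * (1 - z₁)
      rw [sub_mul, mul_sub, one_mul, mul_one, hz₁.comm x hx]⟩
  -- the finite part
  obtain ⟨g₁, hg₁⟩ := hA (Alg M) D (uS D (unitary (Alg M))) (uS_subset_cS le_rfl)
    (fun r => {c : Fl D | LinB r (c : Alg M → Alg M)}) isClosed_linB convex_linB
    (fun r c hc => hc) (by rintro r _ ⟨u, hu, rfl⟩ c hc; exact LinB.uact hc hu) (1 - z)
    (fun x => Subtype.ext (hz'.comm x x.2))
    (fun r K hK hKQ => hF H M D hD (1 - z) hz' hno r K hK fun c hc => hKQ hc) n f hf ‖f‖ (by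
      intro x
      refine ⟨⟨fun y y' => f.toMultilinearMap.cons_add x y y',
        fun t y => f.toMultilinearMap.cons_smul x t y⟩, fun y => ?_⟩
      have := f.le_opNorm (Fin.cons y x)
      rw [Fin.prod_univ_succ] at this
      simp only [Fin.cons_zero, Fin.cons_succ] at this
      calc ‖f (Fin.cons y x)‖ ≤ ‖f‖ * (‖y‖ * ∏ i, ‖x i‖) := this
        _ = ‖f‖ * (∏ i, ‖x i‖) * ‖y‖ := by ring)
  -- the properly infinite part
  obtain ⟨h, f', C, hf', hdf', hcb⟩ := hH H M D hD z hz₁ hpi n f hf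
  obtain ⟨g₂, hg₂⟩ := hA (Alg M) D (cS D) le_rfl
    (fun r => {c : Fl D | LinB r (c : Alg M → Alg M) ∧ CB M r (c : Alg M → Alg M)})
    (fun r => (hCB H M D hD r).1) (fun r => (hCB H M D hD r).2.1) (fun r c hc => hc.1)
    (fun r θ hθ c hc => (hCB H M D hD r).2.2 θ hθ c hc.1 hc.2) 1 (fun x => by simp)
    (fun r K hK hKQ c hc a y => by
      rw [hCS H M D hD r K hK (fun c hc => hKQ hc) c hc a y, sub_self, mul_zero]) n f' hdf' C hcb
  refine ⟨g₁ + g₂ + h, fun a => ?_⟩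
  have e1 : (⇑(g₁ + g₂ + h) : (Fin n → Alg M) → Alg M) = fun x => (fun x => g₁ x + g₂ x) x + h x :=
    rfl
  rw [e1, final_diff_add, final_diff_add, hg₁, hg₂, hf', one_mul, sub_mul, one_mul]
  abel

end Crest.Agent.R121
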