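import Crest.Prelude.Def_Hochschild

/-!
# Row 121: the algebraic chain homotopy attached to a finite family `(a i, b i)`.
-/

set_option autoImplicit false
set_option linter.unusedSectionVars false

noncomputable section

namespace Crest.Agent.R121.HomAlg

open Crest.OpAlg

universe u

variable {A : Type u}

/-- Cochains as bare functions. -/
abbrev Ch (A : Type u) (k : ℕ) : Type u := (Fin k → A) → A

/-- Non-dependent `Fin.cons`. -/
def cs {k : ℕ} (y : A) (x : Fin k → A) : Fin (k + 1) → A := Fin.cons y x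

/-- Non-dependent `Fin.tail`. -/
def tl {k : ℕ} (x : Fin (k + 1) → A) : Fin k → A := fun i => x i.succ

@[simp] lemma cs_zero {k : ℕ} (y : A) (x : Fin k → A) : cs y x 0 = y := rfl
@[simp] lemma cs_succ {k : ℕ} (y : A) (x : Fin k → A) (i : Fin k) : cs y x i.succ = x i := rfl
@[simp] lemma tl_cs {k : ℕ} (y : A) (x : Fin k → A) : tl (cs y x) = x := rfl
lemma cs_tl {k : ℕ} (x : Fin (k + 1) → A) : cs (x 0) (tl x) = x := Fin.cons_self_tail x

lemma forall_cs {k : ℕ} {P : (Fin (k + 1) → A) → Prop} (h : ∀ y x, P (cs y x))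
    (x : Fin (k + 1) → A) : P x := by
  rw [← cs_tl x]; exact h _ _

section Ring
variable [Ring A]

/-- Fix the first argument. -/
def cur {k : ℕ} (y : A) : Ch A (k + 1) →ₗ[A] Ch A k where
  toFun f x := f (cs y x)
  map_add' _ _ := rfl
  map_smul' _ _ := rfl

@[simp] lemma cur_apply {k : ℕ} (y : A) (f : Ch A (k + 1)) (x : Fin k → A) :
    cur y f x = f (cs y x) := rfl

/-- Multiply the first argument on the left. -/
def lm {k : ℕ} (y : A) (f : Ch A (k + 1)) : Ch A (k + 1) := fun x => f (cs (y * x 0) (tl x))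

@[simp] lemma lm_cs {k : ℕ} (y : A) (f : Ch A (k + 1)) (w : A) (x : Fin k → A) :
    lm y f (cs w x) = f (cs (y * w) x) := rfl

lemma cur_lm {k : ℕ} (y w : A) (f : Ch A (k + 1)) : cur w (lm y f) = cur (y * w) f := rfl

/-- The part of the differential that does not use the left action. -/
def E : ∀ k : ℕ, Ch A k →ₗ[A] Ch A (k + 1)
  | 0 => LinearMap.pi fun x => LinearMap.toSpanSingleton A A (x 0) ∘ₗ LinearMap.proj (tl x)
  | k + 1 => LinearMap.pi fun x => LinearMap.proj (cs (x 0 * tl x 0) (tl (tl x))) -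
      LinearMap.proj (tl x) ∘ₗ E k ∘ₗ cur (x 0)

lemma E_zero (f : Ch A 0) (y : A) (x : Fin 0 → A) : E 0 f (cs y x) = f x * y := rfl

lemma E_succ {k : ℕ} (f : Ch A (k + 1)) (y w : A) (x : Fin k → A) :
    E (k + 1) f (cs y (cs w x)) = f (cs (y * w) x) - E k (cur y f) (cs w x) := rfl

lemma cur_E {k : ℕ} (f : Ch A (k + 1)) (y : A) :
    cur y (E (k + 1) f) = lm y f - E k (cur y f) := by
  funext x
  induction x using forall_cs with
  | h w x => rfl

lemma E_lm {k : ℕ} (f : Ch A (k + 1)) (y w : A) (x : Fin (k + 1) → A) :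
    E (k + 1) (lm y f) (cs w x) = E (k + 1) f (cs (y * w) x) := by
  induction x using forall_cs with
  | h v x => rw [E_succ, E_succ, lm_cs, cur_lm, mul_assoc]

lemma E_E : ∀ (k : ℕ) (f : Ch A k), E (k + 1) (E k f) = 0
  | 0, f => by
    funext x
    induction x using forall_cs with
    | h y x =>
      induction x using forall_cs with
      | h w x =>
        rw [E_succ, E_zero, E_zero, cur_apply, E_zero, mul_assoc, sub_self]; rfl
  | k + 1, f => by
    funext x
    induction x using forall_cs with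
    | h y x =>
      induction x using forall_cs with
      | h w x =>
        rw [E_succ, cur_E, map_sub, E_E k, Pi.sub_apply, E_lm]
        simp

/-- The part of the differential that uses the left action. -/
def Mu {k : ℕ} (f : Ch A k) : Ch A (k + 1) := fun x => x 0 * f (tl x)

@[simp] lemma Mu_cs {k : ℕ} (f : Ch A k) (y : A) (x : Fin k → A) : Mu f (cs y x) = y * f x := rfl

lemma cur_Mu {k : ℕ} (f : Ch A k) (y : A) : cur y (Mu f) = y • f := rfl

lemma merge_apply {k : ℕ} (j : Fin k) (x : Fin (k + 1) → A) (i : Fin k) :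
    mergeArgs j x i = if i.val < j.val then x i.castSucc
      else if i.val = j.val then x i.castSucc * x i.succ else x i.succ := rfl

lemma diff_apply {k : ℕ} (f : Ch A k) (x : Fin (k + 1) → A) :
    hochschildDiff f x = x 0 * f (fun i => x i.succ) +
      (∑ j : Fin k, ((-1 : ℤ) ^ (j.val + 1)) • f (mergeArgs j x)) +
      ((-1 : ℤ) ^ (k + 1)) • (f (fun i => x i.castSucc) * x (Fin.last k)) := rfl

lemma merge_zero {k : ℕ} (y w : A) (x : Fin k → A) :
    mergeArgs (0 : Fin (k + 1)) (cs y (cs w x)) = cs (y * w) x := by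
  funext i
  refine Fin.cases ?_ (fun j => ?_) i
  · simp [merge_apply]; rfl
  · simp [merge_apply]

lemma merge_succ {k : ℕ} (j : Fin k) (y : A) (x : Fin (k + 1) → A) :
    mergeArgs j.succ (cs y x) = cs y (mergeArgs j x) := by
  funext i
  refine Fin.cases ?_ (fun l => ?_) i
  · simp [merge_apply]
  · simp only [merge_apply, Fin.val_succ, add_lt_add_iff_right, add_left_inj, cs_succ,
      ← Fin.succ_castSucc]

lemma init_cs {k : ℕ} (y : A) (x : Fin (k + 1) → A) :
    (fun i : Fin (k + 1) => cs y x i.castSucc) = cs y (fun i => x i.castSucc) := by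
  funext i
  refine Fin.cases ?_ (fun l => ?_) i
  · rfl
  · simp only [← Fin.succ_castSucc, cs_succ]

lemma E_eq : ∀ (k : ℕ) (f : Ch A k) (x : Fin (k + 1) → A),
    E k f x = -((∑ j : Fin k, ((-1 : ℤ) ^ (j.val + 1)) • f (mergeArgs j x)) +
      ((-1 : ℤ) ^ (k + 1)) • (f (fun i => x i.castSucc) * x (Fin.last k)))
  | 0, f, x => by
    induction x using forall_cs with
    | h y x =>
      rw [E_zero]
      have : (fun i : Fin 0 => cs y x i.castSucc) = x := Subsingleton.elim _ _
      simp [this]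
  | k + 1, f, x => by
    induction x using forall_cs with
    | h y x =>
      induction x using forall_cs with
      | h w x =>
        rw [E_succ, E_eq k, Fin.sum_univ_succ, merge_zero, init_cs]
        simp only [merge_succ, cur_apply, Fin.val_succ, ← Fin.succ_last, cs_succ]
        simp only [pow_succ (-1 : ℤ) (_ + 1), mul_neg, mul_one, neg_smul, Finset.sum_neg_distrib]
        simp
        abel

lemma diff_eq {k : ℕ} (f : Ch A k) : hochschildDiff f = Mu f - E k f := by
  funext x
  rw [Pi.sub_apply, E_eq, diff_apply, sub_neg_eq_add, add_assoc]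
  rfl

lemma diff_diff {k : ℕ} (f : Ch A k) : hochschildDiff (hochschildDiff f) = 0 := by
  funext x
  induction x using forall_cs with
  | h y x =>
    induction x using forall_cs with
    | h w x =>
      rw [diff_eq, diff_eq, map_sub, E_E, Pi.sub_apply, Mu_cs, Pi.sub_apply, Pi.sub_apply, E_succ,
        cur_Mu, map_smul]
      simp [mul_sub, mul_assoc]

lemma diff_sub {k : ℕ} (f g : Ch A k) :
    hochschildDiff (f - g) = hochschildDiff f - hochschildDiff g := by
  rw [diff_eq, diff_eq, diff_eq, map_sub]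
  funext x
  simp only [Pi.sub_apply, Mu, mul_sub]
  abel

lemma diff_smul {k : ℕ} {z : A} (hz : ∀ x, z * x = x * z) (f : Ch A k) :
    hochschildDiff (z • f) = z • hochschildDiff f := by
  rw [diff_eq, diff_eq, map_smul]
  funext x
  simp only [Pi.sub_apply, Mu, Pi.smul_apply, smul_eq_mul, mul_sub]
  rw [← mul_assoc, ← hz, mul_assoc]

variable {ι : Type} [Fintype ι] (a b : ι → A)

/-- The chain map of the family. -/
def S : ∀ (k : ℕ) (_ : A), Ch A k →ₗ[A] Ch A k
  | 0, c => LinearMap.pi fun x => LinearMap.toSpanSingleton A A c ∘ₗ LinearMap.proj x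
  | k + 1, c => LinearMap.pi fun x =>
      ∑ i, LinearMap.proj (tl x) ∘ₗ S k (b i) ∘ₗ cur (c * x 0 * a i)

/-- The homotopy of the family. -/
def H : ∀ (k : ℕ) (_ : A), Ch A (k + 1) →ₗ[A] Ch A k
  | 0, c => cur c
  | k + 1, c => cur c - LinearMap.pi fun x =>
      ∑ i, LinearMap.proj (tl x) ∘ₗ H k (b i) ∘ₗ cur (c * x 0 * a i)

lemma S_zero (c : A) (f : Ch A 0) (x : Fin 0 → A) : S a b 0 c f x = f x * c := rfl

lemma S_succ {k : ℕ} (c : A) (f : Ch A (k + 1)) (y : A) (x : Fin k → A) :
    S a b (k + 1) c f (cs y x) = ∑ i, S a b k (b i) (cur (c * y * a i) f) x := by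
  simp [S]

lemma cur_S {k : ℕ} (c : A) (f : Ch A (k + 1)) (y : A) :
    cur y (S a b (k + 1) c f) = ∑ i, S a b k (b i) (cur (c * y * a i) f) := by
  funext x; rw [cur_apply, S_succ, Finset.sum_apply]

lemma S_mul {k : ℕ} (c w : A) (f : Ch A (k + 1)) (y : A) (x : Fin k → A) :
    S a b (k + 1) (c * w) f (cs y x) = S a b (k + 1) c f (cs (w * y) x) := by
  simp only [S_succ, mul_assoc]

lemma H_zero (c : A) (f : Ch A 1) : H a b 0 c f = cur c f := rfl

lemma H_succ {k : ℕ} (c : A) (f : Ch A (k + 2)) (y : A) (x : Fin k → A) :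
    H a b (k + 1) c f (cs y x) =
      f (cs c (cs y x)) - ∑ i, H a b k (b i) (cur (c * y * a i) f) x := by
  simp [H]

lemma cur_H {k : ℕ} (c : A) (f : Ch A (k + 2)) (y : A) :
    cur y (H a b (k + 1) c f) = cur y (cur c f) - ∑ i, H a b k (b i) (cur (c * y * a i) f) := by
  funext x; rw [cur_apply, H_succ, Pi.sub_apply, Finset.sum_apply]; rfl

lemma H_lm : ∀ (k : ℕ) (c y : A) (f : Ch A (k + 1)), H a b k c (lm y f) = H a b k (y * c) f
  | 0, _, _, _ => rfl
  | k + 1, c, y, f => by
    funext x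
    induction x using forall_cs with
    | h w x => simp only [H_succ, lm_cs, cur_lm, mul_assoc]

/-- `E ∘ H`, zero in degree `0`. -/
def EH : ∀ (k : ℕ) (_ : A), Ch A k → Ch A k
  | 0, _, _ => 0
  | k + 1, c, f => E k (H a b k c f)

end Ring

section Alg
variable [Ring A] [Algebra ℂ A]

/-- Multilinear cochains. -/
def ML : ∀ k : ℕ, Submodule A (Ch A k)
  | 0 => ⊤
  | k + 1 =>
    { carrier := {f | IsLinearMap ℂ (fun y => cur y f) ∧ ∀ y, cur y f ∈ ML k}
      add_mem' := fun {f g} hf hg => ⟨⟨fun y w => by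
          simp only [map_add, hf.1.map_add, hg.1.map_add]; abel, fun t y => by
          simp only [map_add, hf.1.map_smul, hg.1.map_smul, smul_add]⟩,
        fun y => by rw [map_add]; exact add_mem (hf.2 y) (hg.2 y)⟩
      zero_mem' := ⟨⟨fun y w => by simp, fun t y => by simp⟩,
        fun y => by rw [map_zero]; exact zero_mem _⟩
      smul_mem' := fun c f hf => ⟨⟨fun y w => by
          simp only [map_smul, hf.1.map_add, smul_add], fun t y => by
          simp only [map_smul, hf.1.map_smul]; rw [smul_comm]⟩,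
        fun y => by rw [map_smul]; exact Submodule.smul_mem _ _ (hf.2 y)⟩ }

lemma ML_succ {k : ℕ} {f : Ch A (k + 1)} :
    f ∈ ML (k + 1) ↔ IsLinearMap ℂ (fun y => cur y f) ∧ ∀ y, cur y f ∈ ML k := Iff.rfl

lemma ML_of_multilinear : ∀ (k : ℕ) (f : MultilinearMap ℂ (fun _ : Fin k => A) A),
    (f : Ch A k) ∈ ML k
  | 0, _ => trivial
  | k + 1, f => ⟨⟨fun y w => funext fun x => f.cons_add x y w,
      fun t y => funext fun x => f.cons_smul x t y⟩, fun y => ML_of_multilinear k (f.curryLeft y)⟩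

lemma update_cs_zero {k : ℕ} (y w : A) (x : Fin k → A) :
    Function.update (cs y x) 0 w = cs w x := Fin.update_cons_zero _ _ _

lemma update_cs_succ {k : ℕ} (y w : A) (x : Fin k → A) (i : Fin k) :
    Function.update (cs y x) i.succ w = cs y (Function.update x i w) :=
  (Fin.cons_update _ _ _ _).symm

lemma ML.update : ∀ {k : ℕ} {f : Ch A k}, f ∈ ML k → ∀ (x : Fin k → A) (i : Fin k),
    IsLinearMap ℂ (fun y => f (Function.update x i y))
  | 0, _, _, _, i => i.elim0
  | k + 1, f, hf, x, i => by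
    induction x using forall_cs with
    | h y x =>
      refine Fin.cases ?_ (fun j => ?_) i
      · simp only [update_cs_zero]
        exact ⟨fun v w => congrFun (hf.1.map_add v w) x, fun t w => congrFun (hf.1.map_smul t w) x⟩
      · simp only [update_cs_succ]
        exact ML.update (hf.2 y) x j

variable {ι : Type} [Fintype ι] (a b : ι → A)

lemma S_lin : ∀ (k : ℕ) {f : Ch A k}, f ∈ ML k → IsLinearMap ℂ (fun c => S a b k c f)
  | 0, f, _ => ⟨fun c c' => funext fun x => by simp [S_zero, mul_add],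
      fun t c => funext fun x => by simp [S_zero]⟩
  | k + 1, f, hf => ⟨fun c c' => funext fun x => by
      induction x using forall_cs with
      | h y x =>
        simp only [S_succ, add_mul, hf.1.map_add, map_add, Pi.add_apply, Finset.sum_add_distrib],
    fun t c => funext fun x => by
      induction x using forall_cs with
      | h y x =>
        simp only [S_succ, smul_mul_assoc, hf.1.map_smul, LinearMap.map_smul_of_tower,
          Pi.smul_apply, Finset.smul_sum]⟩

lemma H_lin : ∀ (k : ℕ) {f : Ch A (k + 1)}, f ∈ ML (k + 1) →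
    IsLinearMap ℂ (fun c => H a b k c f)
  | 0, _, hf => hf.1
  | k + 1, f, hf => ⟨fun c c' => funext fun x => by
      induction x using forall_cs with
      | h y x =>
        have := congrFun (hf.1.map_add c c') (cs y x)
        simp only [cur_apply, Pi.add_apply] at this
        simp only [H_succ, add_mul, hf.1.map_add, map_add, Pi.add_apply, Finset.sum_add_distrib,
          this]
        abel,
    fun t c => funext fun x => by
      induction x using forall_cs with
      | h y x =>
        have := congrFun (hf.1.map_smul t c) (cs y x)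
        simp only [cur_apply, Pi.smul_apply] at this
        simp only [H_succ, smul_mul_assoc, hf.1.map_smul, LinearMap.map_smul_of_tower,
          Pi.smul_apply, Finset.smul_sum, this, smul_sub]⟩

lemma S_ML : ∀ (k : ℕ) (c : A) {f : Ch A k}, f ∈ ML k → S a b k c f ∈ ML k
  | 0, _, _, _ => trivial
  | k + 1, c, f, hf => ⟨⟨fun y w => by
      simp only [cur_S, add_mul, mul_add, hf.1.map_add, map_add, Finset.sum_add_distrib],
      fun t y => by
      simp only [cur_S, smul_mul_assoc, mul_smul_comm, hf.1.map_smul,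
        LinearMap.map_smul_of_tower, Finset.smul_sum]⟩,
    fun y => by
      rw [cur_S]
      exact Submodule.sum_mem _ fun i _ => S_ML k _ (hf.2 _)⟩

lemma H_ML : ∀ (k : ℕ) (c : A) {f : Ch A (k + 1)}, f ∈ ML (k + 1) → H a b k c f ∈ ML k
  | 0, _, _, _ => trivial
  | k + 1, c, f, hf => ⟨⟨fun y w => by
      simp only [cur_H, add_mul, mul_add, hf.1.map_add, (hf.2 c).1.map_add, map_add,
        Finset.sum_add_distrib]
      abel,
      fun t y => by
      simp only [cur_H, smul_mul_assoc, mul_smul_comm, hf.1.map_smul, (hf.2 c).1.map_smul,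
        LinearMap.map_smul_of_tower, Finset.smul_sum, smul_sub]⟩,
    fun y => by
      rw [cur_H]
      exact sub_mem ((hf.2 c).2 y) (Submodule.sum_mem _ fun i _ => H_ML k _ (hf.2 _))⟩

variable {a b}

/-- The homotopy formula for `E`. -/
lemma H_E {z : A} (hz : ∀ x, z * x = x * z) (hab : ∑ i, a i * b i = z)
    (hb : ∀ i, b i * z = b i) : ∀ (k : ℕ) (c : A), c * z = c → ∀ {f : Ch A k}, f ∈ ML k →
    H a b k c (E k f) = S a b k c f - EH a b k c f
  | 0, c, _, f, _ => by
    funext x
    rw [H_zero, cur_apply, E_zero, Pi.sub_apply, S_zero]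
    simp [EH]
  | k + 1, c, hc, f, hf => by
    funext x
    induction x using forall_cs with
    | h y x =>
      have h1 : ∑ i, H a b k (c * y * a i * b i) f x = H a b k (c * y) f x := by
        have := map_sum (IsLinearMap.mk' _ (H_lin a b k hf)) (fun i => c * y * a i * b i)
          Finset.univ
        simp only [IsLinearMap.mk'_apply] at this
        rw [← Finset.sum_apply, ← this]
        simp only [mul_assoc c, mul_assoc y, ← Finset.mul_sum, hab]
        rw [← hz, ← mul_assoc, hc]
      have h2 : ∀ i, H a b k (b i) (cur (c * y * a i) (E (k + 1) f)) x =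
          H a b k (c * y * a i * b i) f x - (S a b k (b i) (cur (c * y * a i) f) x -
            EH a b k (b i) (cur (c * y * a i) f) x) := fun i => by
        rw [cur_E, map_sub, H_lm, H_E hz hab hb k (b i) (hb i) (hf.2 _)]; rfl
      rw [H_succ, Pi.sub_apply, S_succ]
      simp only [h2, Finset.sum_sub_distrib, h1]
      cases k with
      | zero =>
        have h3 : EH a b (0 + 1) c f (cs y x) = f (cs c x) * y := rfl
        rw [h3, E_succ, E_zero, H_zero]
        simp [EH]
      | succ k =>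
        induction x using forall_cs with
        | h w x =>
          have h3 : EH a b (k + 1 + 1) c f = E (k + 1) (H a b (k + 1) c f) := rfl
          have h4 : ∀ i, EH a b (k + 1) (b i) (cur (c * y * a i) f) =
            E k (H a b k (b i) (cur (c * y * a i) f)) := fun i => rfl
          rw [h3, E_succ, E_succ, E_succ, cur_H, H_succ, H_succ, map_sub, map_sum]
          simp only [h4]
          simp only [Pi.sub_apply, Finset.sum_apply, cur_apply, mul_assoc]
          abel

variable (a b)

/-- The averaged chain map. -/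
def TT (k : ℕ) (f : Ch A k) : Ch A k := ∑ i, a i • S a b k (b i) f

/-- The averaged homotopy. -/
def HH (k : ℕ) (f : Ch A (k + 1)) : Ch A k := ∑ i, a i • H a b k (b i) f

lemma TT_ML {k : ℕ} {f : Ch A k} (hf : f ∈ ML k) : TT a b k f ∈ ML k :=
  Submodule.sum_mem _ fun _ _ => Submodule.smul_mem _ _ (S_ML a b k _ hf)

lemma HH_ML {k : ℕ} {f : Ch A (k + 1)} (hf : f ∈ ML (k + 1)) : HH a b k f ∈ ML k :=
  Submodule.sum_mem _ fun _ _ => Submodule.smul_mem _ _ (H_ML a b k _ hf)

variable {a b}

theorem homot {z : A} (hz : ∀ x, z * x = x * z) (hab : ∑ i, a i * b i = z)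
    (ha : ∀ i, z * a i = a i) (hb : ∀ i, b i * z = b i) {k : ℕ} {f : Ch A (k + 1)}
    (hf : f ∈ ML (k + 1)) (hd : hochschildDiff f = 0) :
    TT a b (k + 1) f = z • f - hochschildDiff (HH a b k f) := by
  rw [diff_eq, sub_eq_zero] at hd
  have h1 : ∀ i, S a b (k + 1) (b i) f =
      H a b (k + 1) (b i) (Mu f) + E k (H a b k (b i) f) := fun i => by
    rw [hd, H_E hz hab hb (k + 1) (b i) (hb i) hf]
    exact (sub_add_cancel _ _).symm
  have h2 : z • HH a b k f = HH a b k f := by
    simp only [HH, Finset.smul_sum, smul_smul, ha]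
  have h3 : ∀ c y x, H a b (k + 1) c (Mu f) (cs y x) =
      c * (f (cs y x) - y * HH a b k f x) := fun c y x => by
    simp only [H_succ, Mu_cs, cur_Mu, map_smul, HH, Finset.sum_apply, Pi.smul_apply, smul_eq_mul,
      mul_sub, Finset.mul_sum, mul_assoc]
  rw [diff_eq, TT]
  simp only [h1, smul_add, Finset.sum_add_distrib]
  have h4 : ∑ i, a i • E k (H a b k (b i) f) = E k (HH a b k f) := by
    simp only [HH, map_sum, map_smul]
  rw [h4]
  funext x
  induction x using forall_cs with
  | h y x =>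
    have h5 := congrFun h2 x
    simp only [Pi.smul_apply, smul_eq_mul] at h5
    simp only [Pi.add_apply, Pi.sub_apply, Finset.sum_apply, Pi.smul_apply, smul_eq_mul, h3,
      ← mul_assoc, ← Finset.sum_mul, hab, Mu_cs]
    rw [mul_sub, ← mul_assoc, hz y, mul_assoc, h5]
    abel

end Alg

section Norm
variable [NormedRing A]

/-- Bounded cochains. -/
def Bd {k : ℕ} (R : ℝ) (f : Ch A k) : Prop := ∀ x, ‖f x‖ ≤ R * ∏ i, ‖x i‖

lemma prod_cs {k : ℕ} (y : A) (x : Fin k → A) : ∏ i, ‖cs y x i‖ = ‖y‖ * ∏ i, ‖x i‖ := by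
  rw [Fin.prod_univ_succ]; rfl

lemma Bd.cur {k : ℕ} {R : ℝ} {f : Ch A (k + 1)} (hf : Bd R f) (y : A) :
    Bd (R * ‖y‖) (cur y f) := fun x => by
  have := hf (cs y x)
  rwa [prod_cs, ← mul_assoc] at this

lemma Bd.mono {k : ℕ} {R R' : ℝ} {f : Ch A k} (hf : Bd R f) (h : R ≤ R') : Bd R' f := fun x =>
  (hf x).trans (mul_le_mul_of_nonneg_right h (Finset.prod_nonneg fun _ _ => norm_nonneg _))

variable {ι : Type} [Fintype ι] {a b : ι → A}

lemma sum_bd (hab : ∑ i, ‖a i‖ * ‖b i‖ ≤ 1) {u : ι → A} {P : ℝ} (hP : 0 ≤ P)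
    (hu : ∀ i, ‖u i‖ ≤ ‖a i‖ * ‖b i‖ * P) : ‖∑ i, u i‖ ≤ P := by
  refine (norm_sum_le _ _).trans ((Finset.sum_le_sum fun i _ => hu i).trans ?_)
  rw [← Finset.sum_mul]
  exact mul_le_of_le_one_left hP hab

lemma norm3 (c y w : A) : ‖c * y * w‖ ≤ ‖c‖ * ‖y‖ * ‖w‖ :=
  (norm_mul_le _ _).trans (mul_le_mul_of_nonneg_right (norm_mul_le _ _) (norm_nonneg _))

lemma S_bd (hab : ∑ i, ‖a i‖ * ‖b i‖ ≤ 1) : ∀ (k : ℕ) (c : A) {R : ℝ} {f : Ch A k}, 0 ≤ R →
    Bd R f → Bd (R * ‖c‖) (S a b k c f)
  | 0, c, R, f, _, hf => fun x => by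
    have := hf x
    simp only [Finset.univ_eq_empty, Finset.prod_empty, mul_one] at this ⊢
    rw [S_zero]
    exact (norm_mul_le _ _).trans (mul_le_mul_of_nonneg_right this (norm_nonneg _))
  | k + 1, c, R, f, hR, hf => fun x => by
    induction x using forall_cs with
    | h y x =>
      have hp : 0 ≤ ∏ i, ‖x i‖ := Finset.prod_nonneg fun _ _ => norm_nonneg _
      rw [S_succ, prod_cs]
      refine sum_bd hab (by positivity) fun i => ?_
      refine (S_bd hab k (b i) (by positivity) (hf.cur (c * y * a i)) x).trans ?_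
      calc R * ‖c * y * a i‖ * ‖b i‖ * ∏ i, ‖x i‖
          ≤ R * (‖c‖ * ‖y‖ * ‖a i‖) * ‖b i‖ * ∏ i, ‖x i‖ := by gcongr; exact norm3 _ _ _
        _ = _ := by ring

lemma H_bd (hab : ∑ i, ‖a i‖ * ‖b i‖ ≤ 1) : ∀ (k : ℕ) (c : A) {R : ℝ} {f : Ch A (k + 1)},
    0 ≤ R → Bd R f → Bd ((k + 1) * R * ‖c‖) (H a b k c f)
  | 0, c, R, f, _, hf => by simpa [H_zero] using hf.cur c
  | k + 1, c, R, f, hR, hf => fun x => by
    induction x using forall_cs with
    | h y x =>
      have hp : 0 ≤ ∏ i, ‖x i‖ := Finset.prod_nonneg fun _ _ => norm_nonneg _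
      rw [H_succ, prod_cs]
      have h1 := hf (cs c (cs y x))
      rw [prod_cs, prod_cs] at h1
      have h2 : ‖∑ i, H a b k (b i) (cur (c * y * a i) f) x‖ ≤
          (k + 1) * R * ‖c‖ * (‖y‖ * ∏ i, ‖x i‖) := by
        refine sum_bd hab (by positivity) fun i => ?_
        refine (H_bd hab k (b i) (by positivity) (hf.cur (c * y * a i)) x).trans ?_
        calc (k + 1) * (R * ‖c * y * a i‖) * ‖b i‖ * ∏ i, ‖x i‖
            ≤ (k + 1) * (R * (‖c‖ * ‖y‖ * ‖a i‖)) * ‖b i‖ * ∏ i, ‖x i‖ := by
              gcongr; exact norm3 _ _ _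
          _ = _ := by ring
      refine (norm_sub_le _ _).trans ((add_le_add h1 h2).trans (le_of_eq ?_))
      push_cast; ring

variable [Algebra ℂ A]

lemma TT_bd (hab : ∑ i, ‖a i‖ * ‖b i‖ ≤ 1) {k : ℕ} {R : ℝ} {f : Ch A k} (hR : 0 ≤ R)
    (hf : Bd R f) : Bd R (TT a b k f) := fun x => by
  have hp : 0 ≤ ∏ i, ‖x i‖ := Finset.prod_nonneg fun _ _ => norm_nonneg _
  rw [TT, Finset.sum_apply]
  refine sum_bd hab (by positivity) fun i => ?_
  rw [Pi.smul_apply, smul_eq_mul]
  refine (norm_mul_le _ _).trans ?_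
  refine (mul_le_mul_of_nonneg_left (S_bd hab k (b i) hR hf x) (norm_nonneg _)).trans ?_
  exact le_of_eq (by ring)

lemma HH_bd (hab : ∑ i, ‖a i‖ * ‖b i‖ ≤ 1) {k : ℕ} {R : ℝ} {f : Ch A (k + 1)} (hR : 0 ≤ R)
    (hf : Bd R f) : Bd ((k + 1) * R) (HH a b k f) := fun x => by
  have hp : 0 ≤ ∏ i, ‖x i‖ := Finset.prod_nonneg fun _ _ => norm_nonneg _
  rw [HH, Finset.sum_apply]
  refine sum_bd hab (by positivity) fun i => ?_
  rw [Pi.smul_apply, smul_eq_mul]
  refine (norm_mul_le _ _).trans ?_
  refine (mul_le_mul_of_nonneg_left (H_bd hab k (b i) hR hf x) (norm_nonneg _)).trans ?_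
  exact le_of_eq (by ring)

end Norm

end Crest.Agent.R121.HomAlg
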