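import Crest.Agent.R121.HomAlg

/-!
# Row 121: the chain map of an orthogonal family of isometries is bounded on matrices.
-/

set_option autoImplicit false
set_option linter.unusedSectionVars false

noncomputable section

namespace Crest.Agent.R121.HomCB

open Crest.Agent.R121.HomAlg

universe u

variable {A : Type u} [CStarAlgebra A] {κ : Type} [Fintype κ] [DecidableEq κ]

/-- An orthogonal family of partial isometries with initial projection `z`. -/
structure Orth (z : A) (t : κ → A) : Prop where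
  cen : ∀ x, z * x = x * z
  zt : ∀ l, z * t l = t l
  orth : ∀ l m, star (t l) * t m = if l = m then z else 0
  sa : star z = z

namespace Orth
variable {z : A} {t : κ → A} (h : Orth z t)
include h

lemma tz (l : κ) : t l * z = t l := by rw [← h.cen, h.zt]

lemma z_star (l : κ) : z * star (t l) = star (t l) := by
  have := congrArg star (h.tz l)
  rwa [star_mul, h.sa] at this

lemma mul_orth (y : A) (l m : κ) (w : A) :
    y * star (t l) * (t m * w) = if l = m then y * z * w else 0 := by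
  rw [mul_assoc, ← mul_assoc (star (t l)), h.orth]
  split_ifs <;> simp [mul_assoc]

end Orth

/-- The diagonal embedding. -/
def sig (t : κ → A) (x : A) : A := ∑ a, t a * x * star (t a)

/-- The left factors of the family. -/
def af (t : κ → A) (l : κ) : A := (Fintype.card κ : ℂ)⁻¹ • star (t l)

section Sig
variable {z : A} {t : κ → A} (h : Orth z t)
include h

lemma sig_mul_t (x : A) (l : κ) : sig t x * t l = t l * x := by
  rw [sig, Finset.sum_mul, Finset.sum_eq_single l]
  · rw [mul_assoc, h.orth, if_pos rfl, mul_assoc, ← h.cen, ← mul_assoc, h.tz]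
  · intro m _ hm
    rw [mul_assoc, h.orth, if_neg hm, mul_zero]
  · simp

lemma sig_mul (x y : A) : sig t (x * y) = sig t x * sig t y := by
  conv_rhs => rw [sig.eq_1 t y, Finset.mul_sum]
  simp only [← mul_assoc, sig_mul_t h]
  simp only [sig, mul_assoc]

/-- `sig` as a homomorphism. -/
def sigHom : A →⋆ₙₐ[ℂ] A where
  toFun := sig t
  map_smul' c x := by simp [sig, Finset.smul_sum]
  map_zero' := by simp [sig]
  map_add' x y := by simp [sig, mul_add, add_mul, Finset.sum_add_distrib]
  map_mul' := sig_mul h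
  map_star' x := by simp [sig, star_sum, mul_assoc]

lemma norm_sig (x : A) : ‖sig t x‖ ≤ ‖x‖ := NonUnitalStarAlgHom.norm_apply_le (sigHom h) x

lemma norm_sig_one : ‖sig t 1‖ ≤ 1 := by
  refine (norm_sig h 1).trans ?_
  rcases subsingleton_or_nontrivial A with _ | _
  · rw [Subsingleton.elim (1 : A) 0, norm_zero]; exact zero_le_one
  · exact norm_one.le

lemma star_mul_sig_one (l : κ) : star (t l) * sig t 1 = star (t l) := by
  have := congrArg star (sig_mul_t h 1 l)
  rw [star_mul, mul_one] at this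
  have h2 : star (sig t 1) = sig t 1 := by simp [sig, star_sum]
  rwa [h2] at this

lemma norm_t (l : κ) : ‖t l‖ ≤ 1 := by
  have h0 := h.orth l l
  rw [if_pos rfl] at h0
  have h1 : ‖t l‖ * ‖t l‖ = ‖z‖ := by rw [← CStarRing.norm_star_mul_self, h0]
  have h2 : z * z = z := by
    calc z * z = z * (star (t l) * t l) := by rw [h0]
      _ = z := by rw [← mul_assoc, h.z_star, h0]
  have h3 : ‖z‖ ≤ 1 := IsStarProjection.norm_le z ⟨h2, h.sa⟩
  nlinarith [norm_nonneg (t l)]

lemma af_sum [Nonempty κ] : ∑ l, af t l * t l = z := by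
  have hk : (Fintype.card κ : ℂ) ≠ 0 := Nat.cast_ne_zero.2 Fintype.card_ne_zero
  simp only [af, smul_mul_assoc, h.orth, if_true, Finset.sum_const, Finset.card_univ]
  rw [← Nat.cast_smul_eq_nsmul ℂ, smul_smul, mul_inv_cancel₀ hk, one_smul]

lemma z_af (l : κ) : z * af t l = af t l := by rw [af, mul_smul_comm, h.z_star]

end Sig

lemma avg_norm {ι : Type} [Fintype ι] {g : ι → A} (hg : ∀ p, ‖g p‖ ≤ 1) :
    ∑ p, ‖(Fintype.card ι : ℂ)⁻¹ • star (g p)‖ * ‖g p‖ ≤ 1 := by
  calc ∑ p, ‖(Fintype.card ι : ℂ)⁻¹ • star (g p)‖ * ‖g p‖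
      ≤ ∑ _p : ι, (Fintype.card ι : ℝ)⁻¹ := Finset.sum_le_sum fun p _ => by
        rw [norm_smul, norm_star, norm_inv, Complex.norm_natCast, mul_assoc]
        exact mul_le_of_le_one_right (by positivity)
          (mul_le_one₀ (hg p) (norm_nonneg _) (hg p))
    _ ≤ 1 := by
        rw [Finset.sum_const, Finset.card_univ, nsmul_eq_mul]
        exact mul_inv_le_one

lemma sign_sum (a a' : κ) : ∑ ε : κ → ℤˣ, (((ε a : ℤ) : ℂ) * ((ε a' : ℤ) : ℂ)) =
    if a = a' then (Fintype.card (κ → ℤˣ) : ℂ) else 0 := by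
  split_ifs with ha
  · subst ha
    have : ∀ ε : κ → ℤˣ, (((ε a : ℤ) : ℂ) * ((ε a : ℤ) : ℂ)) = 1 := fun ε => by
      rcases Int.units_eq_one_or (ε a) with h | h <;> simp [h]
    simp [this]
  · have h1 := Equiv.sum_comp (Equiv.mulLeft (Pi.mulSingle a (-1) : κ → ℤˣ))
      (fun ε : κ → ℤˣ => (((ε a : ℤ) : ℂ) * ((ε a' : ℤ) : ℂ)))
    have ha' : a' ≠ a := fun h => ha h.symm
    simp only [Equiv.coe_mulLeft, Pi.mul_apply, Pi.mulSingle_eq_same, Pi.mulSingle_eq_of_ne ha',
      one_mul, neg_mul, Units.val_neg, Int.cast_neg, Finset.sum_neg_distrib] at h1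
    linear_combination (-1 / 2 : ℂ) * h1

variable [AddCommGroup κ]

/-- The signed shifts. -/
def gg (t : κ → A) (p : (κ → ℤˣ) × κ) : A :=
  ∑ a, ((p.1 a : ℤ) : ℂ) • (t (a + p.2) * star (t a))

/-- The left factors of the family of signed shifts. -/
def ag (t : κ → A) (p : (κ → ℤˣ) × κ) : A :=
  (Fintype.card ((κ → ℤˣ) × κ) : ℂ)⁻¹ • star (gg t p)

lemma star_gg (t : κ → A) (p : (κ → ℤˣ) × κ) :
    star (gg t p) = ∑ a, ((p.1 a : ℤ) : ℂ) • (t a * star (t (a + p.2))) := by
  simp [gg, star_sum]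

lemma tensor (t : κ → A) (B : A → A → A) (h1 : ∀ v, IsLinearMap ℂ (fun u => B u v))
    (h2 : ∀ u, IsLinearMap ℂ (B u)) :
    ∑ p, B (ag t p) (gg t p) = ∑ a, ∑ l, B (t a * af t l) (t l * star (t a)) := by
  let B' : A →ₗ[ℂ] A →ₗ[ℂ] A := LinearMap.mk₂ ℂ B (fun u u' v => (h1 v).map_add u u')
    (fun c u v => (h1 v).map_smul c u) (fun u v v' => (h2 u).map_add v v')
    (fun c u v => (h2 u).map_smul c v)
  have hB : ∀ u v, B u v = B' u v := fun _ _ => rfl
  have hN : (Fintype.card (κ → ℤˣ) : ℂ) ≠ 0 := Nat.cast_ne_zero.2 Fintype.card_ne_zero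
  simp only [hB, ag, af, star_gg, mul_smul_comm, map_smul, LinearMap.smul_apply]
  simp only [gg, map_sum, map_smul, LinearMap.sum_apply, LinearMap.smul_apply, Finset.smul_sum,
    smul_smul]
  rw [Fintype.sum_prod_type_right]
  have h3 : ∀ s : κ, ∑ ε : κ → ℤˣ, ∑ a' : κ, ∑ a : κ,
      ((Fintype.card ((κ → ℤˣ) × κ) : ℂ)⁻¹ * (((ε a' : ℤ) : ℂ) * ((ε a : ℤ) : ℂ))) •
        B' (t a * star (t (a + s))) (t (a' + s) * star (t a')) =
      ∑ a, (Fintype.card κ : ℂ)⁻¹ • B' (t a * star (t (a + s))) (t (a + s) * star (t a)) := by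
    intro s
    rw [Finset.sum_comm]
    refine Finset.sum_congr rfl fun a' _ => ?_
    rw [Finset.sum_comm]
    simp only [← Finset.sum_smul, ← Finset.mul_sum, sign_sum, mul_ite, mul_zero, ite_smul,
      zero_smul, Finset.sum_ite_eq, Finset.mem_univ, if_true]
    congr 1
    rw [Fintype.card_prod, Nat.cast_mul]
    field_simp
  simp only [h3]
  rw [Finset.sum_comm]
  refine Finset.sum_congr rfl fun a _ => ?_
  exact Equiv.sum_comp (Equiv.addLeft a)
    (fun l => (Fintype.card κ : ℂ)⁻¹ • B' (t a * star (t l)) (t l * star (t a)))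

variable {z : A} {t : κ → A} (h : Orth z t)
include h

lemma gg_mul_sig (p : (κ → ℤˣ) × κ) : gg t p * sig t 1 = gg t p := by
  simp only [gg, Finset.sum_mul, smul_mul_assoc, mul_assoc, star_mul_sig_one h]

lemma norm_gg (p : (κ → ℤˣ) × κ) : ‖gg t p‖ ≤ 1 := by
  have h1 : star (gg t p) * gg t p = sig t 1 := by
    rw [star_gg, gg, Finset.sum_mul, sig]
    refine Finset.sum_congr rfl fun a _ => ?_
    rw [Finset.mul_sum, Finset.sum_eq_single a]
    · rw [smul_mul_smul_comm, h.mul_orth, if_pos rfl, h.tz, mul_one]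
      rcases Int.units_eq_one_or (p.1 a) with h | h <;> simp [h]
    · intro m _ hm
      rw [smul_mul_smul_comm, h.mul_orth, if_neg (by simpa using hm.symm), smul_zero]
    · simp
  have h2 := norm_sig_one h
  rw [← h1, CStarRing.norm_star_mul_self] at h2
  nlinarith [norm_nonneg (gg t p)]

lemma stepA {k : ℕ} (IH : ∀ c, c * sig t 1 = c → ∀ {f : Ch A k}, f ∈ ML k → ∀ x : Fin k → A,
      S (ag t) (gg t) k c f (fun i => sig t (x i)) =
        ∑ a, S (af t) t k (c * t a) f x * star (t a))
    (c : A) {f : Ch A (k + 1)} (hf : f ∈ ML (k + 1)) (Y : A) (x : Fin k → A) :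
    S (ag t) (gg t) (k + 1) c f (cs Y fun i => sig t (x i)) =
      ∑ a, S (af t) t (k + 1) c f (cs (Y * t a) x) * star (t a) := by
  rw [S_succ]
  simp only [fun p => IH (gg t p) (gg_mul_sig h p) (hf.2 (c * Y * ag t p)) x]
  rw [tensor t (fun u v => ∑ a, S (af t) t k (v * t a) (cur (c * Y * u) f) x * star (t a))]
  · refine Finset.sum_congr rfl fun a _ => ?_
    rw [S_succ, Finset.sum_mul]
    refine Finset.sum_congr rfl fun l _ => ?_
    rw [Finset.sum_eq_single a]
    · rw [mul_assoc (t l), h.orth, if_pos rfl, h.tz]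
      simp only [mul_assoc]
    · intro m _ hm
      rw [mul_assoc (t l), h.orth, if_neg hm.symm, mul_zero,
        (S_lin (af t) t k (hf.2 _)).map_zero]
      simp
    · simp
  · exact fun v => ⟨fun u u' => by
      simp only [mul_add, hf.1.map_add, map_add, Pi.add_apply, add_mul, Finset.sum_add_distrib],
      fun r u => by
      simp only [mul_smul_comm, hf.1.map_smul, LinearMap.map_smul_of_tower, Pi.smul_apply,
        smul_mul_assoc, Finset.smul_sum]⟩
  · exact fun u => ⟨fun v v' => by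
      simp only [add_mul, (S_lin (af t) t k (hf.2 _)).map_add, Pi.add_apply,
        Finset.sum_add_distrib],
      fun r v => by
      simp only [smul_mul_assoc, (S_lin (af t) t k (hf.2 _)).map_smul, Pi.smul_apply,
        Finset.smul_sum]⟩

lemma lemA : ∀ (k : ℕ) (c : A), c * sig t 1 = c → ∀ {f : Ch A k}, f ∈ ML k → ∀ x : Fin k → A,
    S (ag t) (gg t) k c f (fun i => sig t (x i)) =
      ∑ a, S (af t) t k (c * t a) f x * star (t a)
  | 0, c, hc, f, _, x => by
    have : (fun i => sig t (x i)) = x := Subsingleton.elim _ _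
    rw [this]
    simp only [S_zero, mul_assoc, ← Finset.mul_sum]
    conv_lhs => rw [← hc]
    simp only [sig, mul_one]
  | k + 1, c, _, f, hf, x => by
    induction x using forall_cs with
    | h y x =>
      have : (fun i => sig t (cs y x i)) = cs (sig t y) (fun i => sig t (x i)) := by
        funext i
        refine Fin.cases rfl (fun _ => rfl) i
      rw [this, stepA h (lemA k) c hf]
      simp only [sig_mul_t h, S_mul]

lemma TT_eq {k : ℕ} {f : Ch A (k + 1)} (hf : f ∈ ML (k + 1)) (Y : A) (x : Fin k → A) :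
    TT (ag t) (gg t) (k + 1) f (cs Y fun i => sig t (x i)) =
      ∑ i, ∑ a, t i * TT (af t) t (k + 1) f (cs (star (t i) * Y * t a) x) * star (t a) := by
  simp only [TT, Finset.sum_apply, Pi.smul_apply, smul_eq_mul, stepA h (lemA h k) _ hf]
  rw [tensor t (fun u v => u * ∑ a, S (af t) t (k + 1) v f (cs (Y * t a) x) * star (t a))]
  · refine Finset.sum_congr rfl fun i _ => ?_
    simp only [Finset.mul_sum, Finset.sum_mul, S_mul, mul_assoc]
    exact Finset.sum_comm
  · exact fun v => ⟨fun u u' => by simp only [add_mul], fun r u => by simp only [smul_mul_assoc]⟩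
  · exact fun u => ⟨fun v v' => by
      simp only [(S_lin (af t) t _ hf).map_add, Pi.add_apply, add_mul, Finset.sum_add_distrib,
        mul_add],
      fun r v => by
      simp only [(S_lin (af t) t _ hf).map_smul, Pi.smul_apply, smul_mul_assoc,
        ← Finset.smul_sum, mul_smul_comm]⟩

theorem matrix_bd {k : ℕ} {f : Ch A (k + 1)} (hf : f ∈ ML (k + 1)) {R : ℝ} (hR : 0 ≤ R)
    (hb : Bd R f) (Y : A) (x : Fin k → A) :
    ‖∑ i, ∑ a, t i * TT (af t) t (k + 1) f (cs (star (t i) * Y * t a) x) * star (t a)‖ ≤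
      R * (‖Y‖ * ∏ i, ‖x i‖) := by
  rw [← TT_eq h hf]
  refine (TT_bd (a := ag t) (b := gg t) (avg_norm (norm_gg h)) hR hb _).trans ?_
  rw [prod_cs]
  gcongr with i
  exact norm_sig h _

lemma TT_z {k : ℕ} (f : Ch A (k + 1)) (y : A) (x : Fin k → A) :
    TT (af t) t (k + 1) f (cs (z * y) x) = TT (af t) t (k + 1) f (cs y x) := by
  simp only [TT, Finset.sum_apply, Pi.smul_apply, ← S_mul, h.tz]

lemma z_TT {k : ℕ} (f : Ch A k) (x : Fin k → A) :
    z * TT (af t) t k f x = TT (af t) t k f x := by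
  simp only [TT, Finset.sum_apply, Pi.smul_apply, smul_eq_mul, Finset.mul_sum, ← mul_assoc,
    z_af h]

end Crest.Agent.R121.HomCB
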