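import Crest.Agent.R121.Base
import Crest.Agent.R121.HomCB

/-!
# Row 121: on the properly infinite part a cocycle is cohomologous to a completely bounded one.
-/

set_option autoImplicit false
set_option linter.unusedSectionVars false

open scoped InnerProductSpace Topology
open Filter

noncomputable section

namespace Crest.Agent.R121

open HomAlg HomCB

universe u

namespace HomLim

section Alg
variable {A : Type u} [CStarAlgebra A]

lemma orth_comp {κ I : Type} [DecidableEq κ] [DecidableEq I] {z : A} {t : κ → A} (h : Orth z t)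
    (α : I ↪ κ) : Orth z (fun i => t (α i)) :=
  ⟨h.cen, fun _ => h.zt _, fun l m => by rw [h.orth]; simp, h.sa⟩

lemma extract {I J : Type} [Fintype I] [Fintype J] [DecidableEq I] [DecidableEq J] {z : A}
    {t : I → A} {s : J → A} (ht : Orth z t) (hs : Orth z s) (G : I → J → A) (l : I) (m : J) :
    star (t l) * (∑ i, ∑ j, t i * G i j * star (s j)) * s m = z * G l m * z := by
  rw [Finset.mul_sum, Finset.sum_mul, Finset.sum_eq_single l]
  · rw [Finset.mul_sum, Finset.sum_mul, Finset.sum_eq_single m]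
    · rw [← mul_assoc, ← mul_assoc, mul_assoc _ (star (s m)), ht.orth, hs.orth, if_pos rfl,
        if_pos rfl]
    · intro j _ hj
      rw [← mul_assoc, mul_assoc _ (star (s j)), hs.orth, if_neg hj, mul_zero]
    · simp
  · intro i _ hi
    simp only [Finset.mul_sum, ← mul_assoc, ht.orth, if_neg hi.symm, zero_mul,
      Finset.sum_const_zero]
  · simp

variable (D : Pred A)

/-- Weak limits along the hyperfilter. -/
def WLim (v : ℕ → A) (a : A) : Prop :=
  ∀ ω ∈ D.Ω, Tendsto (fun k => ω (v k)) (hyperfilter ℕ : Filter ℕ) (𝓝 (ω a))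

variable {D} {v w : ℕ → A} {a b : A}

lemma WLim.const (a : A) : WLim D (fun _ => a) a := fun _ _ => tendsto_const_nhds

lemma WLim.add (hv : WLim D v a) (hw : WLim D w b) : WLim D (fun k => v k + w k) (a + b) :=
  fun ω hω => by simp only [map_add]; exact (hv ω hω).add (hw ω hω)

lemma WLim.sub (hv : WLim D v a) (hw : WLim D w b) : WLim D (fun k => v k - w k) (a - b) :=
  fun ω hω => by simp only [map_sub]; exact (hv ω hω).sub (hw ω hω)

lemma WLim.smul (c : ℂ) (hv : WLim D v a) : WLim D (fun k => c • v k) (c • a) :=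
  fun ω hω => by simp only [map_smul]; exact (hv ω hω).const_smul c

lemma WLim.zsmul (c : ℤ) (hv : WLim D v a) : WLim D (fun k => c • v k) (c • a) :=
  fun ω hω => by simp only [map_zsmul]; exact (hv ω hω).const_smul c

lemma WLim.mul_left (c : A) (hv : WLim D v a) : WLim D (fun k => c * v k) (c * a) :=
  fun ω hω => by
    obtain ⟨ω', h1, h2⟩ := D.mulL ω hω c
    simpa only [h2] using hv ω' h1

lemma WLim.mul_right (hv : WLim D v a) (c : A) : WLim D (fun k => v k * c) (a * c) :=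
  fun ω hω => by
    obtain ⟨ω', h1, h2⟩ := D.mulR ω hω c
    simpa only [h2] using hv ω' h1

lemma WLim.sum {ι : Type*} (s : Finset ι) {v : ι → ℕ → A} {a : ι → A}
    (hv : ∀ i ∈ s, WLim D (v i) (a i)) : WLim D (fun k => ∑ i ∈ s, v i k) (∑ i ∈ s, a i) :=
  fun ω hω => by
    simp only [map_sum]
    exact tendsto_finsetSum s fun i hi => hv i hi ω hω

lemma WLim.unique (hv : WLim D v a) (hw : WLim D v b) : a = b :=
  sub_eq_zero.1 (D.sep _ fun ω hω => by
    rw [map_sub, tendsto_nhds_unique (hv ω hω) (hw ω hω), sub_self])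

lemma WLim.diff {n : ℕ} {g : ℕ → Ch A n} {G : Ch A n} (h : ∀ x, WLim D (fun k => g k x) (G x))
    (x : Fin (n + 1) → A) :
    WLim D (fun k => Crest.OpAlg.hochschildDiff (g k) x) (Crest.OpAlg.hochschildDiff G x) := by
  simp only [diff_apply]
  exact (((h _).mul_left _).add (WLim.sum _ fun j _ => (h _).zsmul _)).add
    (((h _).mul_right _).zsmul _)

lemma exists_lim {n : ℕ} {g : ℕ → Ch A n} (hg : ∀ k, g k ∈ ML n) {R : ℝ}
    (hb : ∀ k, Bd R (g k)) :
    ∃ G : ContinuousMultilinearMap ℂ (fun _ : Fin n => A) A,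
      ∀ x, WLim D (fun k => g k x) (G x) := by
  have h : ∀ x : Fin n → A, ∃ a : A, ‖a‖ ≤ R * ∏ i, ‖x i‖ ∧ WLim D (fun k => g k x) a :=
    fun x => D.cpt ((hyperfilter ℕ).map fun k => g k x) _
      (Filter.eventually_map.2 (Eventually.of_forall fun k => hb k x))
  choose G hG hl using h
  let G' : MultilinearMap ℂ (fun _ : Fin n => A) A :=
    { toFun := G
      map_update_add' := fun {_} x i y w => by
        obtain rfl : ‹DecidableEq (Fin n)› = instDecidableEqFin n := Subsingleton.elim _ _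
        refine (hl _).unique ?_
        simp only [fun k => (ML.update (hg k) x i).map_add y w]
        exact (hl _).add (hl _)
      map_update_smul' := fun {_} x i c y => by
        obtain rfl : ‹DecidableEq (Fin n)› = instDecidableEqFin n := Subsingleton.elim _ _
        refine (hl _).unique ?_
        simp only [fun k => (ML.update (hg k) x i).map_smul c y]
        exact (hl _).smul c }
  exact ⟨G'.mkContinuous R hG, hl⟩

/-- Orthogonal families of every size from two isometries. -/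
lemma exists_orth {z s₁ s₂ : A} (hz : ∀ x, z * x = x * z) (hsa : star z = z) (hzz : z * z = z)
    (h1 : star s₁ * s₁ = z) (h2 : star s₂ * s₂ = z) (h12 : star s₁ * s₂ = 0)
    (hz1 : z * s₁ = s₁) : ∃ t : ℕ → A, Orth z t := by
  have key : ∀ l m : ℕ, l ≤ m →
      star (s₂ ^ l * s₁) * (s₂ ^ m * s₁) = if l = m then z else 0 := by
    intro l
    induction l with
    | zero =>
      intro m _
      rcases m with _ | m
      · simp [h1]
      · simp [pow_succ', ← mul_assoc, h12]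
    | succ l ih =>
      intro m hm
      obtain ⟨m, rfl⟩ : ∃ m', m = m' + 1 := ⟨m - 1, by omega⟩
      have : star (s₂ ^ (l + 1) * s₁) * (s₂ ^ (m + 1) * s₁) =
          star (s₂ ^ l * s₁) * (star s₂ * s₂) * (s₂ ^ m * s₁) := by
        rw [pow_succ', pow_succ', mul_assoc s₂, star_mul s₂]
        simp only [mul_assoc]
      rw [this, h2, ← hz, mul_assoc, ih m (by omega)]
      by_cases h : l = m <;> simp [h, hzz]
  refine ⟨fun l => s₂ ^ l * s₁, hz, fun l => by rw [← mul_assoc, hz, mul_assoc, hz1],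
    fun l m => ?_, hsa⟩
  rcases le_total l m with h | h
  · exact key l m h
  · have := congrArg star (key m l h)
    rw [star_mul, star_star] at this
    rw [this]
    by_cases h : l = m
    · simp [h, hsa]
    · rw [if_neg h, if_neg (Ne.symm h), star_zero]

end Alg

section VN
variable {H : Type u} [NormedAddCommGroup H] [InnerProductSpace ℂ H] [CompleteSpace H]
  {M : VonNeumannAlgebra H} {I J : Type} [Fintype I] [Fintype J] [DecidableEq I] [DecidableEq J]
  {z : Alg M}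

lemma col {t : I → Alg M} (h : Orth z t) (η : I → H) :
    ‖∑ i, (t i : H →L[ℂ] H) (η i)‖ ^ 2 ≤ ∑ i, ‖η i‖ ^ 2 := by
  have h1 : ∀ i j, i ≠ j → ⟪(t i : H →L[ℂ] H) (η i), (t j : H →L[ℂ] H) (η j)⟫_ℂ = 0 := by
    intro i j hij
    have := congrArg (fun x : Alg M => (x : H →L[ℂ] H) (η j)) (h.orth i j)
    simp only [if_neg hij] at this
    rw [← ContinuousLinearMap.adjoint_inner_right]
    exact (congrArg (fun v => ⟪η i, v⟫_ℂ) this).trans (inner_zero_right _)
  have h2 : ‖∑ i, (t i : H →L[ℂ] H) (η i)‖ ^ 2 = ∑ i, ‖(t i : H →L[ℂ] H) (η i)‖ ^ 2 := by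
    rw [← inner_self_eq_norm_sq (𝕜 := ℂ), sum_inner, map_sum]
    refine Finset.sum_congr rfl fun i _ => ?_
    rw [inner_sum, Finset.sum_eq_single i (fun j _ hj => h1 i j hj.symm) (by simp),
      inner_self_eq_norm_sq]
  rw [h2]
  refine Finset.sum_le_sum fun i _ => ?_
  have h3 : ‖(t i : H →L[ℂ] H) (η i)‖ ≤ ‖η i‖ :=
    ((t i : H →L[ℂ] H).le_opNorm _).trans
      (mul_le_of_le_one_left (norm_nonneg _) (norm_t h i))
  gcongr

lemma row {t : I → Alg M} (h : Orth z t) (ξ : H) :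
    ∑ i, ‖((star (t i) : Alg M) : H →L[ℂ] H) ξ‖ ^ 2 ≤ ‖ξ‖ ^ 2 := by
  set η : I → H := fun i => ((star (t i) : Alg M) : H →L[ℂ] H) ξ with hη
  have h1 := col h η
  have h2 : ∑ i, ‖η i‖ ^ 2 = RCLike.re ⟪ξ, ∑ i, (t i : H →L[ℂ] H) (η i)⟫_ℂ := by
    rw [inner_sum, map_sum]
    refine Finset.sum_congr rfl fun i _ => ?_
    rw [← ContinuousLinearMap.adjoint_inner_left, ← inner_self_eq_norm_sq (𝕜 := ℂ)]
    rfl
  have h3 := re_inner_le_norm (𝕜 := ℂ) ξ (∑ i, (t i : H →L[ℂ] H) (η i))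
  nlinarith [sq_nonneg (‖ξ‖ - ‖∑ i, (t i : H →L[ℂ] H) (η i)‖)]

lemma norm_Y {t : I → Alg M} {s : J → Alg M} (ht : Orth z t) (hs : Orth z s)
    (X : I → J → Alg M)
    (hX : ∀ η : J → H, ∑ i, ‖∑ j, (X i j : H →L[ℂ] H) (η j)‖ ^ 2 ≤ ∑ j, ‖η j‖ ^ 2) :
    ‖∑ i, ∑ j, t i * X i j * star (s j)‖ ≤ 1 := by
  refine ContinuousLinearMap.opNorm_le_bound
    ((∑ i, ∑ j, t i * X i j * star (s j) : Alg M) : H →L[ℂ] H) zero_le_one fun ξ => ?_
  have h1 : ((∑ i, ∑ j, t i * X i j * star (s j) : Alg M) : H →L[ℂ] H) ξ =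
      ∑ i, (t i : H →L[ℂ] H) (∑ j, (X i j : H →L[ℂ] H)
        (((star (s j) : Alg M) : H →L[ℂ] H) ξ)) := by
    simp only [AddSubmonoidClass.coe_finsetSum, _root_.sum_apply, map_sum]
    rfl
  rw [h1, one_mul]
  exact (pow_le_pow_iff_left₀ (norm_nonneg _) (norm_nonneg _) two_ne_zero).1
    ((col ht _).trans ((hX _).trans (row hs ξ)))

lemma entries {t : I → Alg M} {s : J → Alg M} (ht : Orth z t) (hs : Orth z s) (W : Alg M)
    (η : J → H) :
    ∑ i, ‖∑ j, ((star (t i) * W * s j : Alg M) : H →L[ℂ] H) (η j)‖ ^ 2 ≤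
      ‖W‖ ^ 2 * ∑ j, ‖η j‖ ^ 2 := by
  have h1 : ∀ i, ∑ j, ((star (t i) * W * s j : Alg M) : H →L[ℂ] H) (η j) =
      ((star (t i) : Alg M) : H →L[ℂ] H)
        ((W : H →L[ℂ] H) (∑ j, (s j : H →L[ℂ] H) (η j))) := fun i => by
    simp only [map_sum]; rfl
  simp only [h1]
  refine (row ht _).trans ?_
  have h2 := (W : H →L[ℂ] H).le_opNorm (∑ j, (s j : H →L[ℂ] H) (η j))
  calc _ ≤ (‖W‖ * ‖∑ j, (s j : H →L[ℂ] H) (η j)‖) ^ 2 := by gcongr; exact h2
    _ ≤ _ := by rw [mul_pow]; gcongr; exact col hs η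

lemma level {κ : Type} [Fintype κ] [DecidableEq κ] [AddCommGroup κ] {t : κ → Alg M}
    (h : Orth z t) {k : ℕ} {f : Ch (Alg M) (k + 1)} (hf : f ∈ ML (k + 1))
    {R : ℝ} (hR : 0 ≤ R) (hb : Bd R f) (x : Fin k → Alg M) (α : I ↪ κ) (β : J ↪ κ)
    (X : I → J → Alg M)
    (hX : ∀ η : J → H, ∑ i, ‖∑ j, (X i j : H →L[ℂ] H) (η j)‖ ^ 2 ≤ ∑ j, ‖η j‖ ^ 2)
    (η : J → H) :
    ∑ i, ‖∑ j, (TT (af t) t (k + 1) f (cs (X i j) x) : H →L[ℂ] H) (η j)‖ ^ 2 ≤
      (R * ∏ i, ‖x i‖) ^ 2 * ∑ j, ‖η j‖ ^ 2 := by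
  have ht := orth_comp h α
  have hs := orth_comp h β
  set Y := ∑ i, ∑ j, t (α i) * X i j * star (t (β j)) with hY
  have hp : 0 ≤ ∏ i, ‖x i‖ := Finset.prod_nonneg fun _ _ => norm_nonneg _
  have h1 := matrix_bd h hf hR hb Y x
  set W := ∑ i, ∑ a, t i * TT (af t) t (k + 1) f (cs (star (t i) * Y * t a) x) * star (t a)
    with hW
  have h2 : ‖W‖ ≤ R * ∏ i, ‖x i‖ := h1.trans (by
    gcongr; exact mul_le_of_le_one_left hp (norm_Y ht hs X hX))
  have h3 : ∀ i j, TT (af t) t (k + 1) f (cs (X i j) x) = star (t (α i)) * W * t (β j) := by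
    intro i j
    rw [hW, extract h h (fun i a => TT (af t) t (k + 1) f (cs (star (t i) * Y * t a) x)),
      hY, extract ht hs X, ← h.cen, ← h.cen, z_TT h, z_TT h, TT_z h, TT_z h]
  simp only [h3]
  refine (entries ht hs W η).trans ?_
  gcongr

lemma cb_lim {D : Pred (Alg M)} (hD : D.Ω = vecSpan M) {v : I → J → ℕ → Alg M}
    {a : I → J → Alg M} (hv : ∀ i j, WLim D (v i j) (a i j)) (η : J → H) {B : ℝ}
    (hB : ∀ᶠ k in atTop, ∑ i, ‖∑ j, (v i j k : H →L[ℂ] H) (η j)‖ ^ 2 ≤ B) :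
    ∑ i, ‖∑ j, (a i j : H →L[ℂ] H) (η j)‖ ^ 2 ≤ B := by
  set ζ : I → H := fun i => ∑ j, (a i j : H →L[ℂ] H) (η j) with hζ
  have h1 : ∀ i, Tendsto (fun k => ⟪ζ i, ∑ j, (v i j k : H →L[ℂ] H) (η j)⟫_ℂ)
      (hyperfilter ℕ : Filter ℕ) (𝓝 ⟪ζ i, ζ i⟫_ℂ) := fun i => by
    conv => enter [3, 1, 3]; rw [hζ]
    simp only [inner_sum]
    refine tendsto_finsetSum _ fun j _ => ?_
    exact hv i j (vecFun M (ζ i) (η j)) (hD ▸ Submodule.subset_span ⟨_, _, rfl⟩)
  have h2 : Tendsto (fun k => ∑ i, (2 * RCLike.re ⟪ζ i, ∑ j, (v i j k : H →L[ℂ] H) (η j)⟫_ℂ -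
      ‖ζ i‖ ^ 2)) (hyperfilter ℕ : Filter ℕ)
      (𝓝 (∑ i, (2 * RCLike.re ⟪ζ i, ζ i⟫_ℂ - ‖ζ i‖ ^ 2))) :=
    tendsto_finsetSum _ fun i _ =>
      (((RCLike.continuous_re.tendsto _).comp (h1 i)).const_mul 2).sub_const _
  have h3 : ∑ i, (2 * RCLike.re ⟪ζ i, ζ i⟫_ℂ - ‖ζ i‖ ^ 2) = ∑ i, ‖ζ i‖ ^ 2 :=
    Finset.sum_congr rfl fun i _ => by rw [inner_self_eq_norm_sq]; ring
  rw [h3] at h2
  refine le_of_tendsto h2 ((hB.filter_mono Nat.hyperfilter_le_atTop).mono fun k hk => ?_)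
  refine le_trans (Finset.sum_le_sum fun i _ => ?_) hk
  have := re_inner_le_norm (𝕜 := ℂ) (ζ i) (∑ j, (v i j k : H →L[ℂ] H) (η j))
  nlinarith [sq_nonneg (‖ζ i‖ - ‖∑ j, (v i j k : H →L[ℂ] H) (η j)‖)]

end VN

end HomLim

open HomLim in
theorem homotopy : HomotopyStmt.{u} := by
  intro H _ _ _ M D hD z hz hPI n f hf
  classical
  obtain ⟨s₁, m₁, s₂, m₂, h1, h2, h12, hz1, -⟩ := hPI
  have hc : ∀ x : Alg M, z * x = x * z := fun x => Subtype.ext (hz.comm x x.2)
  have hzz : z * z = z := Subtype.ext hz.proj.isIdempotentElem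
  obtain ⟨t₀, ht₀⟩ := exists_orth (z := z) (s₁ := ⟨s₁, m₁⟩) (s₂ := ⟨s₂, m₂⟩) hc
    (Subtype.ext hz.proj.isSelfAdjoint) hzz (Subtype.ext h1) (Subtype.ext h2) (Subtype.ext h12)
    (Subtype.ext hz1)
  let t : ∀ k : ℕ, ZMod (k + 1) → Alg M := fun k l => t₀ l.val
  have ht : ∀ k, Orth z (t k) := fun k => orth_comp ht₀ ⟨_, ZMod.val_injective (k + 1)⟩
  have hML : (f : Ch (Alg M) (n + 1)) ∈ ML (n + 1) := ML_of_multilinear _ f.toMultilinearMap
  have hbd : Bd ‖f‖ (f : Ch (Alg M) (n + 1)) := f.le_opNorm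
  have hav : ∀ k, ∑ l, ‖af (t k) l‖ * ‖t k l‖ ≤ 1 := fun k => avg_norm (norm_t (ht k))
  obtain ⟨h, hh⟩ := exists_lim (D := D) (g := fun k => HH (af (t k)) (t k) n f)
    (fun k => HH_ML _ _ hML) (fun k => HH_bd (hav k) (norm_nonneg f) hbd)
  obtain ⟨f', hf'⟩ := exists_lim (D := D) (g := fun k => TT (af (t k)) (t k) (n + 1) f)
    (fun k => TT_ML _ _ hML) (fun k => TT_bd (hav k) (norm_nonneg f) hbd)
  have hd : Crest.OpAlg.hochschildDiff (f : Ch (Alg M) (n + 1)) = 0 := funext hf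
  have heq : ∀ a, f' a = z * f a - Crest.OpAlg.hochschildDiff h a := fun a => by
    refine (hf' a).unique ?_
    simp only [fun k => homot hc (af_sum (ht k)) (z_af (ht k)) (ht k).tz hML hd]
    exact (WLim.const _).sub (WLim.diff hh a)
  refine ⟨h, f', ‖f‖ + ‖f'‖, heq, fun a => ?_, fun x => ⟨⟨?_, fun y => ?_⟩, ?_⟩⟩
  · have : (f' : Ch (Alg M) (n + 1)) =
        z • (f : Ch (Alg M) (n + 1)) - Crest.OpAlg.hochschildDiff h := funext heq
    rw [this, diff_sub, diff_smul hc, hd, diff_diff]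
    simp
  · exact ⟨fun y w => f'.toMultilinearMap.cons_add x y w,
      fun c y => f'.toMultilinearMap.cons_smul x c y⟩
  · have hp : 0 ≤ ∏ i, ‖x i‖ := Finset.prod_nonneg fun _ _ => norm_nonneg _
    have := f'.le_opNorm (cs y x)
    rw [prod_cs] at this
    refine this.trans ?_
    have h0 : 0 ≤ ‖f‖ * (∏ i, ‖x i‖) * ‖y‖ := by positivity
    nlinarith
  · intro I J _ _ X hX η
    have hp : 0 ≤ ∏ i, ‖x i‖ := Finset.prod_nonneg fun _ _ => norm_nonneg _
    refine le_trans (cb_lim hD (fun i j => hf' (cs (X i j) x)) η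
      (B := (‖f‖ * ∏ i, ‖x i‖) ^ 2 * ∑ j, ‖η j‖ ^ 2) ?_) ?_
    · filter_upwards [eventually_ge_atTop (Fintype.card I), eventually_ge_atTop (Fintype.card J)]
        with k hI hJ
      obtain ⟨α⟩ := Function.Embedding.nonempty_of_card_le (α := I) (β := ZMod (k + 1))
        (by rw [ZMod.card]; omega)
      obtain ⟨β⟩ := Function.Embedding.nonempty_of_card_le (α := J) (β := ZMod (k + 1))
        (by rw [ZMod.card]; omega)
      exact level (ht k) hML (norm_nonneg f) hbd x α β X hX η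
    · gcongr
      exact le_add_of_nonneg_right (norm_nonneg _)

end Crest.Agent.R121

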