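import Crest.Agent.R121.Base

/-! Row 121: maps in a minimal set are uniformly `‖·‖₂`-continuous on the unit ball. -/

set_option autoImplicit false

open Crest.Agent.Lib.Tracial

noncomputable section

namespace Crest.Agent.R121

universe u

section
variable {A : Type u} [CStarAlgebra A]

/-- right supports -/
lemma normal_rsupp (τ : TrState A) (hP : HasPolar A) (x : A) :
    ∃ q : A, IsStarProjection q ∧ x * q = x ∧ (∀ y, x * y = 0 → q * y = 0) ∧
      ∀ p, p * x = x → τ.n2 q ≤ τ.n2 p := by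
  obtain ⟨w, h1, h2, h3, h4⟩ := hP x
  have hq : IsStarProjection (star w * w) :=
    ⟨by
      show star w * w * (star w * w) = star w * w
      calc star w * w * (star w * w) = star w * (w * star w * w) := by simp only [mul_assoc]
        _ = _ := by rw [h1], IsSelfAdjoint.star_mul_self w⟩
  refine ⟨star w * w, hq, h2, fun y hy => by rw [mul_assoc, h4 y hy, mul_zero], fun p hp => ?_⟩
  have hw : ‖w‖ ≤ 1 := by
    have := hq.norm_le
    rw [CStarRing.norm_star_mul_self] at this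
    nlinarith [norm_nonneg w]
  calc τ.n2 (star w * w) ≤ τ.n2 w :=
        τ.n2_mul_le_of_norm_le_one_left (by rwa [norm_star]) w
    _ = τ.n2 (p * w) := by rw [h3 p hp]
    _ ≤ τ.n2 p := τ.n2_mul_le_of_norm_le_one_right p hw

/-- a projection of small trace covering the ranges of finitely many elements -/
lemma normal_cover {ι : Type*} (τ : TrState A) (hP : HasPolar A) {χ : A}
    (hχ : IsStarProjection χ) (z : ι → A) (hz : ∀ i, z i * χ = z i) (s : Finset ι) :
    ∃ ρ : A, IsStarProjection ρ ∧ (∀ i ∈ s, ρ * z i = z i) ∧ τ.n2 ρ ≤ s.card * τ.n2 χ := by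
  classical
  induction s using Finset.induction_on with
  | empty => exact ⟨0, IsStarProjection.zero A, by simp, by simp⟩
  | insert i s hi ih =>
    obtain ⟨ρ, h1, h2, h3⟩ := ih
    obtain ⟨q, k1, k2, k3, k4⟩ := normal_rsupp τ hP (star ((1 - ρ) * z i))
    have e1 : q * ρ = 0 := k3 ρ (by
      rw [star_mul, h1.one_sub.isSelfAdjoint.star_eq, mul_assoc, h1.one_sub_mul_self, mul_zero])
    have e2 : ρ * q = 0 := by
      have := congrArg star e1
      rwa [star_mul, h1.isSelfAdjoint.star_eq, k1.isSelfAdjoint.star_eq, star_zero] at this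
    have e3 : q * ((1 - ρ) * z i) = (1 - ρ) * z i := by
      have := congrArg star k2
      rwa [star_mul, star_star, k1.isSelfAdjoint.star_eq] at this
    have e4 : τ.n2 q ≤ τ.n2 χ := k4 χ (by
      rw [← hχ.isSelfAdjoint.star_eq, ← star_mul, mul_assoc, hz])
    refine ⟨ρ + q, h1.add k1 e2, ?_, ?_⟩
    · intro j hj
      rcases Finset.mem_insert.1 hj with rfl | hj
      · have : q * z j = q * ((1 - ρ) * z j) := by
          rw [← mul_assoc, mul_sub, mul_one, e1, sub_zero]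
        rw [add_mul, this, e3, sub_mul, one_mul]; abel
      · have : q * z j = 0 := by rw [← h2 j hj, ← mul_assoc, e1, zero_mul]
        rw [add_mul, this, add_zero, h2 j hj]
    · rw [Finset.card_insert_of_notMem hi]
      push_cast
      linarith [τ.n2_add_le ρ q]

/-- cutting an element at height `t` -/
lemma normal_cut (τ : TrState A) (hP : HasPolar A) (y : A) {t : ℝ} (ht : 0 < t) :
    ∃ χ : A, IsStarProjection χ ∧ ‖y * (1 - χ)‖ ≤ t ∧ t * τ.n2 χ ≤ τ.n2 y := by
  let _ := CStarAlgebra.spectralOrder A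
  have _ := CStarAlgebra.spectralOrderedRing A
  set h : A := star y * y - (t ^ 2 : ℝ) • (1 : A) with hh
  have hsa : IsSelfAdjoint h := by
    refine (IsSelfAdjoint.star_mul_self y).sub ?_
    exact IsSelfAdjoint.smul (IsSelfAdjoint.all _) (IsSelfAdjoint.one A)
  have e0 : star y * y = h⁺ - h⁻ + (t ^ 2 : ℝ) • (1 : A) := by
    rw [CFC.posPart_sub_negPart h hsa, hh]; abel
  obtain ⟨χ, k1, k2, k3, -⟩ := normal_rsupp τ hP h⁺
  have e1 : χ * h⁻ = 0 := k3 _ (CFC.posPart_mul_negPart h)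
  have e2 : h⁺ * (1 - χ) = 0 := by rw [mul_sub, mul_one, k2, sub_self]
  refine ⟨χ, k1, ?_, ?_⟩
  · have f1 : star (y * (1 - χ)) * (y * (1 - χ)) =
        (t ^ 2 : ℝ) • (1 - χ) - star (1 - χ) * h⁻ * (1 - χ) := by
      calc star (y * (1 - χ)) * (y * (1 - χ)) = star (1 - χ) * (star y * y) * (1 - χ) := by
            rw [star_mul]; simp only [mul_assoc]
        _ = star (1 - χ) * (h⁺ * (1 - χ)) - star (1 - χ) * h⁻ * (1 - χ) +
            (t ^ 2 : ℝ) • (star (1 - χ) * (1 - χ)) := by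
            rw [e0]
            simp only [mul_add, add_mul, mul_sub (star (1 - χ)), sub_mul _ _ (1 - χ),
              mul_smul_comm, smul_mul_assoc, mul_one, mul_assoc]
        _ = _ := by
            rw [e2, mul_zero, k1.one_sub.isSelfAdjoint.star_eq, k1.one_sub.isIdempotentElem.eq]
            abel
    have f2 : star (y * (1 - χ)) * (y * (1 - χ)) ≤ (t ^ 2 : ℝ) • (1 - χ) := by
      rw [f1]
      exact sub_le_self _ (star_left_conjugate_nonneg (CFC.negPart_nonneg h) _)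
    have f3 := CStarAlgebra.norm_le_norm_of_nonneg_of_le (star_mul_self_nonneg _) f2
    rw [CStarRing.norm_star_mul_self, norm_smul, Real.norm_of_nonneg (by positivity)] at f3
    have f4 : ‖1 - χ‖ ≤ 1 := k1.one_sub.norm_le
    have f5 : ‖y * (1 - χ)‖ ^ 2 ≤ t ^ 2 := by nlinarith [sq_nonneg t]
    exact (sq_le_sq₀ (norm_nonneg _) ht.le).1 f5
  · obtain ⟨d, hd⟩ := CStarAlgebra.nonneg_iff_eq_star_mul_self.mp (CFC.posPart_nonneg h)
    have f1 : star (y * χ) * (y * χ) = star (d * χ) * (d * χ) + (t ^ 2 : ℝ) • (star χ * χ) := by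
      calc star (y * χ) * (y * χ) = star χ * (star y * y) * χ := by
            rw [star_mul]; simp only [mul_assoc]
        _ = star χ * h⁺ * χ - star χ * h⁻ * χ + (t ^ 2 : ℝ) • (star χ * χ) := by
            rw [e0]
            simp only [mul_add, add_mul, mul_sub, sub_mul, mul_smul_comm, smul_mul_assoc, mul_one]
        _ = _ := by
            rw [star_mul d, k1.isSelfAdjoint.star_eq, e1, zero_mul, sub_zero, hd]
            simp only [mul_assoc]
    have f2 : τ.n2 (y * χ) ^ 2 = τ.n2 (d * χ) ^ 2 + t ^ 2 * τ.n2 χ ^ 2 := by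
      rw [τ.n2_sq, τ.n2_sq, τ.n2_sq, f1, τ.tr_add, τ.tr_real_smul, Complex.add_re,
        Complex.re_ofReal_mul]
    have f3 : τ.n2 (y * χ) ≤ τ.n2 y := τ.n2_mul_le_of_norm_le_one_right y k1.norm_le
    have f4 : (t * τ.n2 χ) ^ 2 ≤ τ.n2 y ^ 2 := by
      have := pow_le_pow_left₀ (τ.n2_nonneg _) f3 2
      nlinarith [sq_nonneg (τ.n2 (d * χ))]
    exact (sq_le_sq₀ (mul_nonneg ht.le (τ.n2_nonneg _)) (τ.n2_nonneg _)).1 f4

lemma normal_norm_add {y y' : A} (h1 : star y * y' = 0) (h2 : y * star y' = 0)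
    (hy : ‖y‖ ≤ 1) (hy' : ‖y'‖ ≤ 1) : ‖y + y'‖ ≤ 1 := by
  have h3 : star y' * y = 0 := by
    have := congrArg star h1
    rwa [star_mul, star_star, star_zero] at this
  have e : star (y + y') * (y + y') = star y * y + star y' * y' := by
    rw [star_add, add_mul, mul_add, mul_add, h1, h3]; abel
  have h4 : star y * y * (star y' * y') = 0 := by
    rw [mul_assoc, ← mul_assoc y, h2, zero_mul, mul_zero]
  have h5 := (IsSelfAdjoint.star_mul_self y).norm_add_eq_max (IsSelfAdjoint.star_mul_self y') h4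
  rw [← e, CStarRing.norm_star_mul_self, CStarRing.norm_star_mul_self,
    CStarRing.norm_star_mul_self] at h5
  have h6 : ‖y + y'‖ * ‖y + y'‖ ≤ 1 := by
    rw [h5]
    exact max_le (by nlinarith [norm_nonneg y]) (by nlinarith [norm_nonneg y'])
  nlinarith [norm_nonneg (y + y')]

end

theorem normal : NormalStmt.{u} := by
  intro A _ D τ hτ hP r K hK hL ε hε
  obtain ⟨c, hc⟩ := hK.ne
  have hcl := (hL c hc).lin
  set R : ℝ := |r| + 1 with hR
  have hR0 : 0 < R := by positivity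
  have hcb : ∀ y, ‖c y‖ ≤ R * ‖y‖ := fun y =>
    ((hL c hc).bd y).trans (mul_le_mul_of_nonneg_right (by linarith [le_abs_self r]) (norm_nonneg _))
  set S : Set ℝ := {a | ∃ η : ℝ, 0 < η ∧ ∀ y : A, ‖y‖ ≤ 1 → τ.n2 y ≤ η → τ.n2 (c y) ^ 2 ≤ a}
    with hS
  have hcb1 : ∀ y, ‖y‖ ≤ 1 → τ.n2 (c y) ≤ R := fun y hy =>
    (τ.n2_le_norm _).trans ((hcb y).trans (mul_le_of_le_one_right hR0.le hy))
  have hSne : S.Nonempty := ⟨R ^ 2, 1, one_pos, fun y hy _ =>
    pow_le_pow_left₀ (τ.n2_nonneg _) (hcb1 y hy) 2⟩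
  have hSbd : BddBelow S := by
    refine ⟨0, ?_⟩
    rintro a ⟨η, hη, h⟩
    exact (sq_nonneg _).trans (h 0 (by simp) (by simpa using hη.le))
  set θ : ℝ := ε ^ 2 / 16 with hθ
  have hθ0 : 0 < θ := by positivity
  obtain ⟨a, ⟨η₁, hη₁, ha⟩, has⟩ := exists_lt_of_csInf_lt hSne (lt_add_of_pos_right (sInf S) hθ0)
  have hlow : ∀ κ : ℝ, 0 < κ → ∃ y : A, ‖y‖ ≤ 1 ∧ τ.n2 y ≤ κ ∧ sInf S - θ < τ.n2 (c y) ^ 2 := by
    intro κ hκ
    by_contra hcon
    push Not at hcon
    have : sInf S ≤ sInf S - θ := csInf_le hSbd ⟨κ, hκ, hcon⟩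
    linarith
  refine ⟨η₁ / 2, by positivity, ?_⟩
  set X : Set A := {y | ‖y‖ ≤ 1 ∧ τ.n2 y ≤ η₁ / 2} with hX
  set L : X → Set (Fl D) := fun x => {c' | τ.n2 (c' x) ≤ ε} with hLdef
  have hLc : ∀ x, IsClosed (L x) := fun x => (wcont_eval (x : A)).isClosed_n2_le hτ ε
  have hne : (K ∩ ⋂ x, L x).Nonempty := by
    refine hK.cpt.inter_iInter_nonempty L hLc fun s => ?_
    classical
    set t : ℝ := min 1 (ε ^ 2 / (24 * R ^ 2)) with ht
    have ht0 : 0 < t := lt_min one_pos (by positivity)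
    have ht1 : t ≤ 1 := min_le_left _ _
    have ht2 : 3 * R ^ 2 * t ≤ ε ^ 2 / 8 := by
      calc 3 * R ^ 2 * t ≤ 3 * R ^ 2 * (ε ^ 2 / (24 * R ^ 2)) := by
            gcongr; exact min_le_right _ _
        _ = _ := by field_simp; ring
    set m : ℝ := s.card + 1 with hm
    have hm0 : 0 < m := by positivity
    obtain ⟨y₀, a1, a2, a3⟩ := hlow (min (η₁ / 2) (t * (ε / (2 * m * R))))
      (lt_min (by positivity) (by positivity))
    obtain ⟨χ, b1, b2, b3⟩ := normal_cut τ hP y₀ ht0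
    have hχ : τ.n2 χ ≤ ε / (2 * m * R) :=
      le_of_mul_le_mul_left (b3.trans (a2.trans (min_le_right _ _))) ht0
    set y := y₀ * χ with hy
    have hy1 : ‖y‖ ≤ 1 := (norm_mul_le _ _).trans (mul_le_one₀ a1 (norm_nonneg _) b1.norm_le)
    have hy2 : τ.n2 y ≤ η₁ / 2 :=
      (τ.n2_mul_le_of_norm_le_one_right y₀ b1.norm_le).trans (a2.trans (min_le_left _ _))
    have hy3 : sInf S - θ - ε ^ 2 / 8 ≤ τ.n2 (c y) ^ 2 := by
      have e : c y₀ = c y + c (y₀ * (1 - χ)) := by
        rw [← hcl.map_add, hy, ← mul_add, add_sub_cancel, mul_one]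
      have f1 : τ.n2 (c y₀) ≤ τ.n2 (c y) + R * t := by
        rw [e]
        refine (τ.n2_add_le _ _).trans (add_le_add le_rfl ?_)
        exact (τ.n2_le_norm _).trans ((hcb _).trans (by gcongr))
      have f2 := pow_le_pow_left₀ (τ.n2_nonneg _) f1 2
      have f3 := hcb1 y hy1
      have f4 := τ.n2_nonneg (c y)
      have f5 : τ.n2 (c y) * (R * t) ≤ R * (R * t) := by gcongr
      have f6 : (R * t) ^ 2 ≤ R ^ 2 * t := by
        rw [mul_pow]; gcongr; nlinarith
      nlinarith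
    obtain ⟨ρ, r1, r2, r3⟩ := normal_cover τ hP b1
      (fun o : Option X => o.elim y₀ (fun x => (x : A)) * χ)
      (fun o => by rw [mul_assoc, b1.isIdempotentElem.eq]) (Finset.insertNone s)
    have hρ : τ.n2 ρ * R ≤ ε / 2 := by
      rw [Finset.card_insertNone] at r3
      calc τ.n2 ρ * R ≤ (m * (ε / (2 * m * R))) * R := by
            gcongr
            refine r3.trans ?_
            push_cast
            gcongr
        _ = _ := by field_simp
    have hρy : ρ * y = y := r2 none (by simp)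
    have hu : 1 - 2 * ρ ∈ unitary A := by
      have := r1.one_sub.two_mul_sub_one_mem_unitary
      have e : 2 * (1 - ρ) - 1 = 1 - 2 * ρ := by noncomm_ring
      rwa [e] at this
    refine ⟨(1 / 2 : ℝ) • c + (1 / 2 : ℝ) • uact (1 - 2 * ρ) c,
      hK.cvx hc (hK.toGood.uact_mem hu hc) (by norm_num) (by norm_num) (by norm_num), ?_⟩
    simp only [Set.mem_iInter]
    intro x hx
    have hx1 : ‖(x : A)‖ ≤ 1 := x.2.1
    have hx2 : τ.n2 (x : A) ≤ η₁ / 2 := x.2.2
    have hρx : ρ * ((x : A) * χ) = x * χ := r2 (some x) (by simpa using hx)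
    set y' : A := (1 - ρ) * x with hy'
    have g1 : ‖y'‖ ≤ 1 := (norm_mul_le _ _).trans (mul_le_one₀ r1.one_sub.norm_le (norm_nonneg _) hx1)
    have g2 : τ.n2 y' ≤ η₁ / 2 := (τ.n2_mul_le_of_norm_le_one_left r1.one_sub.norm_le _).trans hx2
    have o1 : star y * y' = 0 := by
      rw [← hρy, star_mul, r1.isSelfAdjoint.star_eq, hy', mul_assoc, ← mul_assoc ρ,
        r1.mul_one_sub_self, zero_mul, mul_zero]
    have o2 : y * star y' = 0 := by
      have : y' * χ = 0 := by rw [hy', mul_assoc, sub_mul, one_mul, hρx, sub_self]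
      rw [hy, mul_assoc, ← b1.isSelfAdjoint.star_eq, ← star_mul, this, star_zero, mul_zero]
    have p1 := ha (y + y') (normal_norm_add o1 o2 hy1 g1) (by linarith [τ.n2_add_le y y'])
    have p2 := ha (y - y') (by
      rw [sub_eq_add_neg]
      exact normal_norm_add (by rw [mul_neg, o1, neg_zero]) (by rw [star_neg, mul_neg, o2, neg_zero])
        hy1 (by rwa [norm_neg])) (by linarith [τ.n2_sub_le y y'])
    rw [hcl.map_add] at p1
    rw [hcl.map_sub] at p2
    have p3 := τ.n2_parallelogram (c y) (c y')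
    have p4 : τ.n2 (c y') ≤ ε / 2 := by
      refine (sq_le_sq₀ (τ.n2_nonneg _) (by positivity)).1 ?_
      nlinarith
    have e1 : c x = c (ρ * x) + c y' := by
      rw [← hcl.map_add, hy', ← add_mul, add_sub_cancel, one_mul]
    have e2 : c ((1 - 2 * ρ) * x) = c y' - c (ρ * x) := by
      rw [← hcl.map_sub, hy', ← sub_mul, two_mul, sub_sub]
    have e3 : star (1 - 2 * ρ) = 1 - 2 * ρ := by
      rw [two_mul, star_sub, star_add, star_one, r1.isSelfAdjoint.star_eq]
    have e4 : ((1 / 2 : ℝ) • c + (1 / 2 : ℝ) • uact (1 - 2 * ρ) c : Fl D) x =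
        ρ * c (ρ * x) + (1 - ρ) * c y' := by
      rw [Fl.add_apply, Fl.smul_apply, Fl.smul_apply, uact_apply, e1, e2, e3, ← smul_add]
      have : c (ρ * x) + c y' + (1 - 2 * ρ) * (c y' - c (ρ * x)) =
          (2 : ℝ) • (ρ * c (ρ * x) + (1 - ρ) * c y') := by
        rw [two_smul]; noncomm_ring
      rw [this, smul_smul]; norm_num
    show τ.n2 _ ≤ ε
    rw [e4]
    have q1 : τ.n2 (ρ * c (ρ * x)) ≤ ε / 2 := by
      refine (τ.n2_mul_le_right _ _).trans (le_trans ?_ hρ)
      refine mul_le_mul_of_nonneg_left ((hcb _).trans (mul_le_of_le_one_right hR0.le ?_))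
        (τ.n2_nonneg _)
      exact (norm_mul_le _ _).trans (mul_le_one₀ r1.norm_le (norm_nonneg _) hx1)
    have q2 : τ.n2 ((1 - ρ) * c y') ≤ ε / 2 :=
      (τ.n2_mul_le_of_norm_le_one_left r1.one_sub.norm_le _).trans p4
    linarith [τ.n2_add_le (ρ * c (ρ * x)) ((1 - ρ) * c y')]
  have hsub := hK.min (⋂ x, L x) (isClosed_iInter hLc) (convex_iInter fun x => ?_) hne ?_
  · intro c' hc' y hy1 hy2
    exact Set.mem_iInter.1 (hsub hc') ⟨y, hy1, hy2⟩
  · intro c₁ h₁ c₂ h₂ s t hs ht hst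
    have h₁ : τ.n2 (c₁ x) ≤ ε := h₁
    have h₂ : τ.n2 (c₂ x) ≤ ε := h₂
    show τ.n2 (s • c₁ x + t • c₂ x) ≤ ε
    calc _ ≤ s * τ.n2 (c₁ x) + t * τ.n2 (c₂ x) := by
          refine (τ.n2_add_le _ _).trans ?_
          rw [τ.n2_real_smul, τ.n2_real_smul, abs_of_nonneg hs, abs_of_nonneg ht]
      _ ≤ s * ε + t * ε := by gcongr
      _ = ε := by rw [← add_mul, hst, one_mul]
  · rintro _ ⟨v, hv, rfl⟩ c' - hc'
    refine Set.mem_iInter.2 fun x => ?_
    show τ.n2 (star v * c' (v * x)) ≤ ε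
    rw [τ.n2_unitary_mul (Unitary.star_mem hv)]
    exact Set.mem_iInter.1 hc' ⟨v * x, by
      rw [CStarRing.norm_mem_unitary_mul _ hv]; exact x.2.1, by
      rw [τ.n2_unitary_mul hv]; exact x.2.2⟩

end Crest.Agent.R121
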