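import Crest.Agent.R121.Base

/-! # Row 121: Pietsch domination. -/

set_option autoImplicit false

open scoped InnerProductSpace Topology ComplexStarModule
open Filter Crest.Agent.Lib.Tracial

noncomputable section

namespace Crest.Agent.R121

universe u

/-- Hahn–Banach for a convex set below the norm. -/
lemma pietsch_hb {E : Type*} [NormedAddCommGroup E] [NormedSpace ℝ E] (W : Set (E × ℝ))
    (hW : Convex ℝ W) (h0 : (0 : E × ℝ) ∈ W) (hle : ∀ p ∈ W, p.2 ≤ ‖p.1‖) :
    ∃ g : E →L[ℝ] ℝ, (∀ a, g a ≤ ‖a‖) ∧ ∀ p ∈ W, p.2 ≤ g p.1 := by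
  have hU : Convex ℝ {p : E × ℝ | ‖p.1‖ < p.2} := by
    intro p hp q hq s t hs ht hst
    have hp : ‖p.1‖ < p.2 := hp
    have hq : ‖q.1‖ < q.2 := hq
    show ‖s • p.1 + t • q.1‖ < s • p.2 + t • q.2
    have h1 : ‖s • p.1 + t • q.1‖ ≤ s * ‖p.1‖ + t * ‖q.1‖ := by
      refine (norm_add_le _ _).trans ?_
      rw [norm_smul, norm_smul, Real.norm_of_nonneg hs, Real.norm_of_nonneg ht]
    simp only [smul_eq_mul]
    rcases hs.eq_or_lt with rfl | hs'
    · have : t = 1 := by linarith
      subst this; linarith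
    · nlinarith [mul_le_mul_of_nonneg_left hq.le ht, mul_lt_mul_of_pos_left hp hs']
  have hO : IsOpen {p : E × ℝ | ‖p.1‖ < p.2} := isOpen_lt continuous_fst.norm continuous_snd
  obtain ⟨f, r, h1, h2⟩ := geometric_hahn_banach_open hU hO hW (Set.disjoint_left.2
    fun p hp hp' => absurd (hle p hp') (not_le.2 hp))
  have hr0 : r ≤ 0 := by simpa using h2 0 h0
  set c : ℝ := f (0, 1) with hc
  have hf : ∀ (a : E) (s : ℝ), f (a, s) = f (a, 0) + s * c := by
    intro a s
    have : ((a, s) : E × ℝ) = (a, 0) + s • ((0, 1) : E × ℝ) := by ext <;> simp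
    rw [this, map_add, map_smul, smul_eq_mul]
  have hs : ∀ s : ℝ, 0 < s → s * c < r := by
    intro s hs
    have := h1 (0, s) (by simpa using hs)
    rw [hf] at this
    have h00 : f ((0 : E), (0 : ℝ)) = 0 := map_zero f
    linarith
  have hc0 : c < 0 := by have := hs 1 one_pos; linarith
  have hr : 0 ≤ r := by
    by_contra h
    push Not at h
    have := hs (r / c) (div_pos_of_neg_of_neg h hc0)
    rw [div_mul_cancel₀ _ hc0.ne] at this
    exact lt_irrefl _ this
  have hr' : r = 0 := le_antisymm hr0 hr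
  subst hr'
  refine ⟨(-c)⁻¹ • f.comp (ContinuousLinearMap.inl ℝ E ℝ), fun a => ?_, fun p hp => ?_⟩
  · show (-c)⁻¹ * f (a, 0) ≤ ‖a‖
    rw [inv_mul_le_iff₀ (by linarith)]
    refine le_of_forall_pos_le_add fun ε hε => ?_
    have := h1 (a, ‖a‖ + ε / (-c)) (by
      show ‖a‖ < ‖a‖ + ε / (-c)
      have : 0 < ε / (-c) := div_pos hε (by linarith)
      linarith)
    rw [hf] at this
    have h3 : ε / (-c) * c = -ε := by
      have := hc0.ne
      field_simp
    nlinarith
  · show p.2 ≤ (-c)⁻¹ * f (p.1, 0)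
    rw [le_inv_mul_iff₀ (by linarith)]
    have := h2 p hp
    rw [show p = (p.1, p.2) from rfl, hf] at this
    linarith

theorem pietsch : PietschStmt.{u} := by
  intro A _ J q y hq
  let _ := CStarAlgebra.spectralOrder A
  have _ := CStarAlgebra.spectralOrderedRing A
  let W : Set (A × ℝ) := {p | ∃ (ι : Type) (_ : Fintype ι) (j : ι → J) (t : ι → ℝ) (P : A),
    (∀ l, 0 ≤ t l) ∧ 0 ≤ P ∧ p.1 = ∑ l, t l • (star (y (j l)) * y (j l)) + P ∧
      p.2 = ∑ l, t l * q (j l)}
  have hW : Convex ℝ W := by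
    rintro p ⟨ι, _, j, t, P, ht, hP, h1, h2⟩ p' ⟨ι', _, j', t', P', ht', hP', h1', h2'⟩ a b ha hb _
    refine ⟨ι ⊕ ι', inferInstance, Sum.elim j j', Sum.elim (fun l => a * t l) (fun l => b * t' l),
      a • P + b • P', ?_, add_nonneg (smul_nonneg ha hP) (smul_nonneg hb hP'), ?_, ?_⟩
    · rintro (l | l)
      · exact mul_nonneg ha (ht l)
      · exact mul_nonneg hb (ht' l)
    · simp only [Prod.fst_add, Prod.smul_fst, h1, h1', Fintype.sum_sum_type, Sum.elim_inl,
        Sum.elim_inr, smul_add, Finset.smul_sum, smul_smul]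
      abel
    · simp only [Prod.snd_add, Prod.smul_snd, h2, h2', Fintype.sum_sum_type, Sum.elim_inl,
        Sum.elim_inr, smul_eq_mul, Finset.mul_sum, mul_assoc]
  have hpos : ∀ P : A, 0 ≤ P → ((P, 0) : A × ℝ) ∈ W := fun P hP =>
    ⟨Empty, inferInstance, Empty.elim, Empty.elim, P, fun l => l.elim, hP, by simp, by simp⟩
  have hle : ∀ p ∈ W, p.2 ≤ ‖p.1‖ := by
    rintro p ⟨ι, _, j, t, P, ht, hP, h1, h2⟩
    rw [h1, h2]
    refine (hq ι j t ht).trans ?_
    simp only [Complex.coe_smul]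
    refine CStarAlgebra.norm_le_norm_of_nonneg_of_le
      (Finset.sum_nonneg fun l _ => smul_nonneg (ht l) (star_mul_self_nonneg _)) ?_
    exact le_add_of_nonneg_right hP
  obtain ⟨g, hg1, hg2⟩ := pietsch_hb W hW (hpos 0 le_rfl) hle
  let f : A →ₗ[ℂ] ℂ :=
    { toFun := fun a => (g (ℜ a : A) : ℂ) + Complex.I * (g (ℑ a : A) : ℂ)
      map_add' := fun a b => by
        simp only [map_add, AddSubgroup.coe_add]; push_cast; ring
      map_smul' := fun z a => by
        simp only [realPart_smul, imaginaryPart_smul, AddSubgroup.coe_add, AddSubgroup.coe_sub,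
          selfAdjoint.val_smul, map_add, map_sub, map_smul, smul_eq_mul, RingHom.id_apply]
        apply Complex.ext <;> simp }
  have hf : ∀ a : A, IsSelfAdjoint a → f a = (g a : ℂ) := by
    intro a ha
    show (g (ℜ a : A) : ℂ) + Complex.I * (g (ℑ a : A) : ℂ) = _
    rw [ha.coe_realPart, ha.imaginaryPart]
    simp
  refine ⟨f, fun x => ?_, ?_, fun j => ?_⟩
  · rw [hf _ (IsSelfAdjoint.star_mul_self x)]
    exact ⟨by simpa using hg2 _ (hpos _ (star_mul_self_nonneg x)), by simp⟩
  · rw [hf _ (IsSelfAdjoint.one A), Complex.ofReal_re]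
    refine (hg1 1).trans ?_
    rcases subsingleton_or_nontrivial A with h | h
    · rw [Subsingleton.elim (1 : A) 0, norm_zero]; exact zero_le_one
    · exact norm_one.le
  · rw [hf _ (IsSelfAdjoint.star_mul_self _), Complex.ofReal_re]
    exact hg2 (star (y j) * y j, q j) ⟨Unit, inferInstance, fun _ => j, fun _ => 1, 0,
      fun _ => zero_le_one, le_rfl, by simp, by simp⟩

end Crest.Agent.R121
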