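import Crest.Agent.R121.Base
import Crest.Agent.R124.All1

/-!
# Row 121: application of the solution of the similarity problem
-/

set_option autoImplicit false
set_option linter.style.haveILetI false

open scoped InnerProductSpace ComplexOrder
open Crest.Agent.Lib.Tracial

noncomputable section

namespace Crest.Agent.R121

universe u

open Crest.Agent.R124

theorem sim_gns {A : Type u} [CStarAlgebra A] (φ : A →ₗ[ℂ] ℂ)
    (hφ : ∀ x, 0 ≤ (φ (star x * x)).re ∧ (φ (star x * x)).im = 0) :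
    ∃ (H : Type u) (_ : NormedAddCommGroup H) (_ : InnerProductSpace ℂ H) (_ : CompleteSpace H)
      (hat : A →ₗ[ℂ] H) (lam : A →⋆ₐ[ℂ] (H →L[ℂ] H)),
      (∀ x, ‖hat x‖ ^ 2 = (φ (star x * x)).re) ∧ (∀ x y, lam x (hat y) = hat (x * y)) ∧
        DenseRange hat := by
  letI : PartialOrder A := CStarAlgebra.spectralOrder A
  haveI : StarOrderedRing A := CStarAlgebra.spectralOrderedRing A
  let f : A →ₚ[ℂ] ℂ := PositiveLinearMap.mk₀ φ (fun a ha => by
    obtain ⟨b, rfl⟩ := CStarAlgebra.nonneg_iff_eq_star_mul_self.mp ha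
    exact Complex.nonneg_iff.mpr ⟨(hφ b).1, (hφ b).2.symm⟩)
  have hf : ∀ a, f a = φ a := fun a => rfl
  let hat : A →ₗ[ℂ] f.GNS :=
    (UniformSpace.Completion.toComplL (𝕜 := ℂ) (E := f.PreGNS)).toLinearMap ∘ₗ
      f.toPreGNS.toLinearMap
  have hhat : ∀ a, hat a = ((f.toPreGNS a : f.PreGNS) : f.GNS) := fun a => rfl
  refine ⟨f.GNS, inferInstance, inferInstance, inferInstance, hat, f.gnsStarAlgHom, ?_, ?_, ?_⟩
  · intro x
    rw [← inner_self_eq_norm_sq (𝕜 := ℂ), hhat, UniformSpace.Completion.inner_coe,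
      PositiveLinearMap.preGNS_inner_def]
    simp [hf]
  · intro x y
    rw [hhat, hhat]
    have := f.gnsNonUnitalStarAlgHom_apply_coe (a := x) (b := f.toPreGNS y)
    refine Eq.trans this ?_
    congr 1
  · have h1 : DenseRange ((↑) : f.PreGNS → f.GNS) := UniformSpace.Completion.denseRange_coe
    exact h1.comp f.toPreGNS.surjective.denseRange (UniformSpace.Completion.continuous_coe _)

section mu
variable {A : Type*} [Ring A] [StarRing A] {I : Type} [Fintype I] {e : I → I → A}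

theorem sim_sum_mul (he : IsMU e) (f : I → I) (g : I → A) (a b : I) :
    e a b * ∑ k, e k (f k) * g k = e a (f b) * g b := by
  rw [Finset.mul_sum, Finset.sum_eq_single b]
  · rw [← mul_assoc, he.mul_same]
  · intro k _ hk
    rw [← mul_assoc, he.mul_ne _ _ _ _ hk.symm, zero_mul]
  · simp

theorem sim_mul_sum (he : IsMU e) (f : I → I) (g : I → A) (a b : I) :
    (∑ k, g k * e (f k) k) * e a b = g a * e (f a) b := by
  rw [Finset.sum_mul, Finset.sum_eq_single a]
  · rw [mul_assoc, he.mul_same]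
  · intro k _ hk
    rw [mul_assoc, he.mul_ne _ _ _ _ hk, mul_zero]
  · simp

theorem sim_proj (he : IsMU e) : IsStarProjection (∑ i, e i i) := by
  refine ⟨?_, ?_⟩
  · rw [IsIdempotentElem, Finset.sum_mul]
    refine Finset.sum_congr rfl fun i _ => ?_
    simpa using sim_sum_mul he id (fun _ => 1) i i
  · rw [IsSelfAdjoint, star_sum]
    exact Finset.sum_congr rfl fun i _ => he.star_eq i i

end mu

/-- The Hilbert space form of the estimate. -/
theorem sim_core : ∃ C : ℝ, 0 ≤ C ∧ ∀ (A : Type u) [CStarAlgebra A] (K : Type u)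
    [NormedAddCommGroup K] [InnerProductSpace ℂ K] [CompleteSpace K]
    (ρ : A →⋆ₐ[ℂ] (K →L[ℂ] K)) (Y : K →L[ℂ] K) (h : ℕ) (e : Fin h → Fin h → A) (g : ℝ), 0 ≤ g →
    IsMU e → (∀ i j, Y * ρ (e i j) = ρ (e i j) * Y) →
    (∀ u ∈ comU e, ‖Y * ρ u - ρ u * Y‖ ≤ g) → ∀ x,
      ‖Y * ρ ((∑ i, e i i) * x * ∑ i, e i i) - ρ ((∑ i, e i i) * x * ∑ i, e i i) * Y‖ ≤
        C * g * ‖x‖ := by
  obtain ⟨C, hC⟩ := s0165.{u}
  refine ⟨4 * max C 0, by positivity, fun A _ K _ _ _ ρ Y h e g hg he hY hu x => ?_⟩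
  rcases Nat.eq_zero_or_pos h with rfl | hh
  · simp only [Finset.univ_eq_empty, Finset.sum_empty, mul_zero, map_zero, zero_mul, sub_self,
      norm_zero]
    positivity
  haveI : Nonempty (Fin h) := ⟨⟨0, hh⟩⟩
  set z := ∑ i, e i i with hz
  let P : StarSubalgebra ℂ A := StarSubalgebra.centralizer ℂ {a | ∃ i j, a = e i j}
  have hmem : ∀ a, a ∈ P ↔ ∀ i j, e i j * a = a * e i j := fun a => by
    rw [StarSubalgebra.mem_centralizer_iff]
    refine ⟨fun H i j => (H _ ⟨i, j, rfl⟩).1, ?_⟩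
    rintro H _ ⟨i, j, rfl⟩
    exact ⟨H i j, by rw [he.star_eq]; exact H j i⟩
  haveI : IsClosed (P : Set A) := by
    have : (P : Set A) = ⋂ i, ⋂ j, {a | e i j * a = a * e i j} := by
      ext a; simp [hmem]
    rw [this]
    exact isClosed_iInter fun i => isClosed_iInter fun j =>
      isClosed_eq (by fun_prop) (by fun_prop)
  obtain ⟨Q, hQ1, hQ2⟩ := kap.{u, u} P K (ρ.comp P.subtype) Y (2 * g) (by positivity) fun a => by
    obtain ⟨v, c, h1, h2⟩ := CStarAlgebra.exists_sum_four_unitary a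
    have h3 : ∀ i, ‖Y * (ρ.comp P.subtype) (v i) - (ρ.comp P.subtype) (v i) * Y‖ ≤ g := fun i =>
      hu _ ⟨Unitary.map_mem P.subtype (v i).2, fun a b => ((hmem _).1 (v i).1.2 a b).symm⟩
    calc _ = ‖∑ i, c i • (Y * (ρ.comp P.subtype) (v i) - (ρ.comp P.subtype) (v i) * Y)‖ := by
          rw [h1]
          simp only [map_sum, map_smul, Finset.mul_sum, Finset.sum_mul, mul_smul_comm,
            smul_mul_assoc, smul_sub, Finset.sum_sub_distrib]
      _ ≤ ∑ _i : Fin 4, ‖a‖ / 2 * g := norm_sum_le_of_le _ fun i _ => by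
          rw [norm_smul]
          exact mul_le_mul (h2 i) (h3 i) (norm_nonneg _) (by positivity)
      _ = _ := by simp; ring
  set F : Amp (Fin h) K →L[ℂ] Amp (Fin h) K := matOp (Matrix.of fun k j => ρ (e j k)) with hF
  have hFs : star F = F := by
    rw [hF, ← matOp_star]
    congr 1
    ext k j : 2
    rw [Matrix.star_apply, Matrix.of_apply, Matrix.of_apply, ← map_star, he.star_eq]
  have hFF : F * F = diagOp (Fin h) (ρ z) := by
    rw [hF, ← matOp_mul, diagOp_eq]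
    congr 1
    ext k j : 2
    simp only [Matrix.mul_apply, Matrix.of_apply, Matrix.diagonal_apply, ← map_mul, ← map_sum]
    split_ifs with hkj
    · subst hkj; simp only [he.mul_same, hz]
    · simp only [he.mul_ne _ _ _ _ hkj, Finset.sum_const_zero, map_zero]
  have hz1 : ‖ρ z‖ ≤ 1 := (NonUnitalStarAlgHom.norm_apply_le ρ z).trans (sim_proj he).norm_le
  have hF1 : ‖F‖ ≤ 1 := by
    have := CStarRing.norm_star_mul_self (x := F)
    rw [hFs, hFF] at this
    have h2 := norm_diagOp_le (ι := Fin h) (ρ z)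
    nlinarith [norm_nonneg F]
  have hYF : diagOp (Fin h) Y * F = F * diagOp (Fin h) Y := by
    rw [hF, diagOp_mul_matOp, matOp_mul_diagOp]
    exact congrArg matOp (Matrix.ext fun k j => hY j k)
  have hYz : Y * ρ z = ρ z * Y := by
    simp only [hz, map_sum, Finset.mul_sum, Finset.sum_mul, hY]
  have h1 := hC K Q Y (2 * (2 * g)) hQ2 h hh (diagOp (Fin h) Y) (F * diagOp (Fin h) (ρ x) * F)
    (fun i j => ρ (∑ k, e k i * x * e j k)) (diagOp_apply Y)
    (fun i j => hQ1 ⟨∑ k, e k i * x * e j k, (hmem _).2 fun a b => by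
      rw [sim_mul_sum he (fun _ => j) (fun k => e k i * x)]
      simp only [mul_assoc]
      rw [sim_sum_mul he (fun _ => i) (fun k => x * e j k)]⟩)
    (fun v i => by
      rw [hF, matOp_mul_diagOp, ← matOp_mul, matOp_apply]
      simp only [Matrix.mul_apply, Matrix.of_apply, map_sum, map_mul])
  have h2 : ‖F * diagOp (Fin h) (ρ x) * F‖ ≤ ‖x‖ := by
    have h3 := (norm_diagOp_le (ι := Fin h) (ρ x)).trans (NonUnitalStarAlgHom.norm_apply_le ρ x)
    calc _ ≤ ‖F‖ * ‖diagOp (Fin h) (ρ x)‖ * ‖F‖ := norm_mul₃_le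
      _ ≤ 1 * ‖x‖ * 1 := by gcongr
      _ = _ := by ring
  have h3 : diagOp (Fin h) (Y * ρ (z * x * z) - ρ (z * x * z) * Y) =
      F * (diagOp (Fin h) Y * (F * diagOp (Fin h) (ρ x) * F) -
        F * diagOp (Fin h) (ρ x) * F * diagOp (Fin h) Y) * F := by
    rw [map_mul, map_mul, diagOp_sub]
    simp only [diagOp_mul, ← hFF]
    have h4 : ∀ W, F * (diagOp (Fin h) Y * W) = diagOp (Fin h) Y * (F * W) := fun W => by
      rw [← mul_assoc, ← hYF, mul_assoc]
    simp only [mul_sub, sub_mul, mul_assoc, h4, ← hYF]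
  refine (norm_le_norm_diagOp (ι := Fin h) _).trans ?_
  rw [h3]
  calc _ ≤ ‖F‖ * ‖diagOp (Fin h) Y * (F * diagOp (Fin h) (ρ x) * F) -
        F * diagOp (Fin h) (ρ x) * F * diagOp (Fin h) Y‖ * ‖F‖ := norm_mul₃_le
    _ ≤ 1 * (max C 0 * (2 * (2 * g)) * ‖x‖) * 1 := by
        gcongr
        refine h1.trans (le_trans ?_ (mul_le_mul_of_nonneg_left h2 (by positivity)))
        gcongr
        exact le_max_left _ _
    _ = _ := by ring

theorem sim_scale {A : Type u} [CStarAlgebra A] (y : A) {t : ℝ} (ht : 0 ≤ t) :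
    star (((√t : ℝ) : ℂ) • y) * (((√t : ℝ) : ℂ) • y) = (t : ℂ) • (star y * y) := by
  rw [star_smul, smul_mul_smul_comm, Complex.star_def, Complex.conj_ofReal, ← Complex.ofReal_mul,
    Real.mul_self_sqrt ht]

theorem sim_n2 {A : Type u} [CStarAlgebra A] (τ : TrState A) (y : A) {t : ℝ} (ht : 0 ≤ t) :
    τ.n2 (((√t : ℝ) : ℂ) • y) ^ 2 = t * τ.n2 y ^ 2 := by
  rw [τ.n2_smul, mul_pow, Complex.norm_real, Real.norm_eq_abs, sq_abs, Real.sq_sqrt ht]

theorem sim (hP : PietschStmt.{u}) : SimStmt.{u} := by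
  obtain ⟨C, hC0, hC⟩ := sim_core.{u}
  refine ⟨2 * C, fun A _ τ I _ e₀ he₀ c hc hm₀ R ε hR hε h₁ h₂ x => ?_⟩
  -- reindexing
  obtain ⟨σ⟩ : Nonempty (Fin (Fintype.card I) ≃ I) := ⟨(Fintype.equivFin I).symm⟩
  set e : Fin (Fintype.card I) → Fin (Fintype.card I) → A := fun i j => e₀ (σ i) (σ j) with he'
  have he : IsMU e := ⟨fun a b c => he₀.mu.mul_same _ _ _,
    fun a b c d h => he₀.mu.mul_ne _ _ _ _ (σ.injective.ne h), fun a b => he₀.mu.star_eq _ _⟩
  have hze : ∑ i, e i i = ∑ i, e₀ i i := Equiv.sum_comp σ fun i => e₀ i i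
  have hcom : ∀ u ∈ comU e, u ∈ comU e₀ := fun u hu => ⟨hu.1, fun i j => by
    simpa [he'] using hu.2 (σ.symm i) (σ.symm j)⟩
  -- Pietsch domination
  obtain ⟨f₁, p₁, n₁, d₁⟩ := hP A A (fun y => τ.n2 (c y) ^ 2 / R ^ 2) id fun ι _ j t ht => by
    have := h₁ ι fun l => ((√(t l) : ℝ) : ℂ) • j l
    simp only [hc.map_smul, sim_scale _ (ht _), sim_n2 τ _ (ht _)] at this
    simp only [← mul_div_assoc, ← Finset.sum_div, id]
    rwa [div_le_iff₀' (by positivity)]
  obtain ⟨f₂, p₂, n₂, d₂⟩ := hP A (A × comU e₀)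
    (fun q => τ.n2 (star (q.2 : A) * c (q.2 * q.1) - c q.1) ^ 2 / ε ^ 2) Prod.fst
    fun ι _ j t ht => by
      have := h₂ ι (fun l => ((√(t l) : ℝ) : ℂ) • (j l).1) (fun l => (j l).2) fun l => (j l).2.2
      simp only [sim_scale _ (ht _)] at this
      simp only [mul_smul_comm, hc.map_smul, ← smul_sub, sim_n2 τ _ (ht _)] at this
      simp only [← mul_div_assoc, ← Finset.sum_div]
      rwa [div_le_iff₀' (by positivity)]
  -- the representation
  have him : ∀ b, (τ (star b * b)).im = 0 := fun b => by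
    rw [← τ.n2_sq_complex, ← Complex.ofReal_pow, Complex.ofReal_im]
  obtain ⟨K, _, _, _, hat, lam, g₁, g₂, g₃⟩ := sim_gns (A := A × A)
    ((f₁ + f₂) ∘ₗ LinearMap.fst ℂ A A + τ.lin ∘ₗ LinearMap.snd ℂ A A) fun p => by
      have := p₁ p.1
      have := p₂ p.1
      have := τ.re_pos p.2
      have := him p.2
      simp only [LinearMap.add_apply, LinearMap.comp_apply, LinearMap.fst_apply,
        LinearMap.snd_apply, Prod.fst_mul, Prod.snd_mul, Prod.fst_star, Prod.snd_star,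
        Complex.add_re, Complex.add_im]
      constructor <;> linarith
  have g₁' : ∀ a b, ‖hat (a, b)‖ ^ 2 =
      (f₁ (star a * a)).re + (f₂ (star a * a)).re + τ.n2 b ^ 2 := fun a b => by
    rw [g₁, τ.n2_sq]; simp
  have g₀ : ∀ b, ‖hat (0, b)‖ = τ.n2 b := fun b =>
    (sq_eq_sq₀ (norm_nonneg _) (τ.n2_nonneg _)).1 (by rw [g₁']; simp)
  let L : A × A →ₗ[ℂ] K := hat ∘ₗ LinearMap.inr ℂ A A ∘ₗ hc.mk' c ∘ₗ LinearMap.fst ℂ A A
  have hL : ∀ p, ‖L p‖ ≤ R * ‖hat p‖ := fun ⟨a, b⟩ => by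
    change ‖hat (0, c a)‖ ≤ _
    rw [g₀]
    refine (sq_le_sq₀ (τ.n2_nonneg _) (by positivity)).1 ?_
    have := d₁ a
    rw [div_le_iff₀' (by positivity)] at this
    rw [mul_pow, g₁']
    refine this.trans (mul_le_mul_of_nonneg_left ?_ (by positivity))
    have := (p₂ a).1
    have := sq_nonneg (τ.n2 b)
    simp only [id]
    linarith
  set Y : K →L[ℂ] K := L.extendOfNorm hat with hY'
  have hY : ∀ a b, Y (hat (a, b)) = hat (0, c a) := fun a b =>
    LinearMap.extendOfNorm_eq g₃ ⟨R, hL⟩ _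
  set ρ : A →⋆ₐ[ℂ] (K →L[ℂ] K) := lam.comp ((StarAlgHom.id ℂ A).prod (StarAlgHom.id ℂ A)) with hρ'
  have hρ : ∀ w a b, ρ w (hat (a, b)) = hat (w * a, w * b) := fun w a b => g₂ _ _
  have hcomm : ∀ w a b, (Y * ρ w - ρ w * Y) (hat (a, b)) = hat (0, c (w * a) - w * c a) :=
    fun w a b => by
      simp only [sub_apply, mul_apply_eq_comp, hρ, hY, ← map_sub,
        mul_zero, Prod.mk_sub_mk, sub_zero]
  have hbd : ∀ (w : A) (r : ℝ), 0 ≤ r → (∀ a b, τ.n2 (c (w * a) - w * c a) ≤ r * ‖hat (a, b)‖) →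
      ‖Y * ρ w - ρ w * Y‖ ≤ r := fun w r hr H =>
    ContinuousLinearMap.opNorm_le_bound _ hr fun v =>
      g₃.induction_on (p := fun v => ‖(Y * ρ w - ρ w * Y) v‖ ≤ r * ‖v‖) v
        (isClosed_le (by fun_prop) (by fun_prop)) fun ⟨a, b⟩ => by
          rw [hcomm, g₀]; exact H a b
  have key := hC A K ρ Y _ e ε hε.le he
    (fun i j => sub_eq_zero.1 (norm_le_zero_iff.1 (hbd _ 0 le_rfl fun a b => by
      rw [he', hm₀, sub_self, τ.n2_zero, zero_mul])))
    (fun w hw => hbd w ε hε.le fun a b => by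
      have h3 := d₂ (a, ⟨w, hcom w hw⟩)
      rw [div_le_iff₀' (by positivity), ← τ.n2_unitary_mul hw.1, mul_sub, ← mul_assoc,
        (Unitary.mem_iff.1 hw.1).2, one_mul] at h3
      refine (sq_le_sq₀ (τ.n2_nonneg _) (by positivity)).1 ?_
      rw [mul_pow, g₁']
      refine h3.trans (mul_le_mul_of_nonneg_left ?_ (by positivity))
      have := (p₁ a).1
      have := sq_nonneg (τ.n2 b)
      linarith) x
  rw [hze] at key
  set z := ∑ i, e₀ i i with hz
  have hzp : IsStarProjection z := sim_proj he₀.mu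
  have hzz : z * x * z = z * x := by
    rw [mul_assoc, ← he₀.central, ← mul_assoc, hzp.isIdempotentElem.eq]
  have hcz : c (z * x) = z * c x := by
    rw [hz, Finset.sum_mul, Finset.sum_mul, ← hc.mk'_apply, map_sum]
    exact Finset.sum_congr rfl fun i _ => hm₀ i i x
  have h1 : ‖hat (1, 0)‖ ≤ 2 := by
    refine (sq_le_sq₀ (norm_nonneg _) (by norm_num)).1 ?_
    rw [g₁', star_one, one_mul, τ.n2_zero]
    linarith
  have h2 := (Y * ρ (z * x * z) - ρ (z * x * z) * Y).le_of_opNorm_le_of_le key h1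
  rw [hcomm, g₀, hzz, mul_one, hcz, mul_assoc, ← mul_sub] at h2
  have h3 : τ.n2 (1 - z) = 0 := by
    have := τ.n2_sq (1 - z)
    rw [hzp.one_sub.isSelfAdjoint.star_eq, hzp.one_sub.isIdempotentElem.eq, τ.tr_sub, τ.tr_one,
      he₀.tr, sub_self, Complex.zero_re] at this
    exact pow_eq_zero_iff two_ne_zero |>.1 this
  have h4 := τ.n2_mul_le_right (1 - z) (c x - x * c 1)
  have h5 := τ.n2_add_le (z * (c x - x * c 1)) ((1 - z) * (c x - x * c 1))
  rw [← add_mul, add_sub_cancel, one_mul] at h5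
  rw [h3, zero_mul] at h4
  linarith

end Crest.Agent.R121
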