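import Crest.Agent.R121.SliceA

/-! # Row 121: upgrade of a uniform `A → L²` bound to a column bound. -/

set_option autoImplicit false
set_option linter.unusedSectionVars false

open scoped InnerProductSpace Topology
open Filter Crest.Agent.Lib.Tracial

noncomputable section

namespace Crest.Agent.R121

universe u

open Crest.Agent.R124 (IsMU)

namespace SliceAux

variable {A : Type u} [CStarAlgebra A] {D : Pred A} {τ : TrState A} {I : Type} [Fintype I]
  {e : I → I → A} {K : Set (Fl D)}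

/-- Finitely many points of a minimal set can be moved into any slice simultaneously. -/
lemma attract (hK : IsMin (uS D (comU e)) K) {Λ : Fl D → ℝ} (hc : Continuous Λ)
    (hl : IsLinearMap ℝ Λ) {J : Type} [Fintype J] (a : J → Fl D) (ha : ∀ j, a j ∈ K)
    {z : Fl D} (hz : z ∈ K) {ε : ℝ} (hε : 0 < ε) :
    ∃ g ∈ comU e, ∀ j, Λ z - ε ≤ Λ (uact g (a j)) := by
  rcases isEmpty_or_nonempty J with hJ | hJ
  · exact ⟨1, one_mem_comU e, fun j => isEmptyElim j⟩
  obtain ⟨m, hm, hmax⟩ := hK.cpt.exists_isMaxOn hK.ne hc.continuousOn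
  have hn : (0 : ℝ) < Fintype.card J := by exact_mod_cast Fintype.card_pos
  set n : ℝ := (Fintype.card J : ℝ) with hndef
  have hbar : ∑ j, n⁻¹ • a j ∈ K := hK.cvx.sum_mem (fun _ _ => by positivity)
    (by rw [Finset.sum_const, Finset.card_univ, nsmul_eq_mul, mul_inv_cancel₀ hn.ne'])
    fun j _ => ha j
  have : ∃ g ∈ comU e, Λ m - ε / n < Λ (uact g (∑ j, n⁻¹ • a j)) := by
    by_contra hcon
    push Not at hcon
    have h1 := hK.subset_of_orbit (one_mem_comU e) (fun _ hu _ hv => mul_mem_comU hu hv) hbar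
      (L := {c | Λ c ≤ Λ m - ε / n}) (isClosed_le hc continuous_const)
      (convex_halfSpace_le hl _) hcon hm
    have h2 : 0 < ε / n := by positivity
    have h3 : Λ m ≤ Λ m - ε / n := h1
    linarith
  obtain ⟨g, hg, h1⟩ := this
  refine ⟨g, hg, fun j => ?_⟩
  have h2 : Λ (uact g (∑ j, n⁻¹ • a j)) = n⁻¹ * ∑ j, Λ (uact g (a j)) := by
    have hl' : IsLinearMap ℝ fun c => Λ (uact g c) :=
      ⟨fun c c' => by rw [(isLinearMap_uact g).map_add, hl.map_add],
        fun t c => by rw [(isLinearMap_uact g).map_smul, hl.map_smul]⟩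
    rw [Finset.mul_sum]
    refine (map_sum (hl'.mk' _) _ _).trans (Finset.sum_congr rfl fun j _ => ?_)
    exact hl'.map_smul _ _
  have h3 : ∀ j, 0 ≤ Λ m - Λ (uact g (a j)) := fun j =>
    sub_nonneg.2 (hmax (hK.toGood.uact_mem hg (ha j)))
  have h4 := Finset.single_le_sum (fun j _ => h3 j) (Finset.mem_univ j)
  rw [Finset.sum_sub_distrib, Finset.sum_const, Finset.card_univ, nsmul_eq_mul, ← hndef] at h4
  have h5 : Λ z ≤ Λ m := hmax hz
  rw [h2] at h1
  have h6 : n * (Λ m - ε / n) < n * (n⁻¹ * ∑ j, Λ (uact g (a j))) := by gcongr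
  rw [← mul_assoc, mul_inv_cancel₀ hn.ne', one_mul, mul_sub, mul_div_cancel₀ _ hn.ne'] at h6
  linarith

/-- The averaging data in the form used by the greedy choice. -/
lemma dixg (Q : A →ₗ[ℂ] A →ₗ[ℂ] ℂ) (hQ : ∀ b, ∀ u ∈ comU e, ∀ x, Q b (u * x) = Q b (x * u))
    (b : A) {η : ℝ} (hη : 0 < η)
    (h : ∃ (ι : Type) (_ : Fintype ι) (w : ι → ℝ) (u : ι → A),
      (∀ k, 0 ≤ w k) ∧ ∑ k, w k = 1 ∧ (∀ k, u k ∈ comU e) ∧
      ∀ x, ‖τ ((∑ k, w k • (star (u k) * b * u k)) * x) - Q b x‖ ≤ η * τ.n2 x) :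
    ∃ (b' : A) (H : Type) (_ : Fintype H) (u : H → A), (∀ k, u k ∈ comU e) ∧ ‖b'‖ ≤ ‖b‖ ∧
      (star b = b → star b' = b') ∧ (∀ x, ‖τ (b' * x) - Q b x‖ ≤ η * τ.n2 x) ∧
      ∀ g ∈ comU e, ∀ S : A, ∃ k,
        (τ (star S * (star (u k * g) * b * (u k * g) - b'))).re ≤ 2 * η * τ.n2 S := by
  obtain ⟨H, _, w, u, hw0, hw1, hu, hx⟩ := h
  refine ⟨_, H, inferInstance, u, hu, ?_, fun hb => ?_, hx, fun g hg S => ?_⟩
  · calc _ ≤ ∑ k, w k * ‖b‖ := (norm_sum_le _ _).trans (Finset.sum_le_sum fun k _ => by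
          rw [norm_smul, Real.norm_of_nonneg (hw0 k), CStarRing.norm_mul_mem_unitary _ (hu k).1,
            CStarRing.norm_mem_unitary_mul _ (Unitary.star_mem (hu k).1)])
      _ = ‖b‖ := by rw [← Finset.sum_mul, hw1, one_mul]
  · simp only [star_sum, star_smul, star_mul, star_star, hb, star_trivial, mul_assoc]
  · set b' := ∑ k, w k • (star (u k) * b * u k) with hb'
    have hgu := Unitary.mem_iff.1 hg.1
    have h1 : τ.n2 (star g * b' * g - b') ≤ 2 * η := by
      refine n2_le_of_forall (by positivity) fun x => ?_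
      have e1 : τ (star g * b' * g * x) = τ (b' * (g * x * star g)) := by
        rw [mul_assoc, mul_assoc, τ.tr_comm]; simp only [mul_assoc]
      have e2 : Q b (g * x * star g) = Q b x := by
        rw [mul_assoc, hQ b g hg, mul_assoc, hgu.1, mul_one]
      have e3 := hx (g * x * star g)
      rw [e2, τ.n2_mul_unitary _ (Unitary.star_mem hg.1), τ.n2_unitary_mul hg.1] at e3
      rw [sub_mul, τ.tr_sub, e1]
      calc _ = ‖(τ (b' * (g * x * star g)) - Q b x) - (τ (b' * x) - Q b x)‖ := by congr 1; ring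
        _ ≤ η * τ.n2 x + η * τ.n2 x := (norm_sub_le _ _).trans (add_le_add e3 (hx x))
        _ = _ := by ring
    have h2 : ∑ k, w k * (τ (star S * (star (u k * g) * b * (u k * g) - b'))).re =
        (τ (star S * (star g * b' * g - b'))).re := by
      have : star g * b' * g - b' = ∑ k, w k • (star (u k * g) * b * (u k * g) - b') := by
        simp only [smul_sub, Finset.sum_sub_distrib, ← Finset.sum_smul, hw1, one_smul]
        rw [hb', Finset.mul_sum, Finset.sum_mul]
        simp only [star_mul, mul_smul_comm, smul_mul_assoc, mul_assoc]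
      rw [this, Finset.mul_sum, τ.tr_sum, Complex.re_sum]
      refine Finset.sum_congr rfl fun k _ => ?_
      rw [mul_smul_comm, τ.tr_real_smul, Complex.re_ofReal_mul]
    have h3 : (τ (star S * (star g * b' * g - b'))).re ≤ 2 * η * τ.n2 S := by
      refine (re_le _ _).trans ?_
      rw [mul_comm]
      exact mul_le_mul_of_nonneg_right h1 (τ.n2_nonneg _)
    by_contra hcon
    push Not at hcon
    have h4 : ∑ k, w k * (2 * η * τ.n2 S) <
        ∑ k, w k * (τ (star S * (star (u k * g) * b * (u k * g) - b'))).re := by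
      have : ∃ k, 0 < w k := by
        by_contra h0
        push Not at h0
        have := Finset.sum_nonpos (s := Finset.univ) fun k _ => h0 k
        linarith
      obtain ⟨k, hk⟩ := this
      exact Finset.sum_lt_sum (fun k _ => mul_le_mul_of_nonneg_left (hcon k).le (hw0 k))
        ⟨k, Finset.mem_univ _, mul_lt_mul_of_pos_left (hcon k) hk⟩
    rw [← Finset.sum_mul, hw1, one_mul, h2] at h4
    linarith

/-- The test functionals. -/
def ell (τ : TrState A) (ζ w y : A) (c : Fl D) : ℝ := (τ (star ζ * uact w c y)).re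

lemma continuous_ell (hτ : τ.clm ∈ D.Ω) (ζ w y : A) : Continuous (ell (D := D) τ ζ w y) :=
  Complex.continuous_re.comp
    ((((wcont_eval y).comp (continuous_uact w)).mul_left (star ζ)).continuous_tr hτ)

lemma linear_ell (ζ w y : A) : IsLinearMap ℝ (ell (D := D) τ ζ w y) :=
  ⟨fun c c' => by simp [ell, mul_add, τ.tr_add], fun t c => by
    simp only [ell, uact_apply, Fl.smul_apply, mul_smul_comm, τ.tr_real_smul,
      Complex.re_ofReal_mul, smul_eq_mul]⟩

/-- The greedy construction. -/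
lemma chain (hτ : τ.clm ∈ D.Ω) (hK : IsMin (uS D (comU e)) K) (z : Fl D) {ι : Type} (y : ι → A)
    (κ : ι → ℝ) {J : Type} [Fintype J] (ζ : ι → J → A) (a : ι → J → Fl D) (ha : ∀ l j, a l j ∈ K)
    (hζ : ∀ l j, τ.n2 (ζ l j) ≤ κ l)
    (hw : ∀ l, ∀ w ∈ comU e, ∃ j, κ l ^ 2 ≤ ell τ (ζ l j) 1 (y l) (a l j) - ell τ (ζ l j) w (y l) z)
    (B B' : ι → A) {η β ε : ℝ} (hη : 0 ≤ η) (hε : 0 < ε)
    (hβ : ∀ l, ∀ w ∈ comU e, τ.n2 (w * B l * star w - B' l) ≤ β)
    (hB : ∀ l, ∃ (H : Type) (_ : Fintype H) (u : H → A), (∀ k, u k ∈ comU e) ∧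
      ∀ g ∈ comU e, ∀ S : A, ∃ k,
        (τ (star S * (star (u k * g) * B l * (u k * g) - B' l))).re ≤ 2 * η * τ.n2 S)
    {T : Type} (lab : T → ι) (s : Finset T) :
    ∃ (w ξ : T → A) (z' : Fl D), z' ∈ K ∧ (∀ j ∈ s, w j ∈ comU e ∧ τ.n2 (ξ j) ≤ κ (lab j)) ∧
      ∑ j ∈ s, κ (lab j) ^ 2 ≤ ∑ j ∈ s, ell τ (ξ j) (w j) (y (lab j)) z' -
        ∑ j ∈ s, ell τ (ξ j) (w j) (y (lab j)) z + s.card * ε ∧
      τ.n2 (∑ j ∈ s, (w j * B (lab j) * star (w j) - B' (lab j))) ^ 2 ≤
        s.card * β ^ 2 + 4 * η * β * s.card ^ 2 := by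
  classical
  induction s using Finset.induction_on with
  | empty =>
    obtain ⟨c, hc⟩ := hK.ne
    exact ⟨fun _ => 1, fun _ => 0, c, hc, by simp, by simp, by simp⟩
  | insert t s ht ih =>
    obtain ⟨w, ξ, z', hz', h1, h2, h3⟩ := ih
    obtain ⟨H, _, u, hu, hgr⟩ := hB (lab t)
    set Λ : Fl D → ℝ := fun c => ∑ j ∈ s, ell τ (ξ j) (w j) (y (lab j)) c with hΛ
    obtain ⟨g, hg, hatt⟩ := attract hK (Λ := Λ)
      (continuous_finsetSum _ fun j _ => continuous_ell hτ _ _ _)
      ⟨fun c c' => by simp only [hΛ, (linear_ell _ _ _).map_add, Finset.sum_add_distrib],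
        fun r c => by simp only [hΛ, (linear_ell _ _ _).map_smul, Finset.smul_sum]⟩
      (fun q : H × J => uact (u q.1) (a (lab t) q.2))
      (fun q => hK.toGood.uact_mem (hu q.1) (ha _ _)) hz' hε
    set S := ∑ j ∈ s, (w j * B (lab j) * star (w j) - B' (lab j)) with hS
    obtain ⟨k, hk⟩ := hgr g hg S
    have hug := mul_mem_comU (hu k) hg
    obtain ⟨j₀, hj₀⟩ := hw (lab t) _ (star_mem_comU hug)
    have hne : ∀ j ∈ s, j ≠ t := fun j hj h => ht (h ▸ hj)
    have hup : ∀ c : Fl D, ∑ j ∈ s, ell τ (Function.update ξ t (ζ (lab t) j₀) j)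
        (Function.update w t (star (u k * g)) j) (y (lab j)) c =
          ∑ j ∈ s, ell τ (ξ j) (w j) (y (lab j)) c := fun c => Finset.sum_congr rfl fun j hj => by
      rw [Function.update_of_ne (hne j hj), Function.update_of_ne (hne j hj)]
    refine ⟨Function.update w t (star (u k * g)), Function.update ξ t (ζ (lab t) j₀),
      uact g (uact (u k) (a (lab t) j₀)),
      hK.toGood.uact_mem hg (hK.toGood.uact_mem (hu k) (ha _ _)), fun j hj => ?_, ?_, ?_⟩
    · rcases Finset.mem_insert.1 hj with rfl | hj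
      · simp only [Function.update_self]
        exact ⟨star_mem_comU hug, hζ _ _⟩
      · rw [Function.update_of_ne (hne j hj), Function.update_of_ne (hne j hj)]
        exact h1 j hj
    · simp only [Finset.sum_insert ht, Function.update_self, Finset.card_insert_of_notMem ht]
      rw [hup, hup]
      have e1 : ell τ (ζ (lab t) j₀) (star (u k * g)) (y (lab t))
          (uact g (uact (u k) (a (lab t) j₀))) = ell τ (ζ (lab t) j₀) 1 (y (lab t)) (a (lab t) j₀) := by
        unfold ell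
        rw [uact_uact, uact_uact, ← mul_assoc, (Unitary.mem_iff.1 hug.1).2]
      have e2 := hatt (k, j₀)
      simp only [hΛ] at e2
      rw [e1]
      push_cast
      linarith
    · rw [Finset.sum_insert ht, Finset.card_insert_of_notMem ht]
      have e1 : ∑ j ∈ s, (Function.update w t (star (u k * g)) j * B (lab j) *
          star (Function.update w t (star (u k * g)) j) - B' (lab j)) = S :=
        Finset.sum_congr rfl fun j hj => by rw [Function.update_of_ne (hne j hj)]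
      rw [e1, Function.update_self, add_comm, τ.n2_add_sq, star_star]
      have e2 := hβ (lab t) _ (star_mem_comU hug)
      rw [star_star] at e2
      have hβ0 : 0 ≤ β := (τ.n2_nonneg _).trans e2
      have e3 : τ.n2 S ≤ s.card * β := by
        refine (τ.n2_sum_le _ _).trans ?_
        rw [← nsmul_eq_mul, ← Finset.sum_const]
        exact Finset.sum_le_sum fun j hj => hβ _ _ (h1 j hj).1
      have e4 := pow_le_pow_left₀ (τ.n2_nonneg _) e2 2
      have e5 : 2 * η * τ.n2 S ≤ 2 * η * (s.card * β) := by gcongr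
      have e6 : 0 ≤ η * β * s.card := by positivity
      have e7 : 0 ≤ η * β := by positivity
      push_cast
      linarith

lemma exists_small {c c' ε : ℝ} (hc : 0 ≤ c) (hc' : 0 ≤ c') (hε : 0 < ε) :
    ∃ δ : ℝ, 0 < δ ∧ c * δ + c' * δ ^ 2 ≤ ε := by
  refine ⟨min 1 (ε / (c + c' + 1)), by positivity, ?_⟩
  set δ := min 1 (ε / (c + c' + 1)) with hδ
  have h0 : 0 < δ := by positivity
  have h1 : δ ≤ 1 := min_le_left _ _
  have h2 : δ * (c + c' + 1) ≤ ε := (le_div_iff₀ (by positivity)).1 (min_le_right _ _)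
  have h3 : δ ^ 2 ≤ δ := by nlinarith
  nlinarith

/-- The core estimate. -/
lemma core (hD : DixStmt.{u}) (hτ : τ.clm ∈ D.Ω) (he : TrMU τ e) (hK : IsMin (uS D (comU e)) K)
    (z : Fl D) (hlin : ∀ c ∈ K, IsLinearMap ℂ fun x => c x - z x)
    (hmod : ∀ c ∈ K, Modu e fun x => c x - z x)
    (hN : ∀ δ : ℝ, 0 < δ → ∃ η : ℝ, 0 < η ∧ ∀ c ∈ K, ∀ x : A, ‖x‖ ≤ 1 → τ.n2 x ≤ η →
      τ.n2 (c x - z x) ≤ δ)
    {g : ℝ} (hg : 0 ≤ g) (hb : ∀ c ∈ K, ∀ x, τ.n2 (c x - z x) ≤ g * ‖x‖)
    {ι : Type} [Fintype ι] (y : ι → A) (κ : ι → ℝ) {J : Type} [Fintype J] (ζ : ι → J → A)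
    (a : ι → J → Fl D) (ha : ∀ l j, a l j ∈ K) (hζ : ∀ l j, τ.n2 (ζ l j) ≤ κ l)
    (hw : ∀ l, ∀ w ∈ comU e,
      ∃ j, κ l ^ 2 ≤ ell τ (ζ l j) 1 (y l) (a l j) - ell τ (ζ l j) w (y l) z) :
    ∑ l, κ l ^ 2 ≤ 8 * g ^ 2 * ‖∑ l, star (y l) * y l‖ := by
  obtain ⟨Q, -, hQs, hQc, -, hQa⟩ := hD A τ (comU e) (fun _ h => h.1) (one_mem_comU e)
    (fun _ hu _ hv => mul_mem_comU hu hv) fun _ hu => star_mem_comU hu
  refine le_of_forall_pos_le_add fun ε hε => ?_
  set M := ‖∑ l, star (y l) * y l‖ with hM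
  set N : ℝ := (Fintype.card ι : ℝ) with hNdef
  set L : ℝ := (Fintype.card I : ℝ) with hLdef
  have hN0 : 0 ≤ N := by positivity
  have hL1 : 1 ≤ L := by rw [hLdef]; exact_mod_cast card_pos he
  have hL0 : 0 < L := lt_of_lt_of_le one_pos hL1
  clear_value N L
  obtain ⟨C, hC0, hC⟩ : ∃ C : ℝ, 0 < C ∧ ∀ l, ‖y l‖ ≤ C :=
    ⟨1 + ∑ l, ‖y l‖, by positivity, fun l => by
      have := Finset.single_le_sum (f := fun l => ‖y l‖) (fun _ _ => norm_nonneg _)
        (Finset.mem_univ l)
      linarith⟩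
  set B : ι → A := fun l => F e (y l * star (y l)) with hBdef
  obtain ⟨β, hβ0, hβ1⟩ : ∃ β : ℝ, 0 ≤ β ∧ ∀ l, 2 * ‖B l‖ ≤ β :=
    ⟨2 * ∑ l, ‖B l‖, by positivity, fun l => by
      have := Finset.single_le_sum (f := fun l => ‖B l‖) (fun _ _ => norm_nonneg _)
        (Finset.mem_univ l)
      linarith⟩
  obtain ⟨d, hd0, hd⟩ := exists_small (c := 4 * g ^ 2) (c' := 0) (by positivity) le_rfl
    (show 0 < ε / 3 by positivity)
  obtain ⟨δ, hδ0, hδ⟩ := exists_small (c := N * L * (2 * g * C * C)) (c' := N * L * C ^ 2)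
    (by positivity) (by positivity) (show 0 < ε / 3 by positivity)
  obtain ⟨ε', hε0, hε'⟩ := exists_small (c := 2 * N) (c' := 0) (by positivity) le_rfl
    (show 0 < ε / 3 by positivity)
  obtain ⟨η, hη0, hη⟩ := hN δ hδ0
  obtain ⟨η₁, hη10, hη1⟩ := exists_small (c := 4 * β * N ^ 2) (c' := 0) (by positivity) le_rfl
    (show 0 < (η * d / 2) ^ 2 / 2 by positivity)
  obtain ⟨η₂, hη20, hη2⟩ := exists_small (c := N + 1) (c' := 0) (by positivity) le_rfl
    (show 0 < η * d / 2 by positivity)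
  obtain ⟨η₀, hη00, hη01, hη02⟩ : ∃ η₀ : ℝ, 0 < η₀ ∧ η₀ ≤ η₁ ∧ η₀ ≤ η₂ :=
    ⟨min η₁ η₂, lt_min hη10 hη20, min_le_left _ _, min_le_right _ _⟩
  obtain ⟨R, hR⟩ := exists_nat_gt (N * β ^ 2 / ((η * d / 2) ^ 2 / 2))
  have hR0 : (0 : ℝ) < R := lt_of_le_of_lt (by positivity) hR
  rw [div_lt_iff₀ (by positivity)] at hR
  choose B' H iH u hu hB'n hB's hB'Q hgr using fun l =>
    dixg (τ := τ) Q hQc (B l) hη00 (hQa (B l) η₀ hη00)
  obtain ⟨a', -, -, -, -, ha'n, ha's, ha'Q, -⟩ :=
    dixg (τ := τ) Q hQc (F e (∑ l, star (y l) * y l)) hη00 (hQa _ η₀ hη00)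
  have hβ : ∀ l, ∀ w ∈ comU e, τ.n2 (w * B l * star w - B' l) ≤ β := fun l w hw => by
    have h1 := hβ1 l
    have h2 := τ.n2_sub_le (w * B l * star w) (B' l)
    rw [τ.n2_mul_unitary _ (Unitary.star_mem hw.1), τ.n2_unitary_mul hw.1] at h2
    have h3 := τ.n2_le_norm (B l)
    have h4 := τ.n2_le_norm (B' l)
    have h5 := hB'n l
    linarith
  obtain ⟨w, ξ, z', hz', h1, h2, h3⟩ := chain hτ hK z y κ ζ a ha hζ hw B B' hη00.le hε0 hβ
    (fun l => ⟨H l, iH l, u l, hu l, hgr l⟩) (Prod.fst : ι × Fin R → ι) Finset.univ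
  have hw1 : ∀ j, w j ∈ comU e := fun j => (h1 j (Finset.mem_univ j)).1
  have hsum : ∀ {β' : Type u} [AddCommGroup β'] [Module ℝ β'] (f : ι → β'),
      ∑ j : ι × Fin R, f j.1 = (R : ℝ) • ∑ l, f l := fun f => by
    rw [Fintype.sum_prod_type, Finset.smul_sum]
    simp [Nat.cast_smul_eq_nsmul]
  have hcard : (Fintype.card (ι × Fin R) : ℝ) = N * R := by simp [hNdef]
  rw [Finset.card_univ, hcard] at h2 h3
  set S : A → A := fun x => z' x - z x with hS
  set v : ι × Fin R → A := fun j => w j * y j.1 with hv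
  -- the lower bound
  have low : R * ∑ l, κ l ^ 2 ≤ ∑ j, τ.n2 (S (v j)) ^ 2 + 2 * (N * R * ε') := by
    have e1 : ∑ j : ι × Fin R, κ j.1 ^ 2 = R * ∑ l, κ l ^ 2 := by
      rw [Fintype.sum_prod_type, Finset.mul_sum]
      simp
    have e2 : ∀ j, ell τ (ξ j) (w j) (y j.1) z' - ell τ (ξ j) (w j) (y j.1) z ≤
        (κ j.1 ^ 2 + τ.n2 (S (v j)) ^ 2) / 2 := fun j => by
      have e3 := re_le (τ := τ) (ξ j) (star (w j) * S (v j))
      rw [τ.n2_unitary_mul (Unitary.star_mem (hw1 j).1)] at e3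
      have e4 : ell τ (ξ j) (w j) (y j.1) z' - ell τ (ξ j) (w j) (y j.1) z =
          (τ (star (ξ j) * (star (w j) * S (v j)))).re := by
        simp only [ell, uact_apply, hS, hv, mul_sub, τ.tr_sub, Complex.sub_re]
      have e5 := (h1 j (Finset.mem_univ j)).2
      have e6 := mul_le_mul_of_nonneg_right e5 (τ.n2_nonneg (S (v j)))
      rw [e4]
      linarith [sq_nonneg (κ j.1 - τ.n2 (S (v j)))]
    have e7 := Finset.sum_le_sum (s := Finset.univ) fun j _ => e2 j
    rw [Finset.sum_sub_distrib, ← Finset.sum_div, Finset.sum_add_distrib] at e7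
    rw [e1] at h2 e7
    linarith
  -- the error term
  set X : A := ∑ j, F e (v j * star (v j)) with hX
  have hX1 : X = ∑ j, w j * B j.1 * star (w j) := Finset.sum_congr rfl fun j _ => by
    rw [← F_conj (hw1 j)]
    simp only [hv, star_mul, mul_assoc]
  have hXs : star X = X := by
    rw [hX, star_sum]
    exact Finset.sum_congr rfl fun j _ => F_sa he.mu (by rw [star_mul, star_star])
  have ha's' : star a' = a' := ha's (F_sa he.mu (by simp [star_sum]))
  have hE1 : τ.n2 (∑ l, B' l - a') ≤ η * d / 2 := by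
    have e1 : τ.n2 (∑ l, B' l - a') ≤ (N + 1) * η₀ := by
      refine n2_le_of_forall (by positivity) fun x => ?_
      have e2 : Q (F e (∑ l, star (y l) * y l)) x = ∑ l, Q (B l) x := by
        rw [F_sum, map_sum, LinearMap.sum_apply]
        refine Finset.sum_congr rfl fun l _ => ?_
        rw [hQs, hQs (B l)]
        exact F_trace he (Q x) (hQc x) _ _
      have e3 : τ ((∑ l, B' l - a') * x) = ∑ l, (τ (B' l * x) - Q (B l) x) -
          (τ (a' * x) - Q (F e (∑ l, star (y l) * y l)) x) := by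
        rw [e2, sub_mul, τ.tr_sub, Finset.sum_mul, τ.tr_sum, Finset.sum_sub_distrib]
        ring
      rw [e3]
      refine (norm_sub_le _ _).trans ?_
      have e4 := (norm_sum_le _ _).trans
        (Finset.sum_le_sum (s := Finset.univ) fun l _ => hB'Q l x)
      rw [Finset.sum_const, Finset.card_univ, nsmul_eq_mul, ← hNdef] at e4
      have e5 := ha'Q x
      linarith
    have e6 : (N + 1) * η₀ ≤ (N + 1) * η₂ :=
      mul_le_mul_of_nonneg_left hη02 (by positivity)
    linarith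
  have hE2 : τ.n2 (∑ j : ι × Fin R, (w j * B j.1 * star (w j) - B' j.1)) ≤ R * (η * d / 2) := by
    refine (sq_le_sq₀ (τ.n2_nonneg _) (by positivity)).1 (h3.trans ?_)
    have e1 : 4 * β * N ^ 2 * η₀ ≤ 4 * β * N ^ 2 * η₁ :=
      mul_le_mul_of_nonneg_left hη01 (by positivity)
    have e2 : 4 * β * N ^ 2 * η₀ * R ^ 2 ≤ (η * d / 2) ^ 2 / 2 * R ^ 2 :=
      mul_le_mul_of_nonneg_right (by linarith) (by positivity)
    have e3 := mul_le_mul_of_nonneg_right hR.le hR0.le
    linarith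
  have hE : τ.n2 (X - (R : ℝ) • a') ≤ R * (η * d) := by
    have e1 : X - (R : ℝ) • a' = ∑ j : ι × Fin R, (w j * B j.1 * star (w j) - B' j.1) +
        (R : ℝ) • (∑ l, B' l - a') := by
      rw [hX1, Finset.sum_sub_distrib, hsum B', smul_sub]
      abel
    rw [e1]
    refine (τ.n2_add_le _ _).trans ?_
    rw [τ.n2_real_smul, abs_of_pos hR0]
    have := mul_le_mul_of_nonneg_left hE1 hR0.le
    linarith
  obtain ⟨π, hπs, hπ1, hπ2, hπ3, hπ4⟩ := exists_cut τ (x := X - (R : ℝ) • a')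
    (by rw [IsSelfAdjoint, star_sub, star_smul, hXs, ha's', star_trivial])
    (show 0 < R * d by positivity)
  have hπ5 : τ.n2 (1 - π) ≤ η := hπ4.trans (by
    rw [div_le_iff₀ (by positivity)]; linarith)
  have hvC : ∀ j, ‖v j‖ ≤ C := fun j => by
    rw [hv, CStarRing.norm_mem_unitary_mul _ (hw1 j).1]; exact hC _
  have hsm : ∀ j a b, τ.n2 (S ((1 - π) * (e a b * v j))) ≤ C * δ := fun j a b => by
    have e1 : ‖e a b * v j‖ ≤ C :=
      (norm_mul_le _ _).trans (by
        have := mul_le_mul (norm_e_le he.mu a b) (hvC j) (norm_nonneg _) zero_le_one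
        linarith)
    have e2 : ‖((C⁻¹ : ℝ) : ℂ) • (e a b * v j)‖ ≤ 1 := by
      rw [norm_smul, Complex.norm_real, Real.norm_of_nonneg (by positivity),
        inv_mul_le_iff₀ hC0, mul_one]
      exact e1
    have e3 := hη z' hz' ((1 - π) * (((C⁻¹ : ℝ) : ℂ) • (e a b * v j)))
      ((norm_mul_le _ _).trans (mul_le_one₀ hπ2 (norm_nonneg _) e2))
      ((τ.n2_mul_le_of_norm_le_one_right _ e2).trans hπ5)
    have e4 : S ((1 - π) * (((C⁻¹ : ℝ) : ℂ) • (e a b * v j))) =
        ((C⁻¹ : ℝ) : ℂ) • S ((1 - π) * (e a b * v j)) := by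
      rw [mul_smul_comm]
      exact (hlin z' hz').map_smul _ _
    change τ.n2 (S _) ≤ δ at e3
    rwa [e4, τ.n2_smul, Complex.norm_real, Real.norm_of_nonneg (by positivity),
      inv_mul_le_iff₀ hC0] at e3
  have up := flat he (hlin z' hz') (hmod z' hz') hg (hb z' hz') v hπs hπ1
    (show 0 ≤ C * δ by positivity) hvC hsm
  rw [hcard, ← hLdef, ← hX] at up
  have u1 : ‖∑ j, star (v j) * v j‖ = R * M := by
    have : ∑ j, star (v j) * v j = ∑ j : ι × Fin R, star (y j.1) * y j.1 :=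
      Finset.sum_congr rfl fun j _ => by
        rw [hv, star_mul, mul_assoc, ← mul_assoc (star (w j)), (Unitary.mem_iff.1 (hw1 j).1).1,
          one_mul]
    rw [this, hsum fun l => star (y l) * y l, norm_smul, Real.norm_of_nonneg hR0.le]
  have u2 : ‖π * X * π‖ ≤ R * d + R * (L * M) := by
    have e1 : π * X * π = π * (X - (R : ℝ) • a') * π + (R : ℝ) • (π * a' * π) := by
      simp only [mul_sub, sub_mul, mul_smul_comm, smul_mul_assoc, sub_add_cancel]
    have e2 : ‖π * a' * π‖ ≤ L * M := by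
      calc _ ≤ ‖π‖ * ‖a'‖ * ‖π‖ :=
            (norm_mul_le _ _).trans (mul_le_mul_of_nonneg_right (norm_mul_le _ _) (norm_nonneg _))
        _ ≤ 1 * ‖a'‖ * 1 := by gcongr
        _ ≤ L * M := by rw [one_mul, mul_one, hLdef]; exact ha'n.trans (norm_F_le he y)
    rw [e1]
    refine (norm_add_le _ _).trans (add_le_add hπ3 ?_)
    rw [norm_smul, Real.norm_of_nonneg hR0.le]
    exact mul_le_mul_of_nonneg_left e2 hR0.le
  rw [u1] at up
  have u3 := mul_le_mul_of_nonneg_left u2 (show 0 ≤ 4 * g ^ 2 by positivity)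
  have u4 := mul_le_mul_of_nonneg_left low (show 0 ≤ L by positivity)
  have u5 : R * (4 * g ^ 2 * d) ≤ L * R * (ε / 3) := by
    have e1 := mul_le_mul_of_nonneg_right hL1 (show 0 ≤ ε / 3 by positivity)
    have e2 : 4 * g ^ 2 * d ≤ L * (ε / 3) := by linarith
    have e3 := mul_le_mul_of_nonneg_left e2 hR0.le
    linarith
  have u6 := mul_le_mul_of_nonneg_left hδ (show 0 ≤ L * R by positivity)
  have u7 := mul_le_mul_of_nonneg_left hε' (show 0 ≤ L * R by positivity)
  refine le_of_mul_le_mul_left ?_ (show 0 < L * R by positivity)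
  change L * ∑ j, τ.n2 (S (v j)) ^ 2 ≤ _ at up
  linarith

end SliceAux

open SliceAux in
theorem slice (hD : DixStmt.{u}) : SliceStmt.{u} := by
  intro A _ D τ hτ I _ e he r K hK hc hN
  constructor
  · intro ι _ y c hcK
    obtain ⟨c₀, hc₀⟩ := hK.ne
    have hr : 0 ≤ r := by
      have := (norm_nonneg _).trans ((hc c₀ hc₀).1.bd 1)
      rwa [τ.norm_one_eq, mul_one] at this
    have h := core hD hτ he hK 0 (fun c h => by simpa using (hc c h).1.lin)
      (fun c h => by simpa using (hc c h).2) (fun δ hδ => by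
        simp only [Fl.zero_apply, sub_zero]; exact hN δ hδ) hr
      (fun c h x => by simpa using (τ.n2_le_norm _).trans ((hc c h).1.bd x)) y
      (fun l => τ.n2 (c l (y l))) (J := Unit) (fun l _ => c l (y l)) (fun l _ => c l)
      (fun l _ => hcK l) (fun _ _ => le_rfl) fun l w _ => ⟨(), by simp [ell, τ.n2_sq]⟩
    refine h.trans ?_
    gcongr
    norm_num
  · intro ε hε hb ι _ y c c' hcK
    obtain ⟨z, hz⟩ := hK.ne
    have h := core hD hτ he hK z
      (fun c h => ⟨fun x x' => by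
        rw [(hc c h).1.lin.map_add, (hc z hz).1.lin.map_add]; abel, fun t x => by
        rw [(hc c h).1.lin.map_smul, (hc z hz).1.lin.map_smul, smul_sub]⟩)
      (fun c h i j x => by
        change c (e i j * x) - z (e i j * x) = e i j * (c x - z x)
        rw [(hc c h).2 i j x, (hc z hz).2 i j x, mul_sub])
      (fun δ hδ => by
        obtain ⟨η, hη, h⟩ := hN (δ / 2) (by positivity)
        refine ⟨η, hη, fun c hcK x h1 h2 => (τ.n2_sub_le _ _).trans ?_⟩
        have := h c hcK x h1 h2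
        have := h z hz x h1 h2
        linarith) hε (fun c h x => hb c h z hz x) y
      (fun l => τ.n2 (c l (y l) - c' l (y l)) / 2) (J := Bool)
      (fun l j => (bif j then (2⁻¹ : ℝ) else -2⁻¹) • (c l (y l) - c' l (y l)))
      (fun l j => bif j then c l else c' l)
      (fun l j => by cases j; exacts [(hcK l).2, (hcK l).1])
      (fun l j => by
        rw [τ.n2_real_smul]
        cases j <;> simp [div_eq_inv_mul])
      fun l w _ => by
        have h1 := τ.n2_sq (c l (y l) - c' l (y l))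
        rw [mul_sub, τ.tr_sub, Complex.sub_re] at h1
        by_contra hcon
        push Not at hcon
        have h2 := hcon true
        have h3 := hcon false
        simp only [ell, uact_one, cond_true, cond_false, star_smul, star_trivial, smul_mul_assoc,
          τ.tr_real_smul, Complex.re_ofReal_mul] at h2 h3
        linarith
    simp only [div_pow, ← Finset.sum_div] at h
    have h0 : 0 ≤ ε ^ 2 * ‖∑ l, star (y l) * y l‖ := by positivity
    linarith

end Crest.Agent.R121
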