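import Crest.Agent.R121.Base
import Crest.Agent.R124.PH

/-! # Row 121: algebraic estimates for the slice theorem. -/

set_option autoImplicit false
set_option linter.unusedSectionVars false

open scoped InnerProductSpace Topology
open Filter Crest.Agent.Lib.Tracial

noncomputable section

namespace Crest.Agent.R121.SliceAux

universe u

open Crest.Agent.R124 (IsMU)

variable {A : Type u} [CStarAlgebra A] {τ : TrState A} {I : Type} [Fintype I] {e : I → I → A}

/-- The unnormalised expectation onto the commutant of the matrix units. -/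
def F (e : I → I → A) (x : A) : A := ∑ a, ∑ b, e a b * x * e b a

/-- Matrix coefficients. -/
def cf (e : I → I → A) (x : A) (i j : I) : A := ∑ k, e k i * x * e j k

lemma sum_mu_mul (he : IsMU e) (a b : I) (f : I → I) (g : I → A) :
    ∑ k, e a b * (e k (f k) * g k) = e a (f b) * g b := by
  rw [Finset.sum_eq_single b (fun k _ hk => by
    rw [← mul_assoc, he.mul_ne _ _ _ _ (Ne.symm hk), zero_mul]) (by simp),
    ← mul_assoc, he.mul_same]

lemma sum_mul_mu (he : IsMU e) (a b : I) (f : I → I) (g : I → A) :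
    ∑ k, g k * e (f k) k * e a b = g a * e (f a) b := by
  rw [Finset.sum_eq_single a (fun k _ hk => by
    rw [mul_assoc, he.mul_ne _ _ _ _ hk, mul_zero]) (by simp), mul_assoc, he.mul_same]

lemma cf_comm (he : IsMU e) (x : A) (i j a b : I) : cf e x i j * e a b = e a b * cf e x i j := by
  unfold cf
  rw [Finset.sum_mul, Finset.mul_sum, sum_mul_mu he a b (fun _ => j) (fun k => e k i * x)]
  simp only [mul_assoc]
  rw [sum_mu_mul he a b (fun _ => i) (fun k => x * e j k)]

lemma p_mul (he : IsMU e) (a b : I) : (∑ i, e i i) * e a b = e a b := by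
  have := sum_mul_mu he a b id (fun _ => 1)
  simpa [Finset.sum_mul] using this

lemma p_sa (he : IsMU e) : star (∑ i, e i i) = ∑ i, e i i := by
  simp [star_sum, he.star_eq]

lemma p_idem (he : IsMU e) : (∑ i, e i i) * (∑ i, e i i) = ∑ i, e i i := by
  rw [Finset.mul_sum]
  exact Finset.sum_congr rfl fun i _ => p_mul he i i

lemma norm_le_one_of_idem {q : A} (h1 : star q = q) (h2 : q * q = q) : ‖q‖ ≤ 1 := by
  have h := CStarRing.norm_star_mul_self (x := q)
  rw [h1, h2] at h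
  by_contra hc
  push Not at hc
  nlinarith

lemma norm_e_le (he : IsMU e) (a b : I) : ‖e a b‖ ≤ 1 := by
  have h := CStarRing.norm_star_mul_self (x := e a b)
  rw [he.star_eq, he.mul_same] at h
  have h1 := norm_le_one_of_idem (he.star_eq b b) (he.mul_same b b b)
  by_contra hc
  push Not at hc
  nlinarith

lemma F_mul (he : TrMU τ e) (x y : A) : F e (x * y) = ∑ i, ∑ j, cf e x i j * cf e y j i := by
  have h1 : ∀ i j, cf e x i j * cf e y j i = ∑ k, e k i * x * e j j * (y * e i k) := by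
    intro i j
    conv_lhs => rw [cf, Finset.sum_mul]
    refine Finset.sum_congr rfl fun k _ => ?_
    rw [cf, mul_assoc, Finset.mul_sum]
    simp only [mul_assoc]
    rw [sum_mu_mul he.mu j k (fun _ => j) (fun m => y * e i m)]
  simp only [h1]
  unfold F
  rw [Finset.sum_comm]
  refine Finset.sum_congr rfl fun i _ => ?_
  rw [Finset.sum_comm]
  refine Finset.sum_congr rfl fun k _ => ?_
  rw [← Finset.sum_mul, ← Finset.mul_sum, mul_assoc (e k i * x), ← mul_assoc _ y, he.central y,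
    mul_assoc y, p_mul he.mu]
  simp only [mul_assoc]

lemma exists_four (he : IsMU e) {c : A} (hc : ∀ a b, c * e a b = e a b * c) :
    ∃ (v : Fin 4 → A) (t : Fin 4 → ℂ), (∀ k, v k ∈ comU e) ∧ c = ∑ k, t k • v k := by
  set P : StarSubalgebra ℂ A := StarSubalgebra.centralizer ℂ {x | ∃ a b, x = e a b} with hP
  have : IsClosed (P : Set A) := by
    rw [hP, StarSubalgebra.coe_centralizer]
    exact Set.isClosed_centralizer _
  have hcP : c ∈ P := by
    rw [hP, StarSubalgebra.mem_centralizer_iff]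
    rintro _ ⟨a, b, rfl⟩
    exact ⟨(hc a b).symm, by rw [he.star_eq]; exact (hc b a).symm⟩
  obtain ⟨v, t, hv, -⟩ := CStarAlgebra.exists_sum_four_unitary (A := P) ⟨c, hcP⟩
  refine ⟨fun k => ((v k : P) : A), t, fun k => ⟨?_, fun a b => ?_⟩, ?_⟩
  · have h := Unitary.mem_iff.1 (v k).2
    exact Unitary.mem_iff.2 ⟨congrArg Subtype.val h.1, congrArg Subtype.val h.2⟩
  · exact ((StarSubalgebra.mem_centralizer_iff ℂ).1 (v k : P).2 _ ⟨a, b, rfl⟩).1.symm
  · simpa using congrArg Subtype.val hv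

/-- A functional that is tracial for the unitaries of the commutant gives a trace after `F`. -/
lemma F_trace (he : TrMU τ e) (q : A →ₗ[ℂ] ℂ) (hq : ∀ u ∈ comU e, ∀ x, q (u * x) = q (x * u))
    (x y : A) : q (F e (x * y)) = q (F e (y * x)) := by
  have key : ∀ c : A, (∀ a b, c * e a b = e a b * c) → ∀ z, q (c * z) = q (z * c) := by
    intro c hc z
    obtain ⟨v, t, hv, rfl⟩ := exists_four he.mu hc
    simp only [Finset.sum_mul, Finset.mul_sum, smul_mul_assoc, mul_smul_comm, map_sum, map_smul]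
    exact Finset.sum_congr rfl fun k _ => by rw [hq _ (hv k)]
  rw [F_mul he, F_mul he, Finset.sum_comm]
  simp only [map_sum]
  exact Finset.sum_congr rfl fun i _ => Finset.sum_congr rfl fun j _ =>
    key _ (cf_comm he.mu x j i) _

lemma F_sum {ι : Type*} (s : Finset ι) (x : ι → A) : F e (∑ l ∈ s, x l) = ∑ l ∈ s, F e (x l) := by
  unfold F
  simp only [Finset.mul_sum, Finset.sum_mul]
  rw [Finset.sum_comm (s := s)]
  exact Finset.sum_congr rfl fun a _ => Finset.sum_comm

lemma F_conj {w : A} (hw : w ∈ comU e) (x : A) : F e (w * x * star w) = w * F e x * star w := by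
  unfold F
  simp only [Finset.mul_sum, Finset.sum_mul]
  refine Finset.sum_congr rfl fun a _ => Finset.sum_congr rfl fun b _ => ?_
  calc e a b * (w * x * star w) * e b a = (e a b * w) * x * (star w * e b a) := by
        simp only [mul_assoc]
    _ = _ := by rw [← hw.2, (star_mem_comU hw).2]; simp only [mul_assoc]

lemma F_sa (he : IsMU e) {x : A} (hx : star x = x) : star (F e x) = F e x := by
  unfold F
  simp only [star_sum, star_mul, he.star_eq, hx, mul_assoc]

lemma card_pos (he : TrMU τ e) : 0 < Fintype.card I := by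
  rcases isEmpty_or_nonempty I with h | h
  · have := he.tr
    simp at this
  · exact Fintype.card_pos

lemma sum_n2_e (he : TrMU τ e) (x : A) :
    ∑ a, ∑ b, τ.n2 (e a b * x) ^ 2 = Fintype.card I * τ.n2 x ^ 2 := by
  have hp := p_idem he.mu
  have hs := p_sa he.mu
  set p := ∑ i, e i i with hpdef
  have h0 : τ.n2 (1 - p) = 0 := by
    have : τ.n2 (1 - p) ^ 2 = 0 := by
      rw [τ.n2_sq, star_sub, star_one, hs, sub_mul, mul_sub, mul_sub, hp]
      simp only [one_mul, mul_one, sub_self, sub_zero]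
      rw [τ.tr_sub, τ.tr_one, he.tr, sub_self, Complex.zero_re]
    exact pow_eq_zero_iff (by norm_num) |>.1 this
  have h1 : τ (star x * ((1 - p) * x)) = 0 := by
    have h2 := τ.norm_tr_star_mul_le x ((1 - p) * x)
    have h3 := τ.n2_mul_le_right (1 - p) x
    rw [h0, zero_mul] at h3
    rw [le_antisymm h3 (τ.n2_nonneg _), mul_zero] at h2
    exact norm_le_zero_iff.1 h2
  have h2 : ∑ b, τ (star x * (e b b * x)) = τ (star x * x) := by
    rw [← τ.tr_sum, ← Finset.mul_sum, ← Finset.sum_mul, ← hpdef]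
    rw [sub_mul, one_mul, mul_sub, τ.tr_sub] at h1
    exact (sub_eq_zero.1 h1).symm
  have h3 : ∀ a b, τ.n2 (e a b * x) ^ 2 = (τ (star x * (e b b * x))).re := fun a b => by
    rw [τ.n2_sq, star_mul, he.mu.star_eq, mul_assoc, ← mul_assoc (e b a), he.mu.mul_same]
  simp only [h3, ← Complex.re_sum, h2, Finset.sum_const, Finset.card_univ, nsmul_eq_mul]
  rw [τ.n2_sq]

lemma n2_le_of_forall {x : A} {η : ℝ} (hη : 0 ≤ η) (h : ∀ y, ‖τ (x * y)‖ ≤ η * τ.n2 y) :
    τ.n2 x ≤ η := by
  have h1 := h (star x)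
  rw [τ.tr_comm, ← τ.n2_sq_complex, norm_pow, Complex.norm_real,
    Real.norm_of_nonneg (τ.n2_nonneg _), τ.n2_star] at h1
  by_contra hc
  push Not at hc
  nlinarith

lemma re_le (x y : A) : (τ (star x * y)).re ≤ τ.n2 x * τ.n2 y :=
  (Complex.re_le_norm _).trans (τ.norm_tr_star_mul_le x y)

/-- A cut-off for a self-adjoint element that is small in `L²`. -/
lemma exists_cut (τ : TrState A) {x : A} (hx : IsSelfAdjoint x) {d : ℝ} (hd : 0 < d) :
    ∃ π : A, star π = π ∧ ‖π‖ ≤ 1 ∧ ‖1 - π‖ ≤ 1 ∧ ‖π * x * π‖ ≤ d ∧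
      τ.n2 (1 - π) ≤ τ.n2 x / d := by
  have hpos : ∀ t : ℝ, 0 < d ^ 2 + t ^ 2 := fun t => by positivity
  have c1 : Continuous fun t : ℝ => d ^ 2 / (d ^ 2 + t ^ 2) :=
    continuous_const.div (by fun_prop) fun t => (hpos t).ne'
  have c2 : Continuous fun t : ℝ => t / (d ^ 2 + t ^ 2) :=
    continuous_id.div (by fun_prop) fun t => (hpos t).ne'
  set π := cfc (fun t : ℝ => d ^ 2 / (d ^ 2 + t ^ 2)) x with hπ
  have e1 : 1 - π = cfc (fun t : ℝ => 1 - d ^ 2 / (d ^ 2 + t ^ 2)) x := by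
    rw [cfc_sub _ _ _ (by fun_prop) c1.continuousOn, cfc_const_one ℝ x]
  have e2 : 1 - π = cfc (fun t : ℝ => t / (d ^ 2 + t ^ 2)) x * x := by
    conv_rhs => enter [2]; rw [← cfc_id' ℝ x]
    rw [e1, ← cfc_mul _ _ _ c2.continuousOn (by fun_prop)]
    refine cfc_congr fun t _ => ?_
    have := hpos t
    field_simp
    ring
  have e3 : π * x * π = cfc (fun t : ℝ => d ^ 2 / (d ^ 2 + t ^ 2) * t *
      (d ^ 2 / (d ^ 2 + t ^ 2))) x := by
    have c3 : Continuous fun t : ℝ => d ^ 2 / (d ^ 2 + t ^ 2) * t := c1.mul continuous_id'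
    rw [cfc_mul _ _ _ c3.continuousOn c1.continuousOn,
      cfc_mul _ _ _ c1.continuousOn (by fun_prop), cfc_id' ℝ x]
  have b1 : ∀ t : ℝ, 0 ≤ d ^ 2 / (d ^ 2 + t ^ 2) ∧ d ^ 2 / (d ^ 2 + t ^ 2) ≤ 1 := fun t =>
    ⟨by positivity, (div_le_one (hpos t)).2 (by nlinarith [sq_nonneg t])⟩
  have b2 : ∀ t : ℝ, |t| / (d ^ 2 + t ^ 2) ≤ 1 / d := fun t => by
    rw [div_le_div_iff₀ (hpos t) hd, ← sq_abs t]
    nlinarith [sq_nonneg (|t| - d), abs_nonneg t]
  refine ⟨π, (cfc_predicate _ _ : IsSelfAdjoint π).star_eq, norm_cfc_le zero_le_one fun t _ => ?_,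
    ?_, ?_, ?_⟩
  · rw [Real.norm_of_nonneg (b1 t).1]; exact (b1 t).2
  · rw [e1]
    refine norm_cfc_le zero_le_one fun t _ => ?_
    rw [Real.norm_of_nonneg (by linarith [(b1 t).2])]
    linarith [(b1 t).1]
  · rw [e3]
    refine norm_cfc_le hd.le fun t _ => ?_
    rw [norm_mul, norm_mul, Real.norm_of_nonneg (b1 t).1, Real.norm_eq_abs]
    have h1 : d ^ 2 / (d ^ 2 + t ^ 2) * |t| ≤ d := by
      calc d ^ 2 / (d ^ 2 + t ^ 2) * |t| = d ^ 2 * (|t| / (d ^ 2 + t ^ 2)) := by ring
        _ ≤ d ^ 2 * (1 / d) := mul_le_mul_of_nonneg_left (b2 t) (by positivity)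
        _ = d := by field_simp
    calc _ ≤ d * 1 := mul_le_mul h1 (b1 t).2 (b1 t).1 hd.le
      _ = d := mul_one d
  · rw [e2]
    refine (τ.n2_mul_le_left _ _).trans ?_
    have : ‖cfc (fun t : ℝ => t / (d ^ 2 + t ^ 2)) x‖ ≤ 1 / d :=
      norm_cfc_le (by positivity) fun t _ => by
        rw [norm_div, Real.norm_eq_abs, Real.norm_of_nonneg (hpos t).le]; exact b2 t
    calc _ ≤ 1 / d * τ.n2 x := mul_le_mul_of_nonneg_right this (τ.n2_nonneg _)
      _ = _ := by ring

/-- The little Grothendieck inequality for maps into `L²(τ)`. -/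
lemma ph2 (τ : TrState A) {S : A → A} (hS : IsLinearMap ℂ S) {g : ℝ} (hg : 0 ≤ g)
    (hb : ∀ x, τ.n2 (S x) ≤ g * ‖x‖) {ι : Type} [Fintype ι] (y : ι → A) :
    ∑ l, τ.n2 (S (y l)) ^ 2 ≤
      4 * g ^ 2 * (‖∑ l, star (y l) * y l‖ + ‖∑ l, y l * star (y l)‖) := by
  let φ : A →ₗ[ℂ] UniformSpace.Completion τ.L2 :=
    (UniformSpace.Completion.toComplL (𝕜 := ℂ) (E := τ.L2)).toLinearMap ∘ₗ
      τ.toL2.toLinearMap ∘ₗ hS.mk' S
  have hφ : ∀ x, ‖φ x‖ = τ.n2 (S x) := fun x => UniformSpace.Completion.norm_coe _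
  have h := R124.ph A _ φ g hg (fun x => by rw [hφ]; exact hb x) (ι ⊕ ι)
    (Sum.elim (fun l => (realPart (y l) : A)) fun l => (imaginaryPart (y l) : A))
    (by rintro (l | l); exacts [(realPart (y l)).2, (imaginaryPart (y l)).2])
  simp only [Fintype.sum_sum_type, Sum.elim_inl, Sum.elim_inr, hφ, ← Finset.sum_add_distrib] at h
  have h1 : ∀ x : A, τ.n2 (S x) ^ 2 ≤
      2 * (τ.n2 (S (realPart x : A)) ^ 2 + τ.n2 (S (imaginaryPart x : A)) ^ 2) := fun x => by
    have h2 : τ.n2 (S x) ≤ τ.n2 (S (realPart x : A)) + τ.n2 (S (imaginaryPart x : A)) := by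
      conv_lhs => rw [← realPart_add_I_smul_imaginaryPart x, hS.map_add, hS.map_smul]
      refine (τ.n2_add_le _ _).trans (le_of_eq ?_)
      rw [τ.n2_smul, Complex.norm_I, one_mul]
    nlinarith [τ.n2_nonneg (S x), sq_nonneg (τ.n2 (S (realPart x : A)) -
      τ.n2 (S (imaginaryPart x : A)))]
  have h3 : ∀ x : A, (realPart x : A) * realPart x + (imaginaryPart x : A) * imaginaryPart x =
      (2⁻¹ : ℝ) • (star x * x + x * star x) := fun x => by
    rw [star_mul_self_add_self_mul_star, ← Nat.cast_smul_eq_nsmul ℝ, smul_smul]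
    simp
  simp only [h3, ← Finset.smul_sum, Finset.sum_add_distrib] at h
  rw [norm_smul, Real.norm_of_nonneg (by norm_num)] at h
  have h4 := norm_add_le (∑ l, star (y l) * y l) (∑ l, y l * star (y l))
  have h5 := Finset.sum_le_sum (s := Finset.univ) fun l _ => h1 (y l)
  rw [← Finset.mul_sum, Finset.sum_add_distrib] at h5
  nlinarith [sq_nonneg g]

lemma norm_sum_e_le (he : TrMU τ e) {π : A} (hπ : ‖π‖ ≤ 1) {ι : Type} [Fintype ι] (y : ι → A) :
    ‖∑ q : ι × I × I, star (π * (e q.2.1 q.2.2 * y q.1)) * (π * (e q.2.1 q.2.2 * y q.1))‖ ≤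
      Fintype.card I * ‖∑ l, star (y l) * y l‖ := by
  let := CStarAlgebra.spectralOrder A
  have := CStarAlgebra.spectralOrderedRing A
  have key : ∀ k v : A, ‖k‖ ≤ 1 → star (k * v) * (k * v) ≤ star v * v := fun k v hk => by
    have h1 := CStarAlgebra.star_left_conjugate_le_norm_smul (a := v) (b := star k * k)
      (IsSelfAdjoint.star_mul_self k)
    have h2 : ‖star k * k‖ ≤ 1 := by
      rw [CStarRing.norm_star_mul_self]; nlinarith [norm_nonneg k]
    have h3 : ‖star k * k‖ • (star v * v) ≤ (1 : ℝ) • (star v * v) :=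
      smul_le_smul_of_nonneg_right h2 (star_mul_self_nonneg v)
    rw [one_smul] at h3
    calc star (k * v) * (k * v) = star v * (star k * k) * v := by
          rw [star_mul]; simp only [mul_assoc]
      _ ≤ _ := h1.trans h3
  have h2 : ∀ (x : A) (a : I), ∑ b, star (e a b * x) * (e a b * x) ≤ star x * x := fun x a => by
    have h3 := key (∑ i, e i i) x (norm_le_one_of_idem (p_sa he.mu) (p_idem he.mu))
    refine le_trans (le_of_eq ?_) h3
    rw [star_mul, p_sa he.mu, mul_assoc, ← mul_assoc (∑ i, e i i), p_idem he.mu, Finset.sum_mul,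
      Finset.mul_sum]
    refine Finset.sum_congr rfl fun b _ => ?_
    rw [star_mul, he.mu.star_eq, mul_assoc, ← mul_assoc (e b a), he.mu.mul_same]
  have h4 : ∑ q : ι × I × I, star (π * (e q.2.1 q.2.2 * y q.1)) * (π * (e q.2.1 q.2.2 * y q.1)) ≤
      (Fintype.card I : ℝ) • ∑ l, star (y l) * y l := by
    rw [Fintype.sum_prod_type, Finset.smul_sum]
    refine Finset.sum_le_sum fun l _ => ?_
    rw [Fintype.sum_prod_type, Nat.cast_smul_eq_nsmul, ← Finset.card_univ, ← Finset.sum_const]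
    exact Finset.sum_le_sum fun a _ =>
      (Finset.sum_le_sum fun b _ => key π _ hπ).trans (h2 (y l) a)
  refine (CStarAlgebra.norm_le_norm_of_nonneg_of_le
    (Finset.sum_nonneg fun q _ => star_mul_self_nonneg _) h4).trans (le_of_eq ?_)
  rw [norm_smul, Real.norm_of_nonneg (by positivity)]

lemma norm_F_le (he : TrMU τ e) {ι : Type} [Fintype ι] (y : ι → A) :
    ‖F e (∑ l, star (y l) * y l)‖ ≤ Fintype.card I * ‖∑ l, star (y l) * y l‖ := by
  let := CStarAlgebra.spectralOrder A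
  have := CStarAlgebra.spectralOrderedRing A
  have h0 : 0 ≤ ∑ l, star (y l) * y l := Finset.sum_nonneg fun l _ => star_mul_self_nonneg _
  set x := ∑ l, star (y l) * y l with hx
  have h1 : F e x ≤ (Fintype.card I * ‖x‖ : ℝ) • ∑ a, e a a := by
    unfold F
    rw [Finset.smul_sum]
    refine Finset.sum_le_sum fun a _ => ?_
    rw [mul_smul, Nat.cast_smul_eq_nsmul, ← Finset.card_univ, ← Finset.sum_const]
    refine Finset.sum_le_sum fun b _ => ?_
    have := CStarAlgebra.star_right_conjugate_le_norm_smul (a := e a b) (b := x) (.of_nonneg h0)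
    rwa [he.mu.star_eq, he.mu.mul_same] at this
  have h2 : 0 ≤ F e x := Finset.sum_nonneg fun a _ => Finset.sum_nonneg fun b _ => by
    have := star_right_conjugate_nonneg h0 (e a b)
    rwa [he.mu.star_eq] at this
  refine (CStarAlgebra.norm_le_norm_of_nonneg_of_le h2 h1).trans ?_
  rw [norm_smul, Real.norm_of_nonneg (by positivity)]
  exact mul_le_of_le_one_right (by positivity) (norm_le_one_of_idem (p_sa he.mu) (p_idem he.mu))

/-- The flattened family. -/
lemma flat (he : TrMU τ e) {S : A → A} (hS : IsLinearMap ℂ S) (hm : Modu e S) {g : ℝ}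
    (hg : 0 ≤ g) (hb : ∀ x, τ.n2 (S x) ≤ g * ‖x‖) {ι : Type} [Fintype ι] (y : ι → A) {π : A}
    (hsa : star π = π) (hπ : ‖π‖ ≤ 1) {C δ : ℝ} (hδ : 0 ≤ δ) (hC : ∀ l, ‖y l‖ ≤ C)
    (hsm : ∀ l a b, τ.n2 (S ((1 - π) * (e a b * y l))) ≤ δ) :
    Fintype.card I * ∑ l, τ.n2 (S (y l)) ^ 2 ≤
      4 * g ^ 2 * (Fintype.card I * ‖∑ l, star (y l) * y l‖ +
        ‖π * (∑ l, F e (y l * star (y l))) * π‖) +
      Fintype.card ι * Fintype.card I ^ 2 * (2 * g * C * δ + δ ^ 2) := by
  have h1 := ph2 τ hS hg hb fun q : ι × I × I => π * (e q.2.1 q.2.2 * y q.1)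
  have h2 := norm_sum_e_le he hπ y
  have h3 : ∑ q : ι × I × I, π * (e q.2.1 q.2.2 * y q.1) * star (π * (e q.2.1 q.2.2 * y q.1)) =
      π * (∑ l, F e (y l * star (y l))) * π := by
    unfold F
    simp only [Fintype.sum_prod_type, Finset.mul_sum, Finset.sum_mul, star_mul, hsa, he.mu.star_eq,
      mul_assoc]
  have h4 : ∀ q : ι × I × I, τ.n2 (e q.2.1 q.2.2 * S (y q.1)) ^ 2 ≤
      τ.n2 (S (π * (e q.2.1 q.2.2 * y q.1))) ^ 2 + (2 * g * C * δ + δ ^ 2) := by
    rintro ⟨l, a, b⟩
    have h5 : e a b * S (y l) = S (π * (e a b * y l)) + S ((1 - π) * (e a b * y l)) := by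
      rw [← hS.map_add, ← add_mul, add_sub_cancel, one_mul, hm]
    have h6 : τ.n2 (e a b * S (y l)) ≤ τ.n2 (S (π * (e a b * y l))) + δ := by
      rw [h5]
      exact (τ.n2_add_le _ _).trans (add_le_add_right (hsm l a b) _)
    have h7 : τ.n2 (S (π * (e a b * y l))) ≤ g * C := by
      refine (hb _).trans (mul_le_mul_of_nonneg_left ?_ hg)
      calc _ ≤ ‖π‖ * (‖e a b‖ * ‖y l‖) :=
            (norm_mul_le _ _).trans (mul_le_mul_of_nonneg_left (norm_mul_le _ _) (norm_nonneg _))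
        _ ≤ 1 * (1 * C) := by gcongr; exacts [norm_e_le he.mu a b, hC l]
        _ = C := by ring
    have h8 := pow_le_pow_left₀ (τ.n2_nonneg _) h6 2
    simp only
    nlinarith
  have h5 := Finset.sum_le_sum (s := Finset.univ) fun q _ => h4 q
  rw [Finset.sum_add_distrib, Finset.sum_const, Finset.card_univ, Fintype.card_prod,
    Fintype.card_prod, nsmul_eq_mul, Fintype.sum_prod_type] at h5
  simp only [Fintype.sum_prod_type, sum_n2_e he, ← Finset.mul_sum] at h5
  rw [h3, Fintype.sum_prod_type] at h1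
  simp only [Fintype.sum_prod_type] at h1 h2
  push_cast at h5
  have h6 := mul_le_mul_of_nonneg_left h2 (show 0 ≤ 4 * g ^ 2 by positivity)
  nlinarith

end Crest.Agent.R121.SliceAux
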