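import Crest.Agent.R121.Base
import Crest.Agent.R124.Struct
import Crest.Agent.R124.VN1a

/-! # Row 121: traces on central pieces of the finite part, and homogeneous type I pieces. -/

set_option autoImplicit false

open scoped InnerProductSpace Topology ComplexConjugate
open Filter Crest.Agent.Lib.Tracial

noncomputable section

namespace Crest.Agent.R121

universe u

open Crest.Agent.R124 (IsMU)

/-- A linear functional that is real on all `x⋆ x` is Hermitian. -/
lemma trace_herm {A : Type*} [CStarAlgebra A] (φ : A →ₗ[ℂ] ℂ)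
    (h : ∀ x, (φ (star x * x)).im = 0) (x : A) : φ (star x) = conj (φ x) := by
  have h0 := h 1
  have h1 := h (1 + x)
  have h2 := h (1 + Complex.I • x)
  have h3 := h x
  rw [star_one, one_mul] at h0
  have e1 : star (1 + x) * (1 + x) = 1 + x + star x + star x * x := by
    rw [star_add, star_one]; noncomm_ring
  have e2 : star (1 + Complex.I • x) * (1 + Complex.I • x) =
      1 + Complex.I • x - Complex.I • star x + star x * x := by
    rw [star_add, star_one, star_smul, Complex.star_def, Complex.conj_I]
    rw [add_mul, mul_add, mul_add, one_mul, one_mul, mul_one, smul_mul_smul_comm, neg_mul,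
      Complex.I_mul_I, neg_neg, one_smul, neg_smul]
    abel
  rw [e1] at h1
  rw [e2] at h2
  simp only [map_add, map_sub, map_smul, smul_eq_mul, Complex.add_im, Complex.sub_im,
    Complex.mul_im, Complex.I_re, Complex.I_im, zero_mul, one_mul, zero_add, h0, h3] at h1 h2
  apply Complex.ext
  · rw [Complex.conj_re]; linarith
  · rw [Complex.conj_im]; linarith

/-- Extension of a trace on a corner `e A e` along a finite cover of `z` by copies of `e`. -/
lemma trace_alg {A : Type*} [CStarAlgebra A] {I : Type} [Fintype I] (t : A →ₗ[ℂ] ℂ) (e z : A)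
    (u : I → A) (hz : ∑ j, u j * star (u j) = z) (hzu : ∀ j, z * u j = u j)
    (hc : ∀ x, z * x = x * z) (hue : ∀ j, u j * e = u j) (he : star e = e)
    (htr : ∀ x y, e * x * e = x → e * y * e = y → t (x * y) = t (y * x))
    (hpos : ∀ x, e * x * e = x → (t (star x * x)).im = 0 ∧ 0 ≤ (t (star x * x)).re ∧
      ((t (star x * x)).re = 0 → x = 0)) (hz0 : z ≠ 0) :
    ∃ (τ : TrState A) (κ : ℂ), (∀ x, τ x = κ * ∑ j, t (star (u j) * x * u j)) ∧ τ z = 1 ∧
      ∀ x, τ.n2 x = 0 → z * x = 0 := by
  have heu : ∀ j, e * star (u j) = star (u j) := fun j => by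
    have := congrArg star (hue j)
    rwa [star_mul, he] at this
  have hcor : ∀ i j x, e * (star (u i) * x * u j) * e = star (u i) * x * u j := fun i j x => by
    rw [← mul_assoc, ← mul_assoc, heu, mul_assoc _ (u j) e, hue]
  have hzz : z * z = z := by
    calc z * z = z * ∑ j, u j * star (u j) := by rw [hz]
      _ = ∑ j, u j * star (u j) := by
          rw [Finset.mul_sum]
          exact Finset.sum_congr rfl fun j _ => by rw [← mul_assoc, hzu]
      _ = z := hz
  let φ : A →ₗ[ℂ] ℂ := ∑ j, t ∘ₗ (LinearMap.mulRight ℂ (u j) ∘ₗ LinearMap.mulLeft ℂ (star (u j)))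
  have hφ : ∀ x, φ x = ∑ j, t (star (u j) * x * u j) := fun x => by
    simp [φ, LinearMap.sum_apply]
  have hsplit : ∀ x y, φ (x * y) =
      ∑ j, ∑ i, t ((star (u j) * x * u i) * (star (u i) * y * u j)) := fun x y => by
    rw [hφ]
    refine Finset.sum_congr rfl fun j _ => ?_
    rw [← map_sum]
    congr 1
    calc star (u j) * (x * y) * u j = star (u j) * x * (y * (z * u j)) := by
          rw [hzu]; simp only [mul_assoc]
      _ = star (u j) * x * (z * (y * u j)) := by rw [← mul_assoc y, ← hc, mul_assoc z]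
      _ = _ := by
          rw [← hz, Finset.sum_mul, Finset.mul_sum]
          exact Finset.sum_congr rfl fun i _ => by simp only [mul_assoc]
  have hcomm : ∀ x y, φ (x * y) = φ (y * x) := fun x y => by
    rw [hsplit, hsplit, Finset.sum_comm]
    exact Finset.sum_congr rfl fun i _ => Finset.sum_congr rfl fun j _ =>
      htr _ _ (hcor _ _ _) (hcor _ _ _)
  have hsq : ∀ x, φ (star x * x) =
      ∑ j, ∑ i, t (star (star (u i) * x * u j) * (star (u i) * x * u j)) := fun x => by
    rw [hsplit]
    refine Finset.sum_congr rfl fun j _ => Finset.sum_congr rfl fun i _ => ?_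
    rw [star_mul, star_mul, star_star, mul_assoc (star (u j))]
  have him : ∀ x, (φ (star x * x)).im = 0 := fun x => by
    rw [hsq, Complex.im_sum]
    refine Finset.sum_eq_zero fun j _ => ?_
    rw [Complex.im_sum]
    exact Finset.sum_eq_zero fun i _ => (hpos _ (hcor _ _ _)).1
  have hre : ∀ x, 0 ≤ (φ (star x * x)).re := fun x => by
    rw [hsq, Complex.re_sum]
    refine Finset.sum_nonneg fun j _ => ?_
    rw [Complex.re_sum]
    exact Finset.sum_nonneg fun i _ => (hpos _ (hcor _ _ _)).2.1
  have hfaith : ∀ x, (φ (star x * x)).re = 0 → z * x = 0 := fun x hx => by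
    rw [hsq, Complex.re_sum] at hx
    have hnn : ∀ j i, 0 ≤ (t (star (star (u i) * x * u j) * (star (u i) * x * u j))).re :=
      fun j i => (hpos _ (hcor _ _ _)).2.1
    have h0 : ∀ j i, star (u i) * x * u j = 0 := fun j i => by
      have h1 := (Finset.sum_eq_zero_iff_of_nonneg (fun j _ => by
        rw [Complex.re_sum]; exact Finset.sum_nonneg fun i _ => hnn j i)).1 hx j
        (Finset.mem_univ _)
      rw [Complex.re_sum] at h1
      exact (hpos _ (hcor _ _ _)).2.2
        ((Finset.sum_eq_zero_iff_of_nonneg (fun i _ => hnn j i)).1 h1 i (Finset.mem_univ _))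
    calc z * x = z * x * z := by rw [mul_assoc, ← hc, ← mul_assoc, hzz]
      _ = ∑ i, ∑ j, u i * (star (u i) * x * u j) * star (u j) := by
          conv_lhs => rw [← hz, Finset.sum_mul, Finset.sum_mul]
          refine Finset.sum_congr rfl fun i _ => ?_
          rw [Finset.mul_sum]
          exact Finset.sum_congr rfl fun j _ => by simp only [mul_assoc]
      _ = 0 := by simp [h0]
  have h1im : (φ 1).im = 0 := by simpa using him 1
  have h1re : 0 < (φ 1).re := by
    refine lt_of_le_of_ne (by simpa using hre 1) fun h => hz0 ?_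
    simpa using hfaith 1 (by simpa using h.symm)
  set s : ℝ := (φ 1).re with hs
  have h1 : φ 1 = (s : ℂ) := Complex.ext (by simp [hs]) (by simp [h1im])
  have hs0 : (s : ℂ) ≠ 0 := by exact_mod_cast h1re.ne'
  let τ : TrState A :=
    { lin := ((s⁻¹ : ℝ) : ℂ) • φ
      map_one' := by
        rw [LinearMap.smul_apply, h1, smul_eq_mul, Complex.ofReal_inv, inv_mul_cancel₀ hs0]
      map_star' := fun x => by
        rw [LinearMap.smul_apply, LinearMap.smul_apply, trace_herm φ him, smul_eq_mul,
          smul_eq_mul, map_mul, Complex.conj_ofReal]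
      pos' := fun x => by
        rw [LinearMap.smul_apply, smul_eq_mul, Complex.re_ofReal_mul]
        exact mul_nonneg (inv_nonneg.2 h1re.le) (hre x)
      comm' := fun x y => by rw [LinearMap.smul_apply, LinearMap.smul_apply, hcomm] }
  have hτ : ∀ x, τ x = ((s⁻¹ : ℝ) : ℂ) * φ x := fun x => rfl
  refine ⟨τ, ((s⁻¹ : ℝ) : ℂ), fun x => by rw [hτ, hφ], ?_, fun x hx => hfaith x ?_⟩
  · have : φ z = φ 1 := by
      rw [hφ, hφ]
      exact Finset.sum_congr rfl fun j _ => by rw [mul_one, mul_assoc, hzu]
    rw [hτ, this, ← hτ, τ.tr_one]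
  · have h2 := τ.n2_sq x
    rw [hx, hτ, Complex.re_ofReal_mul] at h2
    have h3 : s⁻¹ * (φ (star x * x)).re = 0 := by linarith
    exact (mul_eq_zero.1 h3).resolve_left (inv_ne_zero h1re.ne')

/-- Matrix units over a commutative corner: the partial traces are central. -/
lemma trace_central {A : Type*} [Ring A] [StarRing A] {I : Type} [Fintype I] (u : I → A)
    (t z : A) (h1 : ∀ a, star (u a) * u a = t) (h2 : ∀ a b, a ≠ b → star (u a) * u b = 0)
    (h3 : ∀ a, u a * t = u a) (hz : ∑ a, u a * star (u a) = z) (hc : ∀ x, z * x = x * z)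
    (hab : ∀ x y, t * x * t = x → t * y * t = y → x * y = y * x) (a : A) (i j : I) (x : A) :
    (∑ k, u k * star (u i) * a * (u j * star (u k))) * x =
      x * ∑ k, u k * star (u i) * a * (u j * star (u k)) := by
  have ht : star t = t := by rw [← h1 i, star_mul, star_star]
  have h4 : ∀ a, t * star (u a) = star (u a) := fun a => by
    have := congrArg star (h3 a)
    rwa [star_mul, ht] at this
  have hcor : ∀ i j x, t * (star (u i) * x * u j) * t = star (u i) * x * u j := fun i j x => by
    rw [← mul_assoc, ← mul_assoc, h4, mul_assoc _ (u j) t, h3]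
  have hzu : ∀ k, z * u k = u k := fun k => by
    rw [← hz, Finset.sum_mul, Finset.sum_eq_single k]
    · rw [mul_assoc, h1, h3]
    · exact fun l _ hl => by rw [mul_assoc, h2 l k hl, mul_zero]
    · simp
  have huz : ∀ k, star (u k) * z = star (u k) := fun k => by
    rw [← hz, Finset.mul_sum, Finset.sum_eq_single k]
    · rw [← mul_assoc, h1, h4]
    · exact fun l _ hl => by rw [← mul_assoc, h2 k l hl.symm, zero_mul]
    · simp
  calc (∑ k, u k * star (u i) * a * (u j * star (u k))) * x
      = ∑ k, ∑ l, u k * ((star (u i) * a * u j) * (star (u k) * x * u l)) * star (u l) := by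
        rw [Finset.sum_mul]
        refine Finset.sum_congr rfl fun k _ => ?_
        calc u k * star (u i) * a * (u j * star (u k)) * x
            = u k * star (u i) * a * (u j * (star (u k) * z * x)) := by
              rw [huz]; simp only [mul_assoc]
          _ = u k * star (u i) * a * (u j * (star (u k) * x * z)) := by
              rw [mul_assoc _ z, hc, ← mul_assoc _ x]
          _ = _ := by
              rw [← hz, Finset.mul_sum, Finset.mul_sum, Finset.mul_sum]
              exact Finset.sum_congr rfl fun l _ => by simp only [mul_assoc]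
    _ = ∑ k, ∑ l, u k * ((star (u k) * x * u l) * (star (u i) * a * u j)) * star (u l) :=
        Finset.sum_congr rfl fun k _ => Finset.sum_congr rfl fun l _ => by
          rw [hab _ _ (hcor i j a) (hcor k l x)]
    _ = x * ∑ k, u k * star (u i) * a * (u j * star (u k)) := by
        rw [Finset.sum_comm, Finset.mul_sum]
        refine Finset.sum_congr rfl fun l _ => ?_
        symm
        calc x * (u l * star (u i) * a * (u j * star (u l)))
            = x * (z * u l) * (star (u i) * a * (u j * star (u l))) := by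
              rw [hzu]; simp only [mul_assoc]
          _ = z * (x * u l * (star (u i) * a * (u j * star (u l)))) := by
              rw [← mul_assoc x z, ← hc]; simp only [mul_assoc]
          _ = _ := by
              rw [← hz, Finset.sum_mul]
              exact Finset.sum_congr rfl fun k _ => by simp only [mul_assoc]

section VN
variable {H : Type u} [NormedAddCommGroup H] [InnerProductSpace ℂ H] [CompleteSpace H]

lemma trace_vecFun_apply (M : VonNeumannAlgebra H) (ζ ξ : H) (x : Alg M) :
    vecFun M ζ ξ x = ⟪ζ, (x : H →L[ℂ] H) ξ⟫_ℂ := rfl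

lemma trace_proj_mul {M : VonNeumannAlgebra H} {z e : H →L[ℂ] H} (hz : CProj M z) (he : e ∈ M)
    (hep : IsStarProjection e) : IsStarProjection (z * e) :=
  hz.proj.mul hep (hz.comm e he)

/-- The homogeneous piece attached to a finite family of copies of an abelian projection. -/
lemma trace_abel_sys (M : VonNeumannAlgebra H) (z₀ z p : H →L[ℂ] H) (hz : CProj M z)
    (hz0 : z₀ * z = z) (hne : z ≠ 0) (hp : p ∈ M) (hpp : IsStarProjection p) (hab : Abel M p)
    (I : Type) [Fintype I] (u : I → (H →L[ℂ] H)) (hu : ∀ i, u i ∈ M)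
    (h1 : ∀ a, star (u a) * u a = z * p) (h2 : ∀ a b, a ≠ b → star (u a) * u b = 0)
    (hs : ∑ a, u a * star (u a) = z) :
    ∃ (I : Type) (_ : Fintype I) (e : I → I → Alg M), IsMU e ∧
      CProj M ((∑ i, e i i : Alg M) : H →L[ℂ] H) ∧
      z₀ * ((∑ i, e i i : Alg M) : H →L[ℂ] H) = (∑ i, e i i : Alg M) ∧ (∑ i, e i i) ≠ 0 ∧
      ∀ a i j x, (∑ k, e k i * a * e j k) * x = x * ∑ k, e k i * a * e j k := by
  let U : I → Alg M := fun i => ⟨u i, hu i⟩
  let Z : Alg M := ⟨z, hz.mem⟩
  let T : Alg M := ⟨z * p, mul_mem hz.mem hp⟩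
  have hT := trace_proj_mul hz hp hpp
  have g1 : ∀ a, star (U a) * U a = T := fun a => Subtype.ext (h1 a)
  have g2 : ∀ a b, a ≠ b → star (U a) * U b = 0 := fun a b h => Subtype.ext (h2 a b h)
  have g3 : ∀ a, U a * T = U a := fun a => Subtype.ext (R124.vn1_mul_proj hT (h1 a))
  have gs : ∑ a, U a * star (U a) = Z := by
    apply Subtype.ext
    rw [AddSubmonoidClass.coe_finsetSum]
    exact hs
  have gc : ∀ x, Z * x = x * Z := fun x => Subtype.ext (hz.comm x x.2)
  have gab : ∀ x y : Alg M, T * x * T = x → T * y * T = y → x * y = y * x := by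
    have key : ∀ x : Alg M, T * x * T = x → p * (x : H →L[ℂ] H) = x ∧ (x : H →L[ℂ] H) * p = x := by
      intro x hx
      have hx' : z * p * (x : H →L[ℂ] H) * (z * p) = x := congrArg Subtype.val hx
      have hpp' : p * p = p := hpp.isIdempotentElem.eq
      constructor
      · conv_lhs => rw [← hx']
        rw [← mul_assoc p, ← mul_assoc p, ← mul_assoc p, ← hz.comm p hp, mul_assoc z p p, hpp',
          hx']
      · conv_lhs => rw [← hx']
        rw [mul_assoc _ (z * p), mul_assoc z p p, hpp', hx']
    intro x y hx hy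
    apply Subtype.ext
    have := hab x x.2 y y.2
    rw [(key x hx).1, (key x hx).2, (key y hy).1, (key y hy).2, mul_assoc, mul_assoc,
      (key x hx).2, (key y hy).2] at this
    exact this
  refine ⟨I, inferInstance, fun a b => U a * star (U b), R124.struct_mk_sys U T g1 g2 g3, ?_, ?_,
    ?_, fun a i j x => trace_central U T Z g1 g2 g3 gs gc gab a i j x⟩
  · rw [gs]; exact hz
  · rw [gs]; exact hz0
  · rw [gs]; exact fun h => hne (congrArg Subtype.val h)

end VN

theorem trace (h1 : FinCoverStmt.{u}) (h2 : CornerTraceStmt.{u}) : TraceStmt.{u} := by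
  intro H _ _ _ M z₀ hz₀ hno hne
  obtain ⟨e, ζ, ξ, heM, hep, hz₀e, he0, htr, hpos⟩ := h2 H M z₀ hz₀ hno hne
  obtain ⟨z, k, v, w, hz, hz₀z, hze, hvM, hwM, hvv, -, -, hwe, hsum⟩ :=
    h1 H M z₀ e hz₀ hno heM hep hz₀e he0
  have hT := trace_proj_mul hz heM hep
  have hee : e * e = e := hep.isIdempotentElem.eq
  have hzz : z * z = z := hz.proj.isIdempotentElem.eq
  let u : Option (Fin (k + 1)) → (H →L[ℂ] H) := fun o => o.elim w v
  have huM : ∀ j, u j ∈ M := fun j => by cases j <;> simp [u, hvM, hwM]
  have hut : ∀ j, u j * (z * e) = u j := fun j => by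
    cases j with
    | none => exact hwe
    | some i => exact R124.vn1_mul_proj hT ((hvv i i).trans (if_pos rfl))
  let U : Option (Fin (k + 1)) → Alg M := fun j => ⟨u j, huM j⟩
  let Z : Alg M := ⟨z, hz.mem⟩
  let E : Alg M := ⟨e, heM⟩
  obtain ⟨τ, κ, hτ, hτz, hf⟩ := trace_alg (vecFun M ζ ξ : Alg M →ₗ[ℂ] ℂ) E Z U
    (by
      apply Subtype.ext
      rw [AddSubmonoidClass.coe_finsetSum, Fintype.sum_option, add_comm]
      exact hsum)
    (fun j => Subtype.ext (by
      change z * u j = u j
      rw [hz.comm _ (huM j)]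
      conv_lhs => rw [← hut j]
      rw [mul_assoc, mul_assoc, ← hz.comm e heM, ← mul_assoc z z, hzz, hut]))
    (fun x => Subtype.ext (hz.comm x x.2))
    (fun j => Subtype.ext (by
      change u j * e = u j
      conv_lhs => rw [← hut j]
      rw [mul_assoc, mul_assoc, hee, hut]))
    (Subtype.ext hep.isSelfAdjoint.star_eq)
    (fun x y hx hy => htr x x.2 y y.2 (congrArg Subtype.val hx) (congrArg Subtype.val hy))
    (fun x hx => by
      obtain ⟨a, b, c⟩ := hpos x x.2 (congrArg Subtype.val hx)
      exact ⟨a, b, fun h => Subtype.ext (c h)⟩)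
    (fun h => hze (by rw [show z = 0 from congrArg Subtype.val h, zero_mul]))
  refine ⟨Z, τ, hz, hz₀z, fun h => hze (by
    rw [show z = 0 from congrArg Subtype.val h, zero_mul]), ?_, hτz, hf⟩
  have : τ.clm = κ • ∑ j, vecFun M (u j ζ) (u j ξ) := by
    ext x
    rw [TrState.clm_apply, hτ, _root_.smul_apply, _root_.sum_apply,
      smul_eq_mul]
    congr 1
    refine Finset.sum_congr rfl fun j _ => ?_
    change ⟪ζ, (star (u j) * (x : H →L[ℂ] H) * u j) ξ⟫_ℂ = ⟪u j ζ, (x : H →L[ℂ] H) (u j ξ)⟫_ℂ
    rw [← ContinuousLinearMap.adjoint_inner_right]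
    rfl
  rw [this]
  exact Submodule.smul_mem _ _ (Submodule.sum_mem _ fun j _ =>
    Submodule.subset_span ⟨_, _, rfl⟩)

theorem abel (hc : CSuppStmt.{u}) (h1 : FinCoverStmt.{u}) : AbelStmt.{u} := by
  intro H _ _ _ M z₀ p hz₀ hno hpM hpp hz₀p hp0 hab
  obtain ⟨z, k, v, w, hz, hz₀z, hze, hvM, hwM, hvv, hvw, hww, hwe, hsum⟩ :=
    h1 H M z₀ p hz₀ hno hpM hpp hz₀p hp0
  have hpp' : p * p = p := hpp.isIdempotentElem.eq
  have hzz : z * z = z := hz.proj.isIdempotentElem.eq
  have hzne : z ≠ 0 := fun h => hze (by rw [h, zero_mul])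
  set f := star w * w with hf
  have hfM : f ∈ M := mul_mem (star_mem hwM) hwM
  have hfp : IsStarProjection f := R124.vn1_isStarProjection_of hww
  have hff : f * f = f := hfp.isIdempotentElem.eq
  have hwf : w * f = w := by rw [hf, ← mul_assoc, hww]
  have hwp : w * p = w := by
    conv_lhs => rw [← hwe]
    rw [mul_assoc, mul_assoc, hpp', hwe]
  have hwz : w * z = w := by
    conv_lhs => rw [← hwe]
    rw [mul_assoc, mul_assoc, ← hz.comm p hpM, ← mul_assoc z z, hzz, hwe]
  have hfp1 : f * p = f := by rw [hf, mul_assoc, hwp]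
  have hfp2 : p * f = f := by
    have := congrArg star hfp1
    rwa [star_mul, hpp.isSelfAdjoint.star_eq, hfp.isSelfAdjoint.star_eq] at this
  have hzf : z * f = f := by rw [hz.comm f hfM, hf, mul_assoc, hwz]
  obtain ⟨z₁, hz₁, hz₁f, -, hmin⟩ := hc H M f hfM
  have hz₁z₁ : z₁ * z₁ = z₁ := hz₁.proj.isIdempotentElem.eq
  have hfz₁ : f * z₁ = f := by rw [← hz₁.comm f hfM, hz₁f]
  have hz₁p : z₁ * p = f := by
    have := hmin (p - f) fun x hx => by
      have h3 : p * x * f = f * x * p := by
        have := hab x hx f hfM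
        rwa [mul_assoc _ p f, hfp2, mul_assoc _ f p, hfp1] at this
      have h4 : f * x * f = p * x * f := by
        calc f * x * f = f * (p * x * f) := by rw [← mul_assoc f, ← mul_assoc f, hfp1]
          _ = p * x * f := by rw [h3, ← mul_assoc f, ← mul_assoc f, hff]
      rw [sub_mul, sub_mul, h4, sub_self]
    rw [sub_mul, hfz₁, sub_eq_zero] at this
    rw [hz₁.comm p hpM, this]
  have hzz₁ : z * z₁ = z₁ := by
    have := hmin (1 - z) fun x hx => by
      rw [sub_mul, sub_mul, one_mul, hz.comm x hx, mul_assoc, hzf, sub_self]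
    rw [sub_mul, one_mul, sub_eq_zero] at this
    exact this.symm
  by_cases h0 : z₁ = 0
  · have hw0 : w = 0 := by rw [← hwf, ← hz₁f, h0, zero_mul, mul_zero]
    refine trace_abel_sys M z₀ z p hz hz₀z hzne hpM hpp hab (Fin (k + 1)) v hvM
      (fun a => by simpa using hvv a a) (fun a b h => by simpa [h] using hvv a b) ?_
    rwa [hw0, zero_mul, add_zero] at hsum
  · let u : Option (Fin (k + 1)) → (H →L[ℂ] H) := fun o => o.elim w fun i => v i * z₁
    have hst : ∀ i, star (v i * z₁) = z₁ * star (v i) := fun i => by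
      rw [star_mul, hz₁.proj.isSelfAdjoint.star_eq]
    have hwz₁ : w * z₁ = w := by
      conv_lhs => rw [← hwf]
      rw [mul_assoc, hfz₁, hwf]
    refine trace_abel_sys M z₀ z₁ p hz₁ (by rw [← hzz₁, ← mul_assoc, hz₀z]) h0 hpM hpp hab
      (Option (Fin (k + 1))) u (fun i => ?_) (fun a => ?_) (fun a b h => ?_) ?_
    · cases i with
      | none => exact hwM
      | some i => exact mul_mem (hvM i) hz₁.mem
    · cases a with
      | none => exact hz₁p.symm
      | some i =>
        change star (v i * z₁) * (v i * z₁) = _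
        rw [hst, mul_assoc, ← mul_assoc (star (v i)), hvv, if_pos rfl, mul_assoc,
          ← hz₁.comm p hpM, ← mul_assoc z, hzz₁, ← mul_assoc, hz₁z₁]
    · cases a with
      | none =>
        cases b with
        | none => exact absurd rfl h
        | some j =>
          change star w * (v j * z₁) = 0
          have := congrArg star (hvw j)
          rw [star_mul, star_star, star_zero] at this
          rw [← mul_assoc, this, zero_mul]
      | some i =>
        cases b with
        | none =>
          change star (v i * z₁) * w = 0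
          rw [hst, mul_assoc, hvw, mul_zero]
        | some j =>
          change star (v i * z₁) * (v j * z₁) = 0
          rw [hst, mul_assoc, ← mul_assoc (star (v i)), hvv, if_neg (fun h' => h (by rw [h'])),
            zero_mul, mul_zero]
    · rw [Fintype.sum_option, add_comm]
      change (∑ i, v i * z₁ * star (v i * z₁)) + w * star w = z₁
      conv_rhs => rw [← hzz₁, ← hsum, add_mul, Finset.sum_mul]
      congr 1
      · refine Finset.sum_congr rfl fun i _ => ?_
        rw [hst, mul_assoc, ← mul_assoc z₁, hz₁z₁, hz₁.comm _ (star_mem (hvM i)), mul_assoc]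
      · rw [mul_assoc, ← hz₁.comm _ (star_mem hwM), ← mul_assoc, hwz₁]

end Crest.Agent.R121
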