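import Crest.Agent.R121.Base

/-! # Row 121: the dyadic tree argument (`TreeStmt`). -/

set_option autoImplicit false

open scoped InnerProductSpace Topology
open Filter Crest.Agent.Lib.Tracial

noncomputable section

namespace Crest.Agent.R121

universe u

open Crest.Agent.R124 (IsMU)

section Alg

variable {A : Type u} [CStarAlgebra A] {I : Type} {e : I → I → A}

/-- Sum of diagonal matrix units. -/
def treeR (e : I → I → A) (v : Finset I) : A := ∑ j ∈ v, e j j

lemma treeR_mul (he : IsMU e) {v : Finset I} {a : I} (ha : a ∈ v) (b : I) :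
    treeR e v * e a b = e a b := by
  rw [treeR, Finset.sum_mul, Finset.sum_eq_single a]
  · exact he.mul_same _ _ _
  · exact fun c _ hc => he.mul_ne _ _ _ _ hc
  · exact fun h => absurd ha h

lemma treeR_mul_zero (he : IsMU e) {v : Finset I} {a : I} (ha : a ∉ v) (b : I) :
    treeR e v * e a b = 0 := by
  rw [treeR, Finset.sum_mul]
  exact Finset.sum_eq_zero fun c hc => he.mul_ne _ _ _ _ (fun h => ha (h ▸ hc))

lemma treeR_star (he : IsMU e) (v : Finset I) : star (treeR e v) = treeR e v := by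
  rw [treeR, star_sum]
  exact Finset.sum_congr rfl fun c _ => he.star_eq c c

lemma mul_treeR (he : IsMU e) {v : Finset I} {b : I} (hb : b ∈ v) (a : I) :
    e a b * treeR e v = e a b := by
  have := congrArg star (treeR_mul he hb a)
  rwa [star_mul, treeR_star he, he.star_eq] at this

lemma mul_treeR_zero (he : IsMU e) {v : Finset I} {b : I} (hb : b ∉ v) (a : I) :
    e a b * treeR e v = 0 := by
  have := congrArg star (treeR_mul_zero he hb a)
  rwa [star_mul, treeR_star he, he.star_eq, star_zero] at this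

lemma treeR_idem (he : IsMU e) (v : Finset I) : treeR e v * treeR e v = treeR e v := by
  conv_lhs => rw [treeR.eq_def e v, Finset.sum_mul]
  exact Finset.sum_congr rfl fun c hc => mul_treeR he hc c

lemma treeR_disj (he : IsMU e) {v v' : Finset I} (h : Disjoint v v') :
    treeR e v * treeR e v' = 0 := by
  conv_lhs => rw [treeR.eq_def e v, Finset.sum_mul]
  exact Finset.sum_eq_zero fun c hc => mul_treeR_zero he (Finset.disjoint_left.1 h hc) c

lemma treeR_union [DecidableEq I] {v v' : Finset I} (h : Disjoint v v') :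
    treeR e (v ∪ v') = treeR e v + treeR e v' := Finset.sum_union h

/-- Elements passing through modular maps and commuting with `comU e`. -/
structure TreeM (e : I → I → A) (y : A) : Prop where
  pass : ∀ c : A → A, IsLinearMap ℂ c → Modu e c → ∀ z, c (y * z) = y * c z
  comm : ∀ g ∈ comU e, g * y = y * g

lemma TreeM.unit (i j : I) : TreeM e (e i j) :=
  ⟨fun _ _ hc z => hc i j z, fun _ hg => hg.2 i j⟩

lemma TreeM.one : TreeM e (1 : A) := ⟨fun _ _ _ z => by simp, fun _ _ => by simp⟩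

lemma TreeM.zero : TreeM e (0 : A) :=
  ⟨fun _ hc _ z => by rw [zero_mul, zero_mul, hc.map_zero], fun _ _ => by simp⟩

lemma TreeM.add {y y' : A} (h : TreeM e y) (h' : TreeM e y') : TreeM e (y + y') :=
  ⟨fun c hc hm z => by rw [add_mul, hc.map_add, h.pass c hc hm, h'.pass c hc hm, add_mul],
    fun g hg => by rw [mul_add, add_mul, h.comm g hg, h'.comm g hg]⟩

lemma TreeM.sub {y y' : A} (h : TreeM e y) (h' : TreeM e y') : TreeM e (y - y') :=
  ⟨fun c hc hm z => by rw [sub_mul, hc.map_sub, h.pass c hc hm, h'.pass c hc hm, sub_mul],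
    fun g hg => by rw [mul_sub, sub_mul, h.comm g hg, h'.comm g hg]⟩

lemma TreeM.sum {ι : Type*} (s : Finset ι) {f : ι → A} (h : ∀ i ∈ s, TreeM e (f i)) :
    TreeM e (∑ i ∈ s, f i) :=
  Finset.sum_induction f (TreeM e) (fun _ _ => TreeM.add) TreeM.zero h

lemma TreeM.treeR (v : Finset I) : TreeM e (treeR e v) := TreeM.sum v fun j _ => TreeM.unit j j

/-- A partial isometry from the block `v` to the block `v'`. -/
structure TreeW (e : I → I → A) (v v' : Finset I) (w : A) : Prop where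
  m : TreeM e w
  ms : TreeM e (star w)
  sw : star w * w = treeR e v
  ws : w * star w = treeR e v'
  z : treeR e v * w = 0
  l : treeR e v' * w = w
  r : w * treeR e v = w

lemma exists_treeW (he : IsMU e) {v v' : Finset I} (hd : Disjoint v v') (hc : v.card = v'.card) :
    ∃ w, TreeW e v v' w := by
  classical
  let σ : v ≃ v' := Finset.equivOfCardEq hc
  have hs : star (∑ j : v, e (σ j) j) = ∑ j : v, e j (σ j) := by
    rw [star_sum]
    exact Finset.sum_congr rfl fun j _ => he.star_eq _ _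
  refine ⟨∑ j : v, e (σ j) j, TreeM.sum _ fun j _ => TreeM.unit _ _, ?_, ?_, ?_, ?_, ?_, ?_⟩
  · rw [hs]; exact TreeM.sum _ fun j _ => TreeM.unit _ _
  · rw [hs, Finset.sum_mul, treeR, ← Finset.sum_coe_sort v (fun j => e j j)]
    refine Finset.sum_congr rfl fun j _ => ?_
    rw [Finset.mul_sum, Finset.sum_eq_single j]
    · exact he.mul_same _ _ _
    · intro k _ hk
      exact he.mul_ne _ _ _ _ fun h => hk (σ.injective (Subtype.ext h)).symm
    · exact fun h => absurd (Finset.mem_univ _) h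
  · rw [hs, Finset.sum_mul, treeR, ← Finset.sum_coe_sort v' (fun j => e j j),
      ← σ.sum_comp (fun j : v' => e j j)]
    refine Finset.sum_congr rfl fun j _ => ?_
    rw [Finset.mul_sum, Finset.sum_eq_single j]
    · exact he.mul_same _ _ _
    · intro k _ hk
      exact he.mul_ne _ _ _ _ fun h => hk (Subtype.ext h).symm
    · exact fun h => absurd (Finset.mem_univ _) h
  · rw [Finset.mul_sum]
    exact Finset.sum_eq_zero fun j _ =>
      treeR_mul_zero he (Finset.disjoint_right.1 hd (σ j).2) _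
  · rw [Finset.mul_sum]
    exact Finset.sum_congr rfl fun j _ => treeR_mul he (σ j).2 _
  · rw [Finset.sum_mul]
    exact Finset.sum_congr rfl fun j _ => mul_treeR he j.2 _

lemma TreeW.pair (he : IsMU e) {v v' : Finset I} {w : A} (hw : TreeW e v v' w) {p q p' q' : A}
    (hp : treeR e v * p = p) (hp' : treeR e v * p' = p') (hq' : treeR e v * q' = q') :
    star (p + w * q) * (p' + w * q') = star p * p' + star q * q' := by
  have h1 : star p * w = 0 := by
    rw [← hp, star_mul, treeR_star he, mul_assoc, hw.z, mul_zero]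
  have h2 : star w * p' = 0 := by
    have := congrArg star hw.z
    rw [star_mul, treeR_star he, star_zero] at this
    rw [← hp', ← mul_assoc, this, zero_mul]
  rw [star_add, star_mul, add_mul, mul_add, mul_add, ← mul_assoc (star p), h1, mul_assoc (star q),
    h2, mul_assoc (star q), ← mul_assoc (star w), hw.sw, hq']
  simp

lemma TreeW.norm_star_le (he : IsMU e) {v v' : Finset I} {w : A} (hw : TreeW e v v' w) :
    ‖star w‖ ≤ 1 := by
  have h1 : IsStarProjection (treeR e v) := ⟨treeR_idem he v, treeR_star he v⟩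
  have h2 := CStarRing.norm_star_mul_self (x := w)
  rw [hw.sw] at h2
  have h3 := h1.norm_le
  rw [norm_star]
  nlinarith [norm_nonneg w]

/-- Locations of a block. -/
structure TreeLoc (e : I → I → A) (i₀ : I) (v : Finset I) (a V : A) : Prop where
  l : treeR e v * a = a
  r : a * treeR e v = a
  n : ‖a‖ ≤ 1
  V1 : treeR e v * V = V
  V2 : star V * V = e i₀ i₀

lemma TreeLoc.mul_unitary {i₀ : I} {v : Finset I} {a V g : A} (h : TreeLoc e i₀ v a V)
    (hg : g ∈ unitary A) (hc : g * treeR e v = treeR e v * g) :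
    TreeLoc e i₀ v (g * a) (g * V) := by
  refine ⟨by rw [← mul_assoc, ← hc, mul_assoc, h.l], by rw [mul_assoc, h.r], ?_,
    by rw [← mul_assoc, ← hc, mul_assoc, h.V1], ?_⟩
  · rw [CStarRing.norm_mem_unitary_mul _ hg]; exact h.n
  · rw [star_mul, mul_assoc, ← mul_assoc (star g), (Unitary.mem_iff.1 hg).1, one_mul, h.V2]

lemma TreeLoc.mul_e (he : IsMU e) {i₀ : I} {v : Finset I} {a V : A} (h : TreeLoc e i₀ v a V) :
    V * e i₀ i₀ = V := by
  have h1 : star (V - V * e i₀ i₀) * (V - V * e i₀ i₀) = 0 := by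
    rw [star_sub, star_mul, he.star_eq, sub_mul, mul_sub, mul_sub, ← mul_assoc (star V), h.V2,
      mul_assoc (e i₀ i₀), h.V2, mul_assoc (e i₀ i₀), ← mul_assoc (star V), h.V2]
    simp [he.mul_same]
  exact (sub_eq_zero.1 ((CStarRing.star_mul_self_eq_zero_iff _).1 h1)).symm

variable {D : Pred A}

/-- `s` bounds the block functional of `v` on `K`. -/
def TreeBd (τ : TrState A) (e : I → I → A) (i₀ : I) (K : Set (Fl D)) (x : A) (v : Finset I)
    (s : ℝ) : Prop :=
  ∀ c ∈ K, ∀ a V, TreeLoc e i₀ v a V → τ.n2 (star V * c (a * x)) ≤ s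

lemma tree_convex (τ : TrState A) (V y b : A) (s : ℝ) :
    Convex ℝ {c : Fl D | τ.n2 (V * c y + b) ≤ s} := by
  intro c hc c' hc' p q hp hq hpq
  have h1 : V * (p • c + q • c') y + b = p • (V * c y + b) + q • (V * c' y + b) := by
    simp only [Fl.add_apply, Fl.smul_apply, mul_add, mul_smul_comm, smul_add]
    have : b = p • b + q • b := by rw [← add_smul, hpq, one_smul]
    conv_lhs => rw [this]
    abel
  show τ.n2 (V * (p • c + q • c') y + b) ≤ s
  rw [h1]
  refine (τ.n2_add_le _ _).trans ?_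
  rw [τ.n2_real_smul, τ.n2_real_smul, abs_of_nonneg hp, abs_of_nonneg hq]
  have h2 : τ.n2 (V * c y + b) ≤ s := hc
  have h3 : τ.n2 (V * c' y + b) ≤ s := hc'
  calc _ ≤ p * s + q * s := by gcongr
    _ = s := by rw [← add_mul, hpq, one_mul]

lemma tree_closed {τ : TrState A} (hτ : τ.clm ∈ D.Ω) (V y b : A) (s : ℝ) :
    IsClosed {c : Fl D | τ.n2 (V * c y + b) ≤ s} :=
  (((wcont_eval y).mul_left V).add (WCont.const b)).isClosed_n2_le hτ s

lemma tree_orbit {τ : TrState A} (hτ : τ.clm ∈ D.Ω) {K : Set (Fl D)}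
    (hK : IsMin (uS D (comU e)) K) {c : Fl D} (hc : c ∈ K) (V y b : A) (s : ℝ)
    (h : ∀ g ∈ comU e, τ.n2 (V * (uact g c) y + b) ≤ s) :
    ∀ c' ∈ K, τ.n2 (V * c' y + b) ≤ s :=
  fun _ hc' => hK.subset_of_orbit (one_mem_comU e) (fun _ hu _ hv => mul_mem_comU hu hv) hc
    (tree_closed hτ V y b s) (tree_convex τ V y b s) h hc'

lemma treeBd_of_one {τ : TrState A} (hτ : τ.clm ∈ D.Ω) {K : Set (Fl D)}
    (hK : IsMin (uS D (comU e)) K) {i₀ : I} {x : A} {v : Finset I} {s : ℝ} {c : Fl D}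
    (hc : c ∈ K) (h : ∀ a V, TreeLoc e i₀ v a V → τ.n2 (star V * c (a * x)) ≤ s) :
    TreeBd τ e i₀ K x v s := by
  intro c' hc' a V hl
  have := tree_orbit hτ hK hc (star V) (a * x) 0 s (fun g hg => by
    have h1 := h _ _ (hl.mul_unitary hg.1 ((TreeM.treeR v).comm g hg))
    rw [star_mul, mul_assoc, mul_assoc] at h1
    simpa using h1) c' hc'
  simpa using this

/-- The joint bound. -/
lemma tree_joint [DecidableEq I] (he : IsMU e) {τ : TrState A} (hτ : τ.clm ∈ D.Ω)
    {K : Set (Fl D)} (hK : IsMin (uS D (comU e)) K) {r : ℝ}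
    (hlin : ∀ c ∈ K, LinB r (c : A → A) ∧ Modu e (c : A → A)) {i₀ : I} {x : A}
    {v v' : Finset I} (hd : Disjoint v v') {w : A} (hw : TreeW e v v' w) {s : ℝ}
    (hs : TreeBd τ e i₀ K x (v ∪ v') s) {a V a' : A} (hl : TreeLoc e i₀ v a V)
    (h1 : treeR e v * a' = a') (h2 : a' * treeR e v' = a') (h3 : ‖a'‖ ≤ 1)
    {c₁ c₂ : Fl D} (hc₁ : c₁ ∈ K) (hc₂ : c₂ ∈ K) :
    τ.n2 (star V * c₁ ((a + a') * x) + star V * c₂ ((a - a') * x)) ≤ 2 * s := by
  have hrv := treeR_idem he v
  have key : ∀ g₁ ∈ comU e, ∀ g₂ ∈ comU e,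
      τ.n2 (star V * (uact g₁ c₁) ((a + a') * x) + star V * (uact g₂ c₁) ((a - a') * x))
        ≤ 2 * s := by
    intro g₁ hg₁ g₂ hg₂
    have hu₁ := (Unitary.mem_iff.1 hg₁.1).1
    have hu₂ := (Unitary.mem_iff.1 hg₂.1).1
    have hR : ∀ g ∈ comU e, ∀ y, treeR e v * y = y → treeR e v * (g * y) = g * y := by
      intro g hg y hy
      rw [← mul_assoc, ← (TreeM.treeR v).comm g hg, mul_assoc, hy]
    have hp : treeR e v * (a + a') = a + a' := by rw [mul_add, hl.l, h1]
    have hm : treeR e v * (a - a') = a - a' := by rw [mul_sub, hl.l, h1]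
    set t : ℝ := (Real.sqrt 2)⁻¹ with ht
    have ht2 : t * t = 2⁻¹ := by
      rw [ht, ← mul_inv, Real.mul_self_sqrt (by norm_num)]
    have hU : ∀ p q, treeR e v * p = p → treeR e (v ∪ v') * (p + w * q) = p + w * q := by
      intro p q hp
      have h4 : treeR e v' * p = 0 := by
        rw [← hp, ← mul_assoc, treeR_disj he hd.symm, zero_mul]
      rw [treeR_union hd, add_mul, mul_add, mul_add, hp, h4, ← mul_assoc, ← mul_assoc, hw.z, hw.l]
      simp
    have hloc : TreeLoc e i₀ (v ∪ v') (t • (g₁ * (a + a') + w * (g₂ * (a - a'))))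
        (t • (g₁ * V + w * (g₂ * V))) := by
      have ha : a * treeR e (v ∪ v') = a := by
        rw [treeR_union hd, mul_add, hl.r, ← hl.r, mul_assoc, treeR_disj he hd]; simp [hl.r]
      have ha' : a' * treeR e (v ∪ v') = a' := by
        rw [treeR_union hd, mul_add, h2, ← h2, mul_assoc, treeR_disj he hd.symm]; simp [h2]
      refine ⟨by rw [mul_smul_comm, hU _ _ (hR _ hg₁ _ hp)], ?_, ?_,
        by rw [mul_smul_comm, hU _ _ (hR _ hg₁ _ hl.V1)], ?_⟩
      · simp only [smul_mul_assoc, add_mul, sub_mul, mul_assoc, ha, ha']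
      · have h4 : star (t • (g₁ * (a + a') + w * (g₂ * (a - a')))) *
            (t • (g₁ * (a + a') + w * (g₂ * (a - a')))) = star a * a + star a' * a' := by
          rw [star_smul, smul_mul_smul_comm, star_trivial, ht2,
            hw.pair he (hR _ hg₁ _ hp) (hR _ hg₁ _ hp) (hR _ hg₂ _ hm), star_mul, star_mul,
            mul_assoc, mul_assoc, ← mul_assoc (star g₁), ← mul_assoc (star g₂), hu₁, hu₂,
            one_mul, one_mul]
          simp only [star_add, star_sub, add_mul, mul_add, sub_mul, mul_sub]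
          module
        have h5 : (star a * a) * (star a' * a') = 0 := by
          have h6 : star a' = treeR e v' * star a' := by
            conv_lhs => rw [← h2, star_mul, treeR_star he]
          rw [h6, ← hl.r]
          simp only [mul_assoc]
          rw [← mul_assoc (treeR e v) (treeR e v'), treeR_disj he hd]
          simp
        have h6 := (IsSelfAdjoint.star_mul_self a).norm_add_eq_max
          (IsSelfAdjoint.star_mul_self a') h5
        rw [← h4, CStarRing.norm_star_mul_self, CStarRing.norm_star_mul_self,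
          CStarRing.norm_star_mul_self] at h6
        have h7 : max (‖a‖ * ‖a‖) (‖a'‖ * ‖a'‖) ≤ 1 :=
          max_le (by nlinarith [hl.n, norm_nonneg a]) (by nlinarith [norm_nonneg a'])
        nlinarith [norm_nonneg (t • (g₁ * (a + a') + w * (g₂ * (a - a'))))]
      · rw [star_smul, smul_mul_smul_comm, star_trivial, ht2,
          hw.pair he (hR _ hg₁ _ hl.V1) (hR _ hg₁ _ hl.V1) (hR _ hg₂ _ hl.V1), star_mul, star_mul,
          mul_assoc, mul_assoc, ← mul_assoc (star g₁), ← mul_assoc (star g₂), hu₁, hu₂,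
          one_mul, hl.V2]
        module
    have h4 := hs c₁ hc₁ _ _ hloc
    obtain ⟨hL, hM⟩ := hlin c₁ hc₁
    have hpass : ∀ y, treeR e v * y = y → treeR e v * c₁ (y * x) = c₁ (y * x) := by
      intro y hy
      rw [← (TreeM.treeR v).pass _ hL.lin hM, ← mul_assoc, hy]
    have h5 : c₁ (t • (g₁ * (a + a') + w * (g₂ * (a - a'))) * x) =
        t • (c₁ (g₁ * (a + a') * x) + w * c₁ (g₂ * (a - a') * x)) := by
      rw [smul_mul_assoc, ← Complex.coe_smul, hL.lin.map_smul, add_mul, hL.lin.map_add,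
        mul_assoc w, hw.m.pass _ hL.lin hM, Complex.coe_smul]
    rw [h5, star_smul, smul_mul_smul_comm, star_trivial, ht2,
      hw.pair he (hR _ hg₁ _ hl.V1) (hpass _ (hR _ hg₁ _ hp)) (hpass _ (hR _ hg₂ _ hm)),
      τ.n2_real_smul, abs_of_pos (by norm_num)] at h4
    simp only [star_mul, mul_assoc] at h4
    simp only [uact_apply, mul_assoc]
    linarith
  have step1 : ∀ g₂ ∈ comU e,
      τ.n2 (star V * (uact g₂ c₁) ((a - a') * x) + star V * c₁ ((a + a') * x)) ≤ 2 * s := by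
    intro g₂ hg₂
    have := key 1 (one_mem_comU e) g₂ hg₂
    rwa [uact_one, add_comm] at this
  have := tree_orbit hτ hK hc₁ _ _ _ _ step1 c₂ hc₂
  rwa [add_comm] at this

/-- The parallelogram form of the joint bound. -/
lemma tree_joint_sq [DecidableEq I] (he : IsMU e) {τ : TrState A} (hτ : τ.clm ∈ D.Ω)
    {K : Set (Fl D)} (hK : IsMin (uS D (comU e)) K) {r : ℝ}
    (hlin : ∀ c ∈ K, LinB r (c : A → A) ∧ Modu e (c : A → A)) {i₀ : I} {x : A}
    {v v' : Finset I} (hd : Disjoint v v') {w : A} (hw : TreeW e v v' w) {s : ℝ}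
    (hs : TreeBd τ e i₀ K x (v ∪ v') s) {a V : A} (hl : TreeLoc e i₀ v a V)
    {c₁ c₂ : Fl D} (hc₁ : c₁ ∈ K) (hc₂ : c₂ ∈ K) :
    τ.n2 (star V * (c₁ (a * x) + c₂ (a * x))) ^ 2 +
      τ.n2 (star V * (star w * (c₁ x - c₂ x))) ^ 2 ≤ 4 * s ^ 2 := by
  have h1 : treeR e v * star w = star w := by
    have := congrArg star hw.r
    rwa [star_mul, treeR_star he] at this
  have h2 : star w * treeR e v' = star w := by
    have := congrArg star hw.l
    rwa [star_mul, treeR_star he] at this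
  have h3 := tree_joint he hτ hK hlin hd hw hs hl h1 h2 (hw.norm_star_le he) hc₁ hc₂
  have h4 := tree_joint he hτ hK hlin hd hw hs hl (a' := -star w) (by rw [mul_neg, h1])
    (by rw [neg_mul, h2]) (by rw [norm_neg]; exact hw.norm_star_le he) hc₁ hc₂
  obtain ⟨hL₁, hM₁⟩ := hlin c₁ hc₁
  obtain ⟨hL₂, hM₂⟩ := hlin c₂ hc₂
  have h5 := τ.n2_parallelogram (star V * (c₁ (a * x) + c₂ (a * x)))
    (star V * (star w * (c₁ x - c₂ x)))
  have e1 : star V * (c₁ (a * x) + c₂ (a * x)) + star V * (star w * (c₁ x - c₂ x)) =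
      star V * c₁ ((a + star w) * x) + star V * c₂ ((a - star w) * x) := by
    rw [add_mul, sub_mul, hL₁.lin.map_add, hL₂.lin.map_sub, hw.ms.pass _ hL₁.lin hM₁,
      hw.ms.pass _ hL₂.lin hM₂]
    noncomm_ring
  have e2 : star V * (c₁ (a * x) + c₂ (a * x)) - star V * (star w * (c₁ x - c₂ x)) =
      star V * c₁ ((a + -star w) * x) + star V * c₂ ((a - -star w) * x) := by
    rw [sub_neg_eq_add, ← sub_eq_add_neg, add_mul, sub_mul, hL₁.lin.map_sub, hL₂.lin.map_add,
      hw.ms.pass _ hL₁.lin hM₁, hw.ms.pass _ hL₂.lin hM₂]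
    noncomm_ring
  rw [e1, e2] at h5
  have h6 := pow_le_pow_left₀ (τ.n2_nonneg _) h3 2
  have h7 := pow_le_pow_left₀ (τ.n2_nonneg _) h4 2
  nlinarith

/-- The stabiliser group used for the Dixmier average. -/
def treeG (e : I → I → A) (K : Set (Fl D)) (v : Finset I) : Set A :=
  {u | u ∈ unitary A ∧ u * treeR e v = treeR e v * u ∧ (∀ c ∈ K, uact u c ∈ K) ∧
    ∀ c ∈ K, uact (star u) c ∈ K}

lemma treeG_one (K : Set (Fl D)) (v : Finset I) : (1 : A) ∈ treeG e K v :=
  ⟨one_mem _, by simp, fun c hc => by rwa [uact_one], fun c hc => by rwa [star_one, uact_one]⟩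

lemma treeG_mul {K : Set (Fl D)} {v : Finset I} {p q : A} (hp : p ∈ treeG e K v)
    (hq : q ∈ treeG e K v) : p * q ∈ treeG e K v :=
  ⟨mul_mem hp.1 hq.1, by rw [mul_assoc, hq.2.1, ← mul_assoc, hp.2.1, mul_assoc],
    fun c hc => by rw [← uact_uact]; exact hq.2.2.1 _ (hp.2.2.1 c hc),
    fun c hc => by rw [star_mul, ← uact_uact]; exact hp.2.2.2 _ (hq.2.2.2 c hc)⟩

lemma treeG_star (he : IsMU e) {K : Set (Fl D)} {v : Finset I} {p : A} (hp : p ∈ treeG e K v) :
    star p ∈ treeG e K v := by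
  refine ⟨Unitary.star_mem hp.1, ?_, hp.2.2.2, fun c hc => by rw [star_star]; exact hp.2.2.1 c hc⟩
  have := congrArg star hp.2.1
  rw [star_mul, star_mul, treeR_star he] at this
  exact this.symm

lemma treeG_comU {K : Set (Fl D)} (hK : IsMin (uS D (comU e)) K) (v : Finset I) {g : A}
    (hg : g ∈ comU e) : g ∈ treeG e K v :=
  ⟨hg.1, (TreeM.treeR v).comm g hg, fun _ hc => hK.toGood.uact_mem hg hc,
    fun _ hc => hK.toGood.uact_mem (star_mem_comU hg) hc⟩

lemma treeG_symm {K : Set (Fl D)} {r : ℝ}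
    (hlin : ∀ c ∈ K, LinB r (c : A → A) ∧ Modu e (c : A → A)) (v : Finset I) {g : A}
    (hm : TreeM e g) (h1 : star g = g) (h2 : g * g = 1) (h3 : g * treeR e v = treeR e v * g) :
    g ∈ treeG e K v := by
  have h4 : ∀ c ∈ K, uact g c ∈ K := by
    intro c hc
    have : uact g c = c := by
      ext y
      rw [uact_apply, hm.pass _ (hlin c hc).1.lin (hlin c hc).2, h1, ← mul_assoc, h2, one_mul]
    rwa [this]
  exact ⟨Unitary.mem_iff.2 ⟨by rw [h1, h2], by rw [h1, h2]⟩, h3, h4, by rw [h1]; exact h4⟩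

/-- Elements that may be moved cyclically under the functional `t`. -/
def treeC (t : A →ₗ[ℂ] ℂ) : Subalgebra ℂ A where
  carrier := {a | ∀ b, t (a * b) = t (b * a)}
  mul_mem' {a a'} ha ha' b := by
    rw [mul_assoc, ha, mul_assoc, ha', mul_assoc]
  add_mem' {a a'} ha ha' b := by rw [add_mul, mul_add, map_add, map_add, ha, ha']
  algebraMap_mem' z b := by rw [Algebra.commutes]

lemma treeC_commutant (he : IsMU e) {t : A →ₗ[ℂ] ℂ} (ht : ∀ g ∈ comU e, g ∈ treeC t) {p : A}
    (hp : ∀ i j, p * e i j = e i j * p) : p ∈ treeC t := by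
  let P : StarSubalgebra ℂ A := StarSubalgebra.centralizer ℂ {y | ∃ i j, y = e i j}
  haveI : IsClosed (P : Set A) := by
    rw [StarSubalgebra.coe_centralizer]; exact Set.isClosed_centralizer _
  have hmem : ∀ y : A, y ∈ P ↔ ∀ i j, y * e i j = e i j * y := by
    intro y
    rw [StarSubalgebra.mem_centralizer_iff]
    constructor
    · exact fun h i j => (h _ ⟨i, j, rfl⟩).1.symm
    · rintro h _ ⟨i, j, rfl⟩
      exact ⟨(h i j).symm, by rw [he.star_eq]; exact (h j i).symm⟩
  obtain ⟨u, c, hu, -⟩ := CStarAlgebra.exists_sum_four_unitary (⟨p, (hmem p).2 hp⟩ : P)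
  have h1 : p = ∑ i, c i • ((u i : P) : A) := by
    have := congrArg (fun y : P => (y : A)) hu
    simpa using this
  rw [h1]
  refine Subalgebra.sum_mem _ fun i _ => Subalgebra.smul_mem _ (ht _ ⟨?_, (hmem _).1 (u i : P).2⟩) _
  have h2 := Unitary.mem_iff.1 (u i).2
  exact Unitary.mem_iff.2 ⟨congrArg (fun y : P => (y : A)) h2.1,
    congrArg (fun y : P => (y : A)) h2.2⟩

lemma treeC_unit (he : IsMU e) {K : Set (Fl D)} {r : ℝ}
    (hlin : ∀ c ∈ K, LinB r (c : A → A) ∧ Modu e (c : A → A)) {v : Finset I} {t : A →ₗ[ℂ] ℂ}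
    (ht : ∀ g ∈ treeG e K v, g ∈ treeC t) {a b : I} (ha : a ∈ v) (hb : b ∈ v) :
    e a b ∈ treeC t := by
  have hdiag : ∀ a ∈ v, e a a ∈ treeC t := by
    intro a ha
    have h1 : 1 - e a a - e a a ∈ treeG e K v := by
      refine treeG_symm hlin v ((TreeM.one.sub (TreeM.unit a a)).sub (TreeM.unit a a)) ?_ ?_ ?_
      · simp [he.star_eq]
      · simp [mul_sub, sub_mul, he.mul_same]
      · simp [mul_sub, sub_mul, treeR_mul he ha, mul_treeR he ha]
    have h2 : e a a = (2⁻¹ : ℂ) • (1 - (1 - e a a - e a a)) := by module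
    rw [h2]
    exact Subalgebra.smul_mem _ (Subalgebra.sub_mem _ (Subalgebra.one_mem _) (ht _ h1)) _
  by_cases hab : a = b
  · subst hab; exact hdiag a ha
  have hba : b ≠ a := fun h => hab h.symm
  have h1 : e a b + e b a + 1 - e a a - e b b ∈ treeG e K v := by
    refine treeG_symm hlin v (((((TreeM.unit a b).add (TreeM.unit b a)).add TreeM.one).sub
      (TreeM.unit a a)).sub (TreeM.unit b b)) ?_ ?_ ?_
    · simp only [star_sub, star_add, he.star_eq, star_one]; abel
    · simp only [mul_sub, sub_mul, mul_add, add_mul, he.mul_same, he.mul_ne _ _ _ _ hab,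
        he.mul_ne _ _ _ _ hba, mul_one, one_mul]
      abel
    · simp only [mul_sub, sub_mul, mul_add, add_mul, treeR_mul he ha, mul_treeR he ha,
        treeR_mul he hb, mul_treeR he hb, mul_one, one_mul]
  have h2 : e a b = e a a * (e a b + e b a + 1 - e a a - e b b) := by
    simp only [mul_sub, mul_add, he.mul_same, he.mul_ne _ _ _ _ hab, mul_one]
    abel
  rw [h2]
  exact Subalgebra.mul_mem _ (hdiag a ha) (ht _ h1)

lemma tree_t_loc [Fintype I] (he : IsMU e) {K : Set (Fl D)} (hK : IsMin (uS D (comU e)) K) {r : ℝ}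
    (hlin : ∀ c ∈ K, LinB r (c : A → A) ∧ Modu e (c : A → A)) {v : Finset I} {t : A →ₗ[ℂ] ℂ}
    (ht : ∀ g ∈ treeG e K v, g ∈ treeC t) {i₀ : I} {a V : A} (hl : TreeLoc e i₀ v a V) :
    (v.card : ℂ) * t (V * star V) = t (treeR e v) := by
  have h1 : ∀ i ∈ v, t (V * star V) = t (e i i) := by
    intro i hi
    have hmem : V * e i₀ i ∈ treeC t := by
      have h2 : V * e i₀ i = ∑ j ∈ v, e j i * ∑ k, e k j * (V * e i₀ i) * e i k := by
        conv_lhs => rw [← hl.V1, treeR, Finset.sum_mul, Finset.sum_mul]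
        refine Finset.sum_congr rfl fun j _ => ?_
        rw [Finset.mul_sum, Finset.sum_eq_single i]
        · rw [← mul_assoc, ← mul_assoc, he.mul_same, mul_assoc, mul_assoc, mul_assoc, he.mul_same]
        · intro k _ hk
          rw [← mul_assoc, ← mul_assoc, he.mul_ne _ _ _ _ (Ne.symm hk)]
          simp
        · exact fun h => absurd (Finset.mem_univ _) h
      rw [h2]
      refine Subalgebra.sum_mem _ fun j hj => Subalgebra.mul_mem _ (treeC_unit he hlin ht hj hi)
        (treeC_commutant he (fun g hg => ht g (treeG_comU hK v hg)) fun p q => ?_)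
      rw [Finset.sum_mul, Finset.mul_sum, Finset.sum_eq_single p, Finset.sum_eq_single q]
      · rw [mul_assoc, he.mul_same, ← mul_assoc (e p q), ← mul_assoc (e p q), he.mul_same]
      · intro k _ hk
        rw [← mul_assoc, ← mul_assoc, he.mul_ne _ _ _ _ (Ne.symm hk)]
        simp
      · exact fun h => absurd (Finset.mem_univ _) h
      · intro k _ hk
        rw [mul_assoc, he.mul_ne _ _ _ _ hk, mul_zero]
      · exact fun h => absurd (Finset.mem_univ _) h
    have h3 := hmem (star (V * e i₀ i))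
    rw [star_mul, he.star_eq, mul_assoc, ← mul_assoc (e i₀ i), he.mul_same, ← mul_assoc,
      hl.mul_e he, mul_assoc, ← mul_assoc (star V), hl.V2, he.mul_same, he.mul_same] at h3
    exact h3
  rw [treeR, map_sum, ← Finset.sum_congr rfl h1]
  simp

/-- One step of the tree. -/
lemma tree_step (hD : DixStmt.{u}) [Fintype I] [DecidableEq I] (he : IsMU e) {τ : TrState A}
    (hτ : τ.clm ∈ D.Ω) {K : Set (Fl D)} (hK : IsMin (uS D (comU e)) K) {r : ℝ}
    (hlin : ∀ c ∈ K, LinB r (c : A → A) ∧ Modu e (c : A → A)) {i₀ : I} {x : A}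
    {v v' : Finset I} (hd : Disjoint v v') (hc : v.card = v'.card) {s n : ℝ}
    (hs : TreeBd τ e i₀ K x (v ∪ v') s) (hn0 : 0 ≤ n)
    (hn : ∀ n', TreeBd τ e i₀ K x v n' → n ≤ n')
    {c₁ c₂ : Fl D} (hc₁ : c₁ ∈ K) (hc₂ : c₂ ∈ K) :
    τ.n2 (treeR e v' * (c₁ x - c₂ x)) ^ 2 ≤ 4 * v.card * (s ^ 2 - n ^ 2) := by
  obtain ⟨w, hw⟩ := exists_treeW he hd hc
  obtain ⟨Q, -, -, hQ1, hQ2, hQ3⟩ := hD A τ (treeG e K v) (fun _ h => h.1) (treeG_one K v)
    (fun _ hp _ hq => treeG_mul hp hq) (fun _ hp => treeG_star he hp)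
  set β := star w * (c₁ x - c₂ x) with hβ
  have hβ2 : (τ (β * star β * treeR e v)).re = τ.n2 (treeR e v' * (c₁ x - c₂ x)) ^ 2 := by
    have h1 : treeR e v * star w = star w := by
      have := congrArg star hw.r
      rwa [star_mul, treeR_star he] at this
    have h2 : treeR e v * β = β := by rw [hβ, ← mul_assoc, h1]
    rw [τ.tr_cyc, h2, τ.tr_comm, τ.n2_sq, hβ, star_mul, star_star, star_mul, treeR_star he,
      mul_assoc, mul_assoc, ← mul_assoc w, hw.ws, ← mul_assoc (treeR e v'), treeR_idem he]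
  refine le_of_forall_pos_le_add fun ε hε => ?_
  have hden : 0 < (v.card : ℝ) * (8 * n + 1) + 1 := by positivity
  set δ := ε / ((v.card : ℝ) * (8 * n + 1) + 1) with hδ
  have hδ0 : 0 < δ := by positivity
  obtain ⟨ι, _, wt, u, hw0, hw1, hu, hav⟩ := hQ3 (β * star β) δ hδ0
  have hmid : (2⁻¹ : ℝ) • c₁ + (2⁻¹ : ℝ) • c₂ ∈ K :=
    hK.cvx hc₁ hc₂ (by norm_num) (by norm_num) (by norm_num)
  have hbar : ∑ k, wt k • uact (u k) ((2⁻¹ : ℝ) • c₁ + (2⁻¹ : ℝ) • c₂) ∈ K :=
    hK.cvx.sum_mem (fun k _ => hw0 k) hw1 fun k _ => (hu k).2.2.1 _ hmid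
  have hex : ∃ a V, TreeLoc e i₀ v a V ∧ n - δ < τ.n2 (star V *
      (∑ k, wt k • uact (u k) ((2⁻¹ : ℝ) • c₁ + (2⁻¹ : ℝ) • c₂)) (a * x)) := by
    by_contra hcon
    push Not at hcon
    have := hn _ (treeBd_of_one hτ hK hbar hcon)
    linarith
  obtain ⟨a, V, hl, hlt⟩ := hex
  let f : ι → ℝ := fun k =>
    τ.n2 (star (u k * V) * (c₁ (u k * a * x) + c₂ (u k * a * x))) / 2
  have hf0 : ∀ k, 0 ≤ f k := fun k => div_nonneg (τ.n2_nonneg _) (by norm_num)
  have h1 : τ.n2 (star V *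
      (∑ k, wt k • uact (u k) ((2⁻¹ : ℝ) • c₁ + (2⁻¹ : ℝ) • c₂)) (a * x)) ≤ ∑ k, wt k * f k := by
    rw [Fl.sum_apply, Finset.mul_sum]
    refine (τ.n2_sum_le _ _).trans (Finset.sum_le_sum fun k _ => le_of_eq ?_)
    simp only [Fl.smul_apply, uact_apply, Fl.add_apply, ← smul_add, mul_smul_comm,
      τ.n2_real_smul, abs_of_nonneg (hw0 k), f, star_mul, mul_assoc]
    rw [abs_of_pos (by norm_num)]
    ring
  have h2 : (∑ k, wt k * f k) ^ 2 ≤ ∑ k, wt k * f k ^ 2 := by
    have := Finset.sum_sq_le_sum_mul_sum_of_sq_le_mul Finset.univ (r := fun k => wt k * f k)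
      (f := wt) (g := fun k => wt k * f k ^ 2) (fun k _ => hw0 k)
      (fun k _ => mul_nonneg (hw0 k) (sq_nonneg _)) (fun k _ => le_of_eq (by ring))
    rwa [hw1, one_mul] at this
  have h3 : ∀ k, 4 * f k ^ 2 + (τ (star (u k) * (β * star β) * u k * (V * star V))).re
      ≤ 4 * s ^ 2 := by
    intro k
    have h4 := tree_joint_sq he hτ hK hlin hd hw hs (hl.mul_unitary (hu k).1 (hu k).2.1) hc₁ hc₂
    have h5 : τ.n2 (star (u k * V) * (star w * (c₁ x - c₂ x))) ^ 2 =
        (τ (star (u k) * (β * star β) * u k * (V * star V))).re := by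
      rw [← hβ, ← τ.n2_star, τ.n2_sq, star_star, ← mul_assoc _ V, τ.tr_comm _ (star V)]
      simp only [star_mul, star_star, mul_assoc]
    rw [h5] at h4
    simp only [f]
    linarith
  have h4 : (τ ((∑ k, wt k • (star (u k) * (β * star β) * u k)) * (V * star V))).re =
      ∑ k, wt k * (τ (star (u k) * (β * star β) * u k * (V * star V))).re := by
    rw [Finset.sum_mul, τ.tr_sum, Complex.re_sum]
    refine Finset.sum_congr rfl fun k _ => ?_
    rw [smul_mul_assoc, τ.tr_real_smul, Complex.re_ofReal_mul]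
  have h5 : 4 * ∑ k, wt k * f k ^ 2 +
      ∑ k, wt k * (τ (star (u k) * (β * star β) * u k * (V * star V))).re ≤ 4 * s ^ 2 := by
    calc _ = ∑ k, wt k * (4 * f k ^ 2 +
          (τ (star (u k) * (β * star β) * u k * (V * star V))).re) := by
          rw [Finset.mul_sum, ← Finset.sum_add_distrib]
          exact Finset.sum_congr rfl fun k _ => by ring
      _ ≤ ∑ k, wt k * (4 * s ^ 2) :=
          Finset.sum_le_sum fun k _ => mul_le_mul_of_nonneg_left (h3 k) (hw0 k)
      _ = _ := by rw [← Finset.sum_mul, hw1, one_mul]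
  have h6 : n ^ 2 - 2 * δ * n ≤ (∑ k, wt k * f k) ^ 2 := by
    have h7 : n - δ ≤ ∑ k, wt k * f k := (hlt.le.trans h1)
    have h8 : 0 ≤ ∑ k, wt k * f k := Finset.sum_nonneg fun k _ => mul_nonneg (hw0 k) (hf0 k)
    rcases le_total 0 (n - δ) with h9 | h9
    · nlinarith
    · nlinarith
  have hVV : τ.n2 (V * star V) ≤ 1 := by
    refine (τ.n2_le_norm _).trans ?_
    rw [CStarRing.norm_self_mul_star, ← CStarRing.norm_star_mul_self, hl.V2]
    exact IsStarProjection.norm_le _ ⟨he.mul_same _ _ _, he.star_eq _ _⟩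
  have h7 : (Q (β * star β) (V * star V)).re ≤ 4 * (s ^ 2 - n ^ 2) + δ * (8 * n + 1) := by
    have h8 := hav (V * star V)
    have h9 := (abs_le.1 ((Complex.abs_re_le_norm _).trans h8)).1
    rw [Complex.sub_re, h4] at h9
    have h10 : δ * τ.n2 (V * star V) ≤ δ := mul_le_of_le_one_right hδ0.le hVV
    nlinarith
  have h8 := tree_t_loc he hK hlin (t := Q (β * star β))
    (fun g hg b => hQ1 _ g hg b) hl
  rw [hQ2 _ _ (fun g hg => hg.2.1)] at h8
  have h9 := congrArg Complex.re h8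
  rw [hβ2, ← Complex.ofReal_natCast, Complex.re_ofReal_mul] at h9
  rw [← h9]
  have h10 : (v.card : ℝ) * (δ * (8 * n + 1)) ≤ ε := by
    have : δ * ((v.card : ℝ) * (8 * n + 1) + 1) = ε := by rw [hδ]; field_simp
    nlinarith
  have h11 : (0 : ℝ) ≤ v.card := Nat.cast_nonneg _
  nlinarith [mul_le_mul_of_nonneg_left h7 h11]

/-- The unitary case. -/
lemma tree_unitary (hD : DixStmt.{u}) [Fintype I] {τ : TrState A} (hτ : τ.clm ∈ D.Ω) {T : ℕ}
    (hT : Fintype.card I = 2 ^ T) (hm : TrMU τ e) {K : Set (Fl D)}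
    (hK : IsMin (uS D (comU e)) K) {r : ℝ}
    (hlin : ∀ c ∈ K, LinB r (c : A → A) ∧ Modu e (c : A → A)) {x : A} (hx : x ∈ unitary A)
    {c₁ c₂ : Fl D} (hc₁ : c₁ ∈ K) (hc₂ : c₂ ∈ K) :
    (T : ℝ) * τ.n2 (c₁ x - c₂ x) ^ 2 ≤ 4 * r ^ 2 := by
  classical
  have he := hm.mu
  have hne : Nonempty I := Fintype.card_pos_iff.1 (by rw [hT]; positivity)
  obtain ⟨i₀⟩ := hne
  have hr : 0 ≤ r := by
    have := (norm_nonneg _).trans ((hlin c₁ hc₁).1.bd 1)
    rwa [τ.norm_one_eq, mul_one] at this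
  have he0 : (2 : ℝ) ^ T * (τ (e i₀ i₀)).re = 1 := by
    have h1 : ∀ i, τ (e i i) = τ (e i₀ i₀) := fun i => by
      rw [← he.mul_same i i₀ i, τ.tr_comm, he.mul_same]
    have h2 := hm.tr
    rw [τ.tr_sum, Finset.sum_congr rfl fun i _ => h1 i] at h2
    simp only [Finset.sum_const, Finset.card_univ, hT, nsmul_eq_mul] at h2
    have h3 := congrArg Complex.re h2
    rw [← Complex.ofReal_natCast, Complex.re_ofReal_mul] at h3
    simpa using h3
  set ρ := Real.sqrt (τ (e i₀ i₀)).re with hρ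
  have hρ2 : ρ ^ 2 = (τ (e i₀ i₀)).re := Real.sq_sqrt (by
    by_contra hc
    push Not at hc
    have : (0 : ℝ) < 2 ^ T := by positivity
    nlinarith)
  have hbd : ∀ v, TreeBd τ e i₀ K x v (ρ * r) := by
    intro v c hc a V hl
    refine (τ.n2_mul_le_right _ _).trans ?_
    have h1 : τ.n2 (star V) = ρ := by
      rw [τ.n2_star, hρ, ← hl.V2, ← τ.n2_sq, Real.sqrt_sq (τ.n2_nonneg _)]
    have h2 : ‖c (a * x)‖ ≤ r := by
      refine ((hlin c hc).1.bd _).trans ?_
      rw [CStarRing.norm_mul_mem_unitary _ hx]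
      exact mul_le_of_le_one_right hr hl.n
    rw [h1]
    exact mul_le_mul_of_nonneg_left h2 (Real.sqrt_nonneg _)
  -- the optimal bounds
  let N : Finset I → ℝ := fun v => sInf {s | 0 ≤ s ∧ TreeBd τ e i₀ K x v s}
  have hNne : ∀ v, {s | 0 ≤ s ∧ TreeBd τ e i₀ K x v s}.Nonempty := fun v =>
    ⟨ρ * r, mul_nonneg (Real.sqrt_nonneg _) hr, hbd v⟩
  have hNb : ∀ v, BddBelow {s | 0 ≤ s ∧ TreeBd τ e i₀ K x v s} := fun v => ⟨0, fun _ h => h.1⟩
  have hN0 : ∀ v, 0 ≤ N v := fun v => le_csInf (hNne v) fun _ h => h.1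
  have hNbd : ∀ v, TreeBd τ e i₀ K x v (N v) := fun v c hc a V hl =>
    le_csInf (hNne v) fun _ h => h.2 c hc a V hl
  have hNle : ∀ v : Finset I, v.Nonempty → ∀ n', TreeBd τ e i₀ K x v n' → N v ≤ n' := by
    rintro v ⟨j, hj⟩ n' hn'
    refine csInf_le (hNb v) ⟨?_, hn'⟩
    refine (τ.n2_nonneg _).trans (hn' c₁ hc₁ 0 (e j i₀) ⟨by simp, by simp, by simp,
      treeR_mul he hj _, by rw [he.star_eq, he.mul_same]⟩)
  have hind : ∀ t : ℕ, ∀ v : Finset I, v.card = 2 ^ t →
      (t : ℝ) * τ.n2 (treeR e v * (c₁ x - c₂ x)) ^ 2 ≤ 4 * 2 ^ t * N v ^ 2 := by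
    intro t
    induction t with
    | zero => intro v _; simp only [Nat.cast_zero, zero_mul]; positivity
    | succ t ih =>
      intro u hu
      obtain ⟨v, hvu, hv⟩ := Finset.exists_subset_card_eq (s := u) (n := 2 ^ t)
        (by rw [hu, pow_succ]; omega)
      have hv' : (u \ v).card = 2 ^ t := by
        rw [Finset.card_sdiff_of_subset hvu, hu, hv, pow_succ]; omega
      have hd : Disjoint v (u \ v) := Finset.disjoint_sdiff
      have hun : v ∪ (u \ v) = u := Finset.union_sdiff_of_subset hvu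
      have hvne : v.Nonempty := Finset.card_pos.1 (by rw [hv]; positivity)
      have hvne' : (u \ v).Nonempty := Finset.card_pos.1 (by rw [hv']; positivity)
      have h1 := tree_step hD he hτ hK hlin hd (hv.trans hv'.symm) (s := N u)
        (by rw [hun]; exact hNbd u) (hN0 v) (hNle v hvne) hc₁ hc₂
      have h2 := tree_step hD he hτ hK hlin hd.symm (hv'.trans hv.symm)
        (by rw [Finset.union_comm, hun]; exact hNbd u) (hN0 _) (hNle _ hvne') hc₁ hc₂
      have h3 := ih v hv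
      have h4 := ih _ hv'
      have h5 : τ.n2 (treeR e u * (c₁ x - c₂ x)) ^ 2 = τ.n2 (treeR e v * (c₁ x - c₂ x)) ^ 2 +
          τ.n2 (treeR e (u \ v) * (c₁ x - c₂ x)) ^ 2 := by
        conv_lhs => rw [← hun, treeR_union hd, add_mul, τ.n2_add_sq]
        rw [star_mul, treeR_star he, mul_assoc, ← mul_assoc (treeR e v), treeR_disj he hd]
        simp
      rw [hv] at h1
      rw [hv'] at h2
      push_cast at h1 h2 ⊢
      rw [h5, pow_succ (2:ℝ) t]
      nlinarith
  have h1 := hind T Finset.univ (by rw [Finset.card_univ, hT])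
  have h2 : τ.n2 (treeR e Finset.univ * (c₁ x - c₂ x)) = τ.n2 (c₁ x - c₂ x) := by
    have h3 : τ.n2 (1 - treeR e Finset.univ) = 0 := by
      have h4 : τ.n2 (1 - treeR e Finset.univ) ^ 2 = 0 := by
        rw [τ.n2_sq, star_sub, star_one, treeR_star he, sub_mul, mul_sub, mul_sub,
          treeR_idem he]
        simp only [mul_one, one_mul, sub_self, sub_zero]
        rw [τ.tr_sub, τ.tr_one]
        have := hm.tr
        unfold treeR
        rw [this]
        simp
      exact pow_eq_zero_iff (by norm_num) |>.1 h4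
    have h4 := τ.abs_n2_sub_n2_le (c₁ x - c₂ x) (treeR e Finset.univ * (c₁ x - c₂ x))
    have h5 : c₁ x - c₂ x - treeR e Finset.univ * (c₁ x - c₂ x) =
        (1 - treeR e Finset.univ) * (c₁ x - c₂ x) := by rw [sub_mul, one_mul]
    rw [h5] at h4
    have h6 := τ.n2_mul_le_right (1 - treeR e Finset.univ) (c₁ x - c₂ x)
    rw [h3, zero_mul] at h6
    have := abs_nonpos_iff.1 (h4.trans h6)
    linarith
  rw [h2] at h1
  have h3 : N Finset.univ ≤ ρ * r := hNle _ ⟨i₀, Finset.mem_univ _⟩ _ (hbd _)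
  have h4 : N Finset.univ ^ 2 ≤ (ρ * r) ^ 2 := pow_le_pow_left₀ (hN0 _) h3 2
  calc _ ≤ 4 * 2 ^ T * N Finset.univ ^ 2 := h1
    _ ≤ 4 * 2 ^ T * (ρ * r) ^ 2 := by gcongr
    _ = 4 * r ^ 2 * (2 ^ T * ρ ^ 2) := by ring
    _ = _ := by rw [hρ2, he0, mul_one]

end Alg

theorem tree (hD : DixStmt.{u}) : TreeStmt.{u} := by
  intro A _ D τ hτ I _ e T hT hm r K hK hlin c hc c' hc' x
  obtain ⟨u, z, hx, hz⟩ := CStarAlgebra.exists_sum_four_unitary x
  have hr : 0 ≤ r := by
    have := (norm_nonneg _).trans ((hlin c hc).1.bd 1)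
    rwa [τ.norm_one_eq, mul_one] at this
  have h1 : ∀ i, Real.sqrt T * τ.n2 (c (u i) - c' (u i)) ≤ 2 * r := by
    intro i
    have h2 := tree_unitary hD hτ hT hm hK hlin (u i).2 hc hc'
    refine (sq_le_sq₀ (mul_nonneg (Real.sqrt_nonneg _) (τ.n2_nonneg _)) (by positivity)).1 ?_
    rw [mul_pow, Real.sq_sqrt (Nat.cast_nonneg _)]
    linarith
  have h2 : c x - c' x = ∑ i, z i • (c (u i) - c' (u i)) := by
    have hl := (hlin c hc).1.lin
    have hl' := (hlin c' hc').1.lin
    have e1 : c x = ∑ i, z i • c (u i) := by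
      conv_lhs => rw [hx]
      rw [show c (∑ i, z i • (u i : A)) = (hl.mk' _) (∑ i, z i • (u i : A)) from rfl, map_sum]
      exact Finset.sum_congr rfl fun i _ => hl.map_smul _ _
    have e2 : c' x = ∑ i, z i • c' (u i) := by
      conv_lhs => rw [hx]
      rw [show c' (∑ i, z i • (u i : A)) = (hl'.mk' _) (∑ i, z i • (u i : A)) from rfl, map_sum]
      exact Finset.sum_congr rfl fun i _ => hl'.map_smul _ _
    rw [e1, e2, ← Finset.sum_sub_distrib]
    exact Finset.sum_congr rfl fun i _ => (smul_sub _ _ _).symm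
  have h3 : Real.sqrt T * τ.n2 (c x - c' x) ≤ 4 * r * ‖x‖ := by
    rw [h2]
    calc _ ≤ Real.sqrt T * ∑ i, τ.n2 (z i • (c (u i) - c' (u i))) :=
          mul_le_mul_of_nonneg_left (τ.n2_sum_le _ _) (Real.sqrt_nonneg _)
      _ = ∑ i, ‖z i‖ * (Real.sqrt T * τ.n2 (c (u i) - c' (u i))) := by
          rw [Finset.mul_sum]
          exact Finset.sum_congr rfl fun i _ => by rw [τ.n2_smul]; ring
      _ ≤ ∑ _i : Fin 4, ‖x‖ / 2 * (2 * r) :=
          Finset.sum_le_sum fun i _ => mul_le_mul (hz i) (h1 i)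
            (mul_nonneg (Real.sqrt_nonneg _) (τ.n2_nonneg _)) (by positivity)
      _ = _ := by simp; ring
  have h4 := pow_le_pow_left₀ (mul_nonneg (Real.sqrt_nonneg _) (τ.n2_nonneg _)) h3 2
  rw [mul_pow, Real.sq_sqrt (Nat.cast_nonneg _)] at h4
  nlinarith

end Crest.Agent.R121
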