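import Crest.Agent.R121.Base

/-! # Row 121: Markov–Kakutani, modular maps and the homogeneous type I case. -/

set_option autoImplicit false

open scoped Topology
open Filter

noncomputable section

namespace Crest.Agent.R121

universe u

open Crest.Agent.R124 (IsMU)

/-- A continuous linear self-map of a compact convex set has a fixed point. -/
theorem typeI_fix {X : Type*} [AddCommGroup X] [Module ℝ X] [TopologicalSpace X]
    [IsTopologicalAddGroup X] [ContinuousSMul ℝ X] [T2Space X] {K : Set X} (hne : K.Nonempty)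
    (hK : IsCompact K) (hc : Convex ℝ K) {θ : X → X} (h1 : Continuous θ) (h2 : IsLinearMap ℝ θ)
    (h3 : ∀ c ∈ K, θ c ∈ K) : ∃ c ∈ K, θ c = c := by
  obtain ⟨c, hcK⟩ := hne
  have hit : ∀ k, θ^[k] c ∈ K := fun k => by
    induction k with
    | zero => exact hcK
    | succ k ih => rw [Function.iterate_succ_apply']; exact h3 _ ih
  let m : ℕ → X := fun N => ∑ k ∈ Finset.range (N + 1), (1 / ((N : ℝ) + 1)) • θ^[k] c
  have hm : ∀ N, m N ∈ K := fun N =>
    hc.sum_mem (fun _ _ => by positivity) (by simp; field_simp) fun k _ => hit k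
  have he : ∀ N, θ (m N) - m N = (1 / ((N : ℝ) + 1)) • θ^[N + 1] c - (1 / ((N : ℝ) + 1)) • c := by
    intro N
    have : θ (m N) = ∑ k ∈ Finset.range (N + 1), (1 / ((N : ℝ) + 1)) • θ^[k + 1] c := by
      change h2.mk' θ (∑ k ∈ Finset.range (N + 1), (1 / ((N : ℝ) + 1)) • θ^[k] c) = _
      rw [map_sum]
      exact Finset.sum_congr rfl fun k _ => by
        rw [map_smul, Function.iterate_succ_apply']; rfl
    rw [this, ← Finset.sum_sub_distrib]
    exact Finset.sum_range_sub (fun k => (1 / ((N : ℝ) + 1)) • θ^[k] c) (N + 1)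
  have hb := hK.isVonNBounded ℝ
  have ht : Tendsto (fun N => θ (m N) - m N) atTop (𝓝 0) := by
    simp only [he]
    have t1 := hb.smul_tendsto_zero (x := fun N => θ^[N + 1] c) (l := atTop)
      (Eventually.of_forall fun N => hit _) tendsto_one_div_add_atTop_nhds_zero_nat
    have t2 := hb.smul_tendsto_zero (x := fun _ : ℕ => c) (l := atTop)
      (Eventually.of_forall fun _ => hcK) tendsto_one_div_add_atTop_nhds_zero_nat
    simpa using t1.sub t2
  obtain ⟨x, hx, h0⟩ := (hK.image (h1.sub continuous_id)).isClosed.mem_of_tendsto ht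
    (Eventually.of_forall fun N => ⟨m N, hm N, rfl⟩)
  exact ⟨x, hx, sub_eq_zero.1 h0⟩

theorem mk : MKStmt.{u} := by
  intro X _ _ _ _ _ _ S K hK hS hcomm
  obtain ⟨K', hK', hmin⟩ := hK.exists_min
  obtain ⟨c, hc⟩ := hmin.ne
  refine ⟨c, hK' hc, fun θ hθ => ?_⟩
  obtain ⟨h1, h2⟩ := hS θ hθ
  refine hmin.min {c | θ c = c} (isClosed_eq h1 continuous_id) ?_
    (typeI_fix hmin.ne hmin.cpt hmin.cvx h1 h2 (hmin.inv θ hθ)) ?_ hc
  · intro x hx y hy s t _ _ _
    change θ (s • x + t • y) = s • x + t • y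
    rw [h2.map_add, h2.map_smul, h2.map_smul, hx, hy]
  · intro θ' hθ' x hx hx'
    change θ (θ' x) = θ' x
    rw [hcomm θ hθ θ' hθ' x (hK' hx), hx']

section Alg
variable {A : Type u} [CStarAlgebra A] {D : Pred A}

theorem typeI_of_fixed {u : A} (hu : u ∈ unitary A) {c : Fl D} (h : uact u c = c) (y : A) :
    c (u * y) = u * c y := by
  conv_rhs => rw [← h, uact_apply, ← mul_assoc, (Unitary.mem_iff.1 hu).2, one_mul]

/-- A common fixed point for commuting unitaries. -/
theorem typeI_mk {Γ : Set A} {K : Set (Fl D)} (hK : Good (uS D Γ) K) (hΓ : Γ ⊆ unitary A)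
    (hc : ∀ u ∈ Γ, ∀ v ∈ Γ, u * v = v * u) : ∃ c ∈ K, ∀ u ∈ Γ, ∀ y, c (u * y) = u * c y := by
  obtain ⟨c, hcK, h⟩ := mk (Fl D) _ K hK
    (by rintro _ ⟨u, -, rfl⟩; exact ⟨continuous_uact u, isLinearMap_uact u⟩)
    (by rintro _ ⟨u, hu, rfl⟩ _ ⟨v, hv, rfl⟩ c -; rw [uact_uact, uact_uact, hc u hu v hv])
  exact ⟨c, hcK, fun u hu => typeI_of_fixed (hΓ hu) (h _ ⟨u, hu, rfl⟩)⟩

variable {I : Type} [Fintype I] {e : I → I → A}

/-- The permutation unitaries. -/
def typeIW (e : I → I → A) (π : Equiv.Perm I) : A := ∑ a, e (π a) a + (1 - ∑ a, e a a)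

theorem typeI_sum_mul (he : IsMU e) (f : I → I) (a b : I) :
    (∑ c, e (f c) c) * e a b = e (f a) b := by
  rw [Finset.sum_mul, Finset.sum_eq_single a (fun c _ h => he.mul_ne _ _ _ _ h) (by simp),
    he.mul_same]

theorem typeI_z_mul (he : IsMU e) (a b : I) : (∑ c, e c c) * e a b = e a b :=
  typeI_sum_mul he id a b

theorem typeIW_mul_e (he : IsMU e) (π : Equiv.Perm I) (a b : I) :
    typeIW e π * e a b = e (π a) b := by
  rw [typeIW, add_mul, sub_mul, typeI_sum_mul he, typeI_z_mul he, one_mul, sub_self, add_zero]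

theorem typeIW_mul (he : IsMU e) (π ρ : Equiv.Perm I) :
    typeIW e π * typeIW e ρ = typeIW e (π * ρ) := by
  rw [typeIW.eq_1 e ρ, mul_add, mul_sub, Finset.mul_sum, Finset.mul_sum, mul_one]
  simp only [typeIW_mul_e he]
  simp [typeIW]

theorem typeIW_one : typeIW e 1 = 1 := by simp [typeIW]

theorem typeIW_star (he : IsMU e) (π : Equiv.Perm I) : star (typeIW e π) = typeIW e π⁻¹ := by
  simp only [typeIW, star_add, star_sub, star_one, star_sum, he.star_eq]
  congr 1
  exact Fintype.sum_equiv π _ _ fun a => by simp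

theorem typeIW_unitary (he : IsMU e) (π : Equiv.Perm I) : typeIW e π ∈ unitary A := by
  rw [Unitary.mem_iff, typeIW_star he, typeIW_mul he, typeIW_mul he, inv_mul_cancel,
    mul_inv_cancel, typeIW_one]
  exact ⟨rfl, rfl⟩

theorem typeI_e_mul_W (he : IsMU e) (π : Equiv.Perm I) (a b : I) :
    e a (π b) * typeIW e π = e a b := by
  rw [← star_inj, star_mul, typeIW_star he, he.star_eq, typeIW_mul_e he, he.star_eq]
  simp

end Alg

theorem modu : ModStmt.{u} := by
  classical
  intro A _ D K hK hlin I _ e he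
  have hcomm : ∀ i j, e i i * e j j = e j j * e i i := fun i j => by
    by_cases h : i = j
    · rw [h]
    · rw [he.mul_ne _ _ _ _ h, he.mul_ne _ _ _ _ (Ne.symm h)]
  have hs : ∀ i, 1 - (2 : ℂ) • e i i ∈ unitary A := fun i => by
    have h1 : star (1 - (2 : ℂ) • e i i) = 1 - (2 : ℂ) • e i i := by simp [he.star_eq]
    have h2 : (1 - (2 : ℂ) • e i i) * (1 - (2 : ℂ) • e i i) = 1 := by
      simp only [mul_sub, sub_mul, mul_one, one_mul, smul_mul_assoc, mul_smul_comm, he.mul_same]
      module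
    rw [Unitary.mem_iff, h1]
    exact ⟨h2, h2⟩
  obtain ⟨c, hc, h⟩ := typeI_mk (Γ := Set.range fun i => 1 - (2 : ℂ) • e i i)
    (hK.mono (by rintro _ ⟨_, ⟨i, rfl⟩, rfl⟩; exact ⟨_, hs i, rfl⟩))
    (by rintro _ ⟨i, rfl⟩; exact hs i) (by
      rintro _ ⟨i, rfl⟩ _ ⟨j, rfl⟩
      simp only [mul_sub, sub_mul, mul_one, one_mul, smul_mul_assoc, mul_smul_comm, hcomm i j]
      module)
  have hd : ∀ i y, c (e i i * y) = e i i * c y := fun i y => by
    have := h _ ⟨i, rfl⟩ y
    simp only [sub_mul, one_mul, smul_mul_assoc] at this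
    rw [(hlin c hc).map_sub, (hlin c hc).map_smul, sub_right_inj] at this
    exact smul_right_injective A two_ne_zero this
  let t : ℝ := 1 / (Fintype.card (Equiv.Perm I) : ℝ)
  let c' : Fl D := ∑ π : Equiv.Perm I, t • uact (typeIW e π) c
  have h1 : ∀ ρ, uact (typeIW e ρ) c' = c' := fun ρ => by
    change (isLinearMap_uact (typeIW e ρ)).mk' _ (∑ π : Equiv.Perm I, t • uact (typeIW e π) c) = _
    rw [map_sum]
    refine Fintype.sum_equiv (Equiv.mulRight ρ) _ _ fun π => ?_
    rw [map_smul, IsLinearMap.mk'_apply, uact_uact, typeIW_mul he]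
    rfl
  have h2 : ∀ i y, c' (e i i * y) = e i i * c' y := fun i y => by
    simp only [c', Fl.sum_apply, Fl.smul_apply, uact_apply, Finset.mul_sum, mul_smul_comm]
    refine Finset.sum_congr rfl fun π _ => ?_
    have e1 : typeIW e π * (e i i * y) = e (π i) (π i) * (typeIW e π * y) := by
      rw [← mul_assoc, ← mul_assoc, typeIW_mul_e he, typeI_e_mul_W he]
    have e2 : star (typeIW e π) * e (π i) (π i) = e i i * star (typeIW e π) := by
      rw [← star_inj, star_mul, star_mul, star_star, he.star_eq, he.star_eq, typeIW_mul_e he,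
        typeI_e_mul_W he]
    rw [e1, hd, ← mul_assoc, e2, mul_assoc]
  refine ⟨c', hK.cvx.sum_mem (fun _ _ => by positivity) (by simp [t])
    fun π _ => hK.uact_mem (typeIW_unitary he π) hc, fun i j y => ?_⟩
  have e3 : e i j = typeIW e (Equiv.swap j i) * e j j := by
    rw [typeIW_mul_e he, Equiv.swap_apply_left]
  rw [e3, mul_assoc, typeI_of_fixed (typeIW_unitary he _) (h1 _), h2, mul_assoc]

theorem typeI : TypeIStmt.{u} := by
  intro A _ D r K hK hlin I _ e he hz hcen
  let Γ : Set A := {u | u ∈ unitary A ∧ ∀ x, u * x = x * u}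
  obtain ⟨c₀, ⟨hc₀, hm⟩, h⟩ := typeI_mk (Γ := Γ) (K := K ∩ {c : Fl D | Modu e (c : A → A)})
    ((hK.toGood.mono (by rintro _ ⟨u, hu, rfl⟩; exact ⟨u, hu.1, rfl⟩)).inter (isClosed_modu e)
      (convex_modu e) (modu A D K hK.toGood (fun c hc => (hlin c hc).lin) I e he)
      (by rintro _ ⟨u, hu, rfl⟩ c _ hc; exact Modu.uact hc ⟨hu.1, fun i j => hu.2 _⟩))
    (fun u hu => hu.1) fun u hu v _ => hu.2 v
  have hl := (hlin c₀ hc₀).lin
  have hsum : ∀ {ι : Type} [Fintype ι] (x : ι → A), c₀ (∑ i, x i) = ∑ i, c₀ (x i) :=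
    fun x => map_sum (hl.mk' _) x _
  have hcentral : ∀ a : A, (∀ x, a * x = x * a) → ∀ y, c₀ (a * y) = a * c₀ y := by
    intro a ha y
    let Z : StarSubalgebra ℂ A := StarSubalgebra.centralizer ℂ Set.univ
    have : IsClosed (Z : Set A) := Set.isClosed_centralizer _
    obtain ⟨v, t, hv, -⟩ := CStarAlgebra.exists_sum_four_unitary (A := Z)
      ⟨a, (StarSubalgebra.mem_centralizer_iff ℂ).2 fun g _ => ⟨(ha g).symm, (ha _).symm⟩⟩
    have hv' : a = ∑ i, t i • ((v i : Z) : A) := by simpa using congrArg Subtype.val hv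
    rw [hv', Finset.sum_mul, Finset.sum_mul, hsum]
    refine Finset.sum_congr rfl fun i _ => ?_
    rw [smul_mul_assoc, smul_mul_assoc, hl.map_smul, h]
    exact ⟨Unitary.mem_iff.2 ⟨congrArg Subtype.val (Unitary.mem_iff.1 (v i).2).1,
      congrArg Subtype.val (Unitary.mem_iff.1 (v i).2).2⟩,
      fun x => (((StarSubalgebra.mem_centralizer_iff ℂ).1 (v i : Z).2 x trivial).1).symm⟩
  have hza : ∀ a, (∑ i, e i i) * a = ∑ i, ∑ j, e i j * ∑ k, e k i * a * e j k := fun a => by
    have h1 : ∀ i j, e i j * ∑ k, e k i * a * e j k = e i i * a * e j j := fun i j => by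
      rw [Finset.mul_sum, Finset.sum_eq_single j (fun k _ hk => by
        rw [← mul_assoc, ← mul_assoc, he.mul_ne _ _ _ _ (Ne.symm hk), zero_mul, zero_mul])
        (by simp), ← mul_assoc, ← mul_assoc, he.mul_same]
    simp only [h1, ← Finset.mul_sum, ← Finset.sum_mul]
    rw [mul_assoc, ← hz, ← mul_assoc, Finset.mul_sum _ _ (∑ i, e i i)]
    simp only [typeI_z_mul he]
  refine fun c hc => hK.min {c : Fl D | ∀ a y, (∑ i, e i i) * (c (a * y) - a * c y) = 0} ?_ ?_
    ⟨c₀, hc₀, fun a y => ?_⟩ ?_ hc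
  · simp only [Set.ofPred_forall]
    exact isClosed_iInter fun a => isClosed_iInter fun y =>
      (((wcont_eval _).sub ((wcont_eval _).mul_left _)).mul_left _).isClosed_eq (WCont.const 0)
  · intro c hc c' hc' s t _ _ _ a y
    have : (s • c + t • c') (a * y) - a * (s • c + t • c') y =
        s • (c (a * y) - a * c y) + t • (c' (a * y) - a * c' y) := by
      simp only [Fl.add_apply, Fl.smul_apply, mul_add, mul_smul_comm, smul_sub]; abel
    rw [this, mul_add, mul_smul_comm, mul_smul_comm, hc, hc', smul_zero, smul_zero, add_zero]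
  · have h1 : (∑ i, e i i) * c₀ (a * y) = c₀ ((∑ i, e i i) * a * y) := by
      rw [mul_assoc, Finset.sum_mul, Finset.sum_mul, hsum]
      exact Finset.sum_congr rfl fun i _ => (hm i i _).symm
    rw [mul_sub, h1, ← mul_assoc, hza, sub_eq_zero, Finset.sum_mul, Finset.sum_mul, hsum]
    refine Finset.sum_congr rfl fun i _ => ?_
    rw [Finset.sum_mul, Finset.sum_mul, hsum]
    refine Finset.sum_congr rfl fun j _ => ?_
    rw [mul_assoc, hm, hcentral _ (hcen a i j), mul_assoc]
  · rintro _ ⟨u, hu, rfl⟩ c _ hc a y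
    have h1 := hc (u * a) y
    have h2 := hc u y
    rw [mul_sub, sub_eq_zero] at h1 h2 ⊢
    have h3 := (Unitary.mem_iff.1 hu).1
    simp only [uact_apply]
    calc (∑ i, e i i) * (star u * c (u * (a * y)))
        = star u * ((∑ i, e i i) * c (u * a * y)) := by
          rw [← mul_assoc, hz, mul_assoc, mul_assoc u]
      _ = (∑ i, e i i) * (a * c y) := by
          rw [h1, ← mul_assoc, ← hz, mul_assoc, ← mul_assoc (star u), ← mul_assoc (star u), h3,
            one_mul]
      _ = a * star u * ((∑ i, e i i) * c (u * y)) := by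
          rw [h2, ← mul_assoc (a * star u), ← hz, mul_assoc, mul_assoc a, ← mul_assoc (star u), h3,
            one_mul]
      _ = _ := by rw [← mul_assoc, ← hz, mul_assoc, mul_assoc]

end Crest.Agent.R121
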