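import Crest.Agent.R121.Base
import Crest.Agent.R124.VN1
import Crest.Agent.R124.VN1a
import Crest.Agent.R124.Struct

/-! # Row 121: vector functionals, central supports, completely bounded maps, matrix units. -/

set_option autoImplicit false

open scoped InnerProductSpace Topology
open Filter

noncomputable section

namespace Crest.Agent.R121

universe u

open Crest.Agent.R124

section VN
variable {H : Type u} [NormedAddCommGroup H] [InnerProductSpace ℂ H] [CompleteSpace H]

@[simp] lemma vecFun_apply (M : VonNeumannAlgebra H) (ζ ξ : H) (x : Alg M) :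
    vecFun M ζ ξ x = ⟪ζ, (x : H →L[ℂ] H) ξ⟫_ℂ := rfl

lemma vecFun_mem (M : VonNeumannAlgebra H) (ζ ξ : H) : vecFun M ζ ξ ∈ vecSpan M :=
  Submodule.subset_span ⟨ζ, ξ, rfl⟩

lemma vec_inner_star (a : H →L[ℂ] H) (ζ ξ : H) : ⟪(star a) ζ, ξ⟫_ℂ = ⟪ζ, a ξ⟫_ℂ := by
  rw [ContinuousLinearMap.star_eq_adjoint, ContinuousLinearMap.adjoint_inner_left]

lemma vec_inner_star' (a : H →L[ℂ] H) (ζ ξ : H) : ⟪ζ, (star a) ξ⟫_ℂ = ⟪a ζ, ξ⟫_ℂ := by
  rw [ContinuousLinearMap.star_eq_adjoint, ContinuousLinearMap.adjoint_inner_right]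

/-- Bounded nets have weak limits along ultrafilters. -/
lemma vec_weak_limit {ι : Type*} (U : Ultrafilter ι) (v : ι → H) (R : ℝ)
    (h : ∀ᶠ i in (U : Filter ι), ‖v i‖ ≤ R) :
    ∃ w : H, ‖w‖ ≤ R ∧ ∀ ζ, Tendsto (fun i => ⟪ζ, v i⟫_ℂ) (U : Filter ι) (𝓝 ⟪ζ, w⟫_ℂ) := by
  have h1 : ∀ ζ : H, ∃ L : ℂ, ‖L‖ ≤ R * ‖ζ‖ ∧
      Tendsto (fun i => ⟪v i, ζ⟫_ℂ) (U : Filter ι) (𝓝 L) := fun ζ => by
    obtain ⟨L, hL, hl⟩ := (isCompact_closedBall (0 : ℂ) (R * ‖ζ‖)).ultrafilter_le_nhds
      (U.map fun i => ⟪v i, ζ⟫_ℂ) (le_principal_iff.2 (h.mono fun i hi => by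
        refine mem_closedBall_zero_iff.2 ?_
        exact (norm_inner_le_norm _ _).trans (by gcongr)))
    exact ⟨L, mem_closedBall_zero_iff.1 hL, hl⟩
  choose L hL hl using h1
  let φ : H →ₗ[ℂ] ℂ :=
    { toFun := L
      map_add' := fun a b => tendsto_nhds_unique (hl (a + b))
        (by simpa only [inner_add_right] using (hl a).add (hl b))
      map_smul' := fun t a => tendsto_nhds_unique (hl (t • a))
        (by simpa only [inner_smul_right, RingHom.id_apply, smul_eq_mul]
          using (hl a).const_mul t) }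
  obtain ⟨i, hi⟩ := h.exists
  refine ⟨(InnerProductSpace.toDual ℂ H).symm (φ.mkContinuous R hL), ?_, fun ζ => ?_⟩
  · rw [LinearIsometryEquiv.norm_map]
    exact φ.mkContinuous_norm_le ((norm_nonneg _).trans hi) hL
  · have h2 := (Complex.continuous_conj.tendsto _).comp (hl ζ)
    rw [← inner_conj_symm, InnerProductSpace.toDual_symm_apply]
    simp only [Function.comp_def, inner_conj_symm] at h2
    exact h2

lemma vec_cpt (M : VonNeumannAlgebra H) (U : Ultrafilter (Alg M)) (r : ℝ)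
    (h : ∀ᶠ x in (U : Filter (Alg M)), ‖x‖ ≤ r) :
    ∃ x : Alg M, ‖x‖ ≤ r ∧ ∀ ω ∈ vecSpan M, Tendsto ω (U : Filter (Alg M)) (𝓝 (ω x)) := by
  have h1 := fun ξ : H => vec_weak_limit U (fun x => (x : H →L[ℂ] H) ξ) (r * ‖ξ‖)
    (h.mono fun x hx => (ContinuousLinearMap.le_opNorm _ _).trans (by gcongr; exact hx))
  choose T hT hl using h1
  let T' : H →ₗ[ℂ] H :=
    { toFun := T
      map_add' := fun a b => ext_inner_left ℂ fun ζ => tendsto_nhds_unique (hl (a + b) ζ)
        (by simpa only [map_add, inner_add_right] using (hl a ζ).add (hl b ζ))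
      map_smul' := fun t a => ext_inner_left ℂ fun ζ => tendsto_nhds_unique (hl (t • a) ζ)
        (by simpa only [map_smul, inner_smul_right, RingHom.id_apply]
          using (hl a ζ).const_mul t) }
  obtain ⟨x₀, hx₀⟩ := h.exists
  have hmem : T'.mkContinuous r hT ∈ M := vn1_mem_of_comm M _ fun y hy => by
    ext ξ
    refine ext_inner_left ℂ fun ζ => ?_
    change ⟪ζ, y (T ξ)⟫_ℂ = ⟪ζ, T (y ξ)⟫_ℂ
    rw [← vec_inner_star]
    refine tendsto_nhds_unique (hl ξ _) ((hl (y ξ) ζ).congr fun x => ?_)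
    rw [vec_inner_star]
    exact congrArg (fun S : H →L[ℂ] H => ⟪ζ, S ξ⟫_ℂ) (vn1_comm_of_mem M x.2 hy)
  refine ⟨⟨_, hmem⟩, T'.mkContinuous_norm_le ((norm_nonneg _).trans hx₀) hT, fun ω hω => ?_⟩
  induction hω using Submodule.span_induction with
  | mem ω hω =>
    obtain ⟨ζ, ξ, rfl⟩ := hω
    exact hl ξ ζ
  | zero => exact tendsto_const_nhds
  | add a b _ _ ha hb => exact ha.add hb
  | smul t a _ ha => exact ha.const_smul t

/-- The predual data given by the vector functionals. -/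
def vecPred (M : VonNeumannAlgebra H) : Pred (Alg M) where
  Ω := vecSpan M
  mulL ω hω a := by
    induction hω using Submodule.span_induction with
    | mem ω hω =>
      obtain ⟨ζ, ξ, rfl⟩ := hω
      exact ⟨_, vecFun_mem M ((star (a : H →L[ℂ] H)) ζ) ξ, fun x => vec_inner_star _ _ _⟩
    | zero => exact ⟨0, zero_mem _, fun _ => rfl⟩
    | add a b _ _ ha hb =>
      obtain ⟨a', h1, h2⟩ := ha
      obtain ⟨b', h3, h4⟩ := hb
      exact ⟨a' + b', add_mem h1 h3, fun x => by simp [h2, h4]⟩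
    | smul t a _ ha =>
      obtain ⟨a', h1, h2⟩ := ha
      exact ⟨t • a', Submodule.smul_mem _ t h1, fun x => by simp [h2]⟩
  mulR ω hω a := by
    induction hω using Submodule.span_induction with
    | mem ω hω =>
      obtain ⟨ζ, ξ, rfl⟩ := hω
      exact ⟨_, vecFun_mem M ζ ((a : H →L[ℂ] H) ξ), fun x => rfl⟩
    | zero => exact ⟨0, zero_mem _, fun _ => rfl⟩
    | add a b _ _ ha hb =>
      obtain ⟨a', h1, h2⟩ := ha
      obtain ⟨b', h3, h4⟩ := hb
      exact ⟨a' + b', add_mem h1 h3, fun x => by simp [h2, h4]⟩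
    | smul t a _ ha =>
      obtain ⟨a', h1, h2⟩ := ha
      exact ⟨t • a', Submodule.smul_mem _ t h1, fun x => by simp [h2]⟩
  sep x hx := Subtype.ext (ContinuousLinearMap.ext fun ξ =>
    inner_self_eq_zero.1 (hx _ (vecFun_mem M ((x : H →L[ℂ] H) ξ) ξ)))
  cpt := vec_cpt M

lemma vec_hasPolar (M : VonNeumannAlgebra H) : HasPolar (Alg M) := by
  intro x
  obtain ⟨w, hw, h1, h2, h3, h4, h5⟩ := vn1_polar_aux M x x.2
  refine ⟨⟨w, hw⟩, Subtype.ext h4, Subtype.ext ?_,
    fun p hp => Subtype.ext (h5 p (congrArg Subtype.val hp)),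
    fun y hy => Subtype.ext (vn1_mul_eq_zero h2 (congrArg Subtype.val hy))⟩
  have hsa : star (CFC.abs (x : H →L[ℂ] H)) = CFC.abs (x : H →L[ℂ] H) :=
    IsSelfAdjoint.of_nonneg (CFC.abs_nonneg _)
  have h6 := congrArg star h3
  rw [star_mul, star_mul, star_star, hsa] at h6
  change (x : H →L[ℂ] H) * (star w * w) = x
  conv_lhs => rw [← h1]
  rw [mul_assoc, h6, h1]

omit [CompleteSpace H] in
lemma vec_sum_sq_le_iff {I : Type*} [Fintype I] (v : I → H) (B : ℝ) :
    ∑ i, ‖v i‖ ^ 2 ≤ B ↔ ∀ ξ : I → H, ∑ i, (2 * (⟪ξ i, v i⟫_ℂ).re - ‖ξ i‖ ^ 2) ≤ B := by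
  refine ⟨fun h ξ => le_trans (Finset.sum_le_sum fun i _ => ?_) h, fun h => ?_⟩
  · have := norm_sub_sq (𝕜 := ℂ) (ξ i) (v i)
    have h2 := sq_nonneg ‖ξ i - v i‖
    simp only [RCLike.re_to_complex] at this
    linarith
  · refine le_trans (le_of_eq (Finset.sum_congr rfl fun i _ => ?_)) (h v)
    have := inner_self_eq_norm_sq (𝕜 := ℂ) (v i)
    simp only [RCLike.re_to_complex] at this
    linarith

lemma vec_col {ι : Type*} [Fintype ι] {n : ι → H →L[ℂ] H} (hn : ∑ k, star (n k) * n k = 1)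
    (w : H) : ∑ k, ‖n k w‖ ^ 2 = ‖w‖ ^ 2 := by
  have h1 := vn1_norm_sq (1 : H →L[ℂ] H) w
  rw [star_one, one_mul, one_apply_eq_self] at h1
  simp only [vn1_norm_sq]
  rw [← Complex.re_sum, ← inner_sum, ← sum_apply, hn, h1,
    one_apply_eq_self]

lemma vec_row {ι : Type*} [Fintype ι] {n : ι → H →L[ℂ] H} (hn : ∑ k, star (n k) * n k = 1)
    (v : ι → H) : ‖∑ k, (star (n k)) (v k)‖ ^ 2 ≤ ∑ k, ‖v k‖ ^ 2 := by
  set w := ∑ k, (star (n k)) (v k) with hw
  have h1 := (vec_sum_sq_le_iff v _).1 le_rfl fun k => n k w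
  have h2 := inner_self_eq_norm_sq (𝕜 := ℂ) w
  simp only [RCLike.re_to_complex] at h2
  rw [Finset.sum_sub_distrib, vec_col hn, ← Finset.mul_sum, ← Complex.re_sum] at h1
  simp only [← vec_inner_star'] at h1
  rw [← inner_sum, ← hw, h2] at h1
  linarith

end VN

theorem vec : VecStmt.{u} := fun _ _ _ _ M => ⟨⟨vecPred M, rfl⟩, vec_hasPolar M⟩

theorem csupp : CSuppStmt.{u} := by
  intro H _ _ _ M b hb
  set S₀ := Submodule.span ℂ {v : H | ∃ x ∈ M, ∃ η, v = x (b η)} with hS₀
  set S := S₀.topologicalClosure with hS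
  have : CompleteSpace S := S₀.isClosed_topologicalClosure.completeSpace_coe
  have hle : ∀ (T : H →L[ℂ] H) (W : Submodule ℂ H), IsClosed (W : Set H) →
      (∀ x ∈ M, ∀ η, T (x (b η)) ∈ W) → ∀ v ∈ S, T v ∈ W := fun T W hW h v hv => by
    have h1 : S₀ ≤ W.comap (T : H →ₗ[ℂ] H) := Submodule.span_le.2 (by
      rintro _ ⟨x, hx, η, rfl⟩
      exact h x hx η)
    exact S₀.topologicalClosure_minimal h1 (hW.preimage T.continuous) hv
  have hgen : ∀ x ∈ M, ∀ η, x (b η) ∈ S := fun x hx η =>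
    S₀.le_topologicalClosure (Submodule.subset_span ⟨x, hx, η, rfl⟩)
  have hp : IsStarProjection S.starProjection := isStarProjection_starProjection
  have hz : ∀ T : H →L[ℂ] H, (∀ x ∈ M, ∀ η, T (x (b η)) ∈ S) →
      S.starProjection * T * S.starProjection = T * S.starProjection := fun T h => by
    ext ξ
    exact Submodule.starProjection_eq_self_iff.2
      (hle T S S₀.isClosed_topologicalClosure h _ (S.starProjection_apply_mem ξ))
  have hcomm : ∀ T : H →L[ℂ] H, (∀ x ∈ M, ∀ η, T (x (b η)) ∈ S) →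
      (∀ x ∈ M, ∀ η, (star T) (x (b η)) ∈ S) → S.starProjection * T = T * S.starProjection :=
    fun T h h' => by
      have h1 := congrArg star (hz _ h')
      simp only [star_mul, star_star, hp.isSelfAdjoint.star_eq] at h1
      rw [← h1, ← mul_assoc, hz T h]
  have hM : ∀ T ∈ M, ∀ x ∈ M, ∀ η, T (x (b η)) ∈ S := fun T hT x hx η =>
    hgen (T * x) (mul_mem hT hx) η
  have hM' : ∀ T ∈ M.commutant, ∀ x ∈ M, ∀ η, T (x (b η)) ∈ S := fun T hT x hx η => by
    have h1 : T (x (b η)) = x (b (T η)) :=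
      (congrArg (fun R : H →L[ℂ] H => R η) (vn1_comm_of_mem M (mul_mem hx hb) hT)).symm
    rw [h1]
    exact hgen x hx _
  refine ⟨S.starProjection, ⟨vn1_mem_of_comm M _ fun y hy =>
    (hcomm y (hM' y hy) (hM' _ (star_mem hy))).symm, hp,
    fun x hx => hcomm x (hM x hx) (hM _ (star_mem hx))⟩, ?_, S.starProjection_apply_mem,
    fun q hq => ?_⟩
  · ext η
    exact Submodule.starProjection_eq_self_iff.2 (hgen 1 (one_mem _) η)
  · ext ξ
    exact hle q ⊥ (by simp)
      (fun x hx η => congrArg (fun R : H →L[ℂ] H => R η) (hq x hx)) _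
      (S.starProjection_apply_mem ξ)

theorem cbSet : CBSetStmt.{u} := by
  intro H _ _ _ M D hD r
  refine ⟨(isClosed_linB r).inter ?_, (convex_linB r).inter ?_, ?_⟩
  · change IsClosed {c : Fl D | CB M r (c : Alg M → Alg M)}
    simp only [CB, Set.ofPred_forall, vec_sum_sq_le_iff _ (r ^ 2 * _)]
    refine isClosed_iInter fun I => isClosed_iInter fun J => isClosed_iInter fun _ =>
      isClosed_iInter fun _ => isClosed_iInter fun X => isClosed_iInter fun _ =>
      isClosed_iInter fun η => isClosed_iInter fun ξ => isClosed_le ?_ continuous_const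
    refine continuous_finsetSum _ fun i _ => Continuous.sub (continuous_const.mul
      (Complex.continuous_re.comp ?_)) continuous_const
    simp only [inner_sum]
    exact continuous_finsetSum _ fun j _ =>
      wcont_eval (X i j) _ (hD ▸ vecFun_mem M (ξ i) (η j))
  · intro c hc c' hc' s t hs ht hst I J _ _ X hX η
    have h1 := (vec_sum_sq_le_iff _ _).1 (hc I J X hX η)
    have h2 := (vec_sum_sq_le_iff _ _).1 (hc' I J X hX η)
    refine (vec_sum_sq_le_iff _ _).2 fun ξ => ?_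
    have e : ∀ i, ∑ j, (((s • c + t • c') (X i j) : Alg M) : H →L[ℂ] H) (η j) =
        (s : ℂ) • ∑ j, (c (X i j) : H →L[ℂ] H) (η j) +
          (t : ℂ) • ∑ j, (c' (X i j) : H →L[ℂ] H) (η j) := fun i => by
      rw [Finset.smul_sum, Finset.smul_sum, ← Finset.sum_add_distrib]
      rfl
    have h3 := add_le_add (mul_le_mul_of_nonneg_left (h1 ξ) hs)
      (mul_le_mul_of_nonneg_left (h2 ξ) ht)
    rw [← add_mul, hst, one_mul, Finset.mul_sum, Finset.mul_sum, ← Finset.sum_add_distrib] at h3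
    refine le_trans (le_of_eq (Finset.sum_congr rfl fun i _ => ?_)) h3
    rw [e, inner_add_right, inner_smul_right, inner_smul_right, Complex.add_re,
      Complex.re_ofReal_mul, Complex.re_ofReal_mul]
    linear_combination ‖ξ i‖ ^ 2 * hst
  · rintro _ ⟨ι, _, n, hn, rfl⟩ c hc hcb
    have hn' : ∑ k, star (n k : H →L[ℂ] H) * (n k : H →L[ℂ] H) = 1 := by
      simpa using congrArg Subtype.val hn
    have hCB : CB M r (cact n c : Fl D) := by
      intro I J _ _ X hX η
      have h1 := hcb (I × ι) J (fun p j => n p.2 * X p.1 j) (fun η => by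
        refine le_trans (le_of_eq ?_) (hX η)
        rw [Fintype.sum_prod_type]
        refine Finset.sum_congr rfl fun i _ => ?_
        rw [← vec_col hn']
        refine Finset.sum_congr rfl fun k _ => ?_
        rw [map_sum]
        rfl) η
      rw [Fintype.sum_prod_type] at h1
      refine le_trans (Finset.sum_le_sum fun i _ => ?_) h1
      refine le_trans (le_of_eq ?_) (vec_row hn' _)
      congr 2
      simp only [cact_apply, map_sum]
      rw [Finset.sum_comm]
      refine Finset.sum_congr rfl fun j _ => ?_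
      rw [AddSubmonoidClass.coe_finsetSum, sum_apply]
      rfl
    have hlin := IsLinearMap.cact hc.lin n
    refine ⟨⟨hlin, fun y => ?_⟩, hCB⟩
    rcases eq_or_ne y 0 with rfl | hy
    · rw [hlin.map_zero, norm_zero, mul_zero]
    have hy' : 0 < ‖y‖ := norm_pos_iff.2 hy
    have hr : 0 ≤ r := nonneg_of_mul_nonneg_left ((norm_nonneg _).trans (hc.bd y)) hy'
    have h1 : ‖((‖y‖ : ℂ)⁻¹ • y : Alg M)‖ = 1 := by
      rw [norm_smul, norm_inv, Complex.norm_real, norm_norm, inv_mul_cancel₀ hy'.ne']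
    have h2 : ‖(cact n c : Fl D) ((‖y‖ : ℂ)⁻¹ • y)‖ ≤ r := by
      refine ContinuousLinearMap.opNorm_le_bound _ hr fun η => ?_
      have := hCB Unit Unit (fun _ _ => (‖y‖ : ℂ)⁻¹ • y) (fun η => by
        simp only [Finset.univ_unique, Finset.sum_singleton]
        refine pow_le_pow_left₀ (norm_nonneg _) ((ContinuousLinearMap.le_opNorm _ _).trans ?_) 2
        exact (mul_le_mul_of_nonneg_right h1.le (norm_nonneg _)).trans (one_mul _).le)
        fun _ => η
      simp only [Finset.univ_unique, Finset.sum_singleton, ← mul_pow] at this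
      exact le_of_pow_le_pow_left₀ two_ne_zero (by positivity) this
    rw [hlin.map_smul, norm_smul, norm_inv, Complex.norm_real, norm_norm,
      inv_mul_le_iff₀ hy', mul_comm] at h2
    exact h2

theorem nonAbel : NonAbelStmt.{u} := by
  intro H _ _ _ M z hz hno d hd
  obtain ⟨f, e, hf, hfM, he, hsum⟩ := struct polar signProj maxSys H M d hd
  have hzz : (z : H →L[ℂ] H) * z = z := hz.proj.isIdempotentElem
  have hmul : ∀ a ∈ M, ∀ b : H →L[ℂ] H, (z : H →L[ℂ] H) * a * (z * b) = z * (a * b) :=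
    fun a ha b => by
      rw [mul_assoc, ← mul_assoc a, ← hz.comm a ha, ← mul_assoc, ← mul_assoc, hzz, mul_assoc]
  have hstar : ∀ a ∈ M, star ((z : H →L[ℂ] H) * a) = z * star a := fun a ha => by
    rw [star_mul, hz.proj.isSelfAdjoint.star_eq, hz.comm _ (star_mem ha)]
  have h0 : ∀ k i, (z : H →L[ℂ] H) * e k i i = 0 := fun k i => by
    have hm := he.mem k i i
    refine hno _ (mul_mem hz.mem hm) ⟨?_, ?_⟩ (by rw [← mul_assoc, hzz]) fun x hx y hy => ?_
    · change _ * _ = _
      rw [hmul _ hm, (he.mu k).mul_same]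
    · change star _ = _
      rw [hstar _ hm, (he.mu k).star_eq]
    · have key : ∀ x ∈ M, ∀ y ∈ M, (z : H →L[ℂ] H) * e k i i * x * (z * e k i i) * y *
          (z * e k i i) = z * (e k i i * x * e k i i * y * e k i i) := fun x hx y hy => by
        rw [mul_assoc _ _ x, hmul _ (mul_mem hm hx), mul_assoc _ _ y,
          hmul _ (mul_mem (mul_mem (mul_mem hm hx) hm) hy)]
      rw [key x hx y hy, key y hy x hx, he.comm k i x hx y hy]
  refine ⟨fun i j => ⟨z * f i j, mul_mem hz.mem (hfM i j)⟩, ⟨fun a b c => Subtype.ext ?_,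
    fun a b c d h => Subtype.ext ?_, fun a b => Subtype.ext ?_⟩, Subtype.ext ?_⟩
  · exact (hmul _ (hfM a b) _).trans (by rw [hf.mul_same])
  · exact (hmul _ (hfM a b) _).trans (by rw [hf.mul_ne _ _ _ _ h, mul_zero]; rfl)
  · exact (hstar _ (hfM a b)).trans (by rw [hf.star_eq])
  · have h1 := congrArg ((z : H →L[ℂ] H) * ·) hsum
    simp only [mul_add, Finset.mul_sum, h0, Finset.sum_const_zero, add_zero, mul_one] at h1
    rw [AddSubmonoidClass.coe_finsetSum]
    exact h1

end Crest.Agent.R121
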