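import Crest.Agent.R121.Base
import Crest.Agent.R124.VN1

/-!
# Row 121: Zorn's lemma for tuples of partial isometries and its consequences
-/

set_option autoImplicit false
set_option linter.unusedSectionVars false

open scoped InnerProductSpace Topology
open Filter

noncomputable section

namespace Crest.Agent.R121

universe u

open Crest.Agent.R124

section
variable {H : Type u} [NormedAddCommGroup H] [InnerProductSpace ℂ H] [CompleteSpace H]

/-- strong limits -/
def ZornSL {Λ : Type*} (l : Filter Λ) (v : Λ → (H →L[ℂ] H)) (V : H →L[ℂ] H) : Prop :=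
  ∀ ξ, Tendsto (fun a => v a ξ) l (𝓝 (V ξ))

namespace ZornSL
variable {Λ : Type*} {l : Filter Λ} {v v' g : Λ → (H →L[ℂ] H)} {V V' G : H →L[ℂ] H}

lemma unique [l.NeBot] (h : ZornSL l v V) (h' : ZornSL l v V') : V = V' := by
  ext ξ
  exact tendsto_nhds_unique (h ξ) (h' ξ)

lemma const (l : Filter Λ) (V : H →L[ℂ] H) : ZornSL l (fun _ => V) V := fun _ => tendsto_const_nhds

lemma congr' (h : ZornSL l v V) (h' : ∀ᶠ a in l, v a = v' a) : ZornSL l v' V := fun ξ =>
  (h ξ).congr' (h'.mono fun a ha => by simp only [ha])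

lemma eq_of [l.NeBot] (h : ZornSL l v V) (h' : ZornSL l v' V') (he : ∀ᶠ a in l, v a = v' a) : V = V' :=
  (h.congr' he).unique h'

lemma mul_left (h : ZornSL l v V) (p : H →L[ℂ] H) : ZornSL l (fun a => p * v a) (p * V) := fun ξ =>
  (p.continuous.tendsto _).comp (h ξ)

lemma mul_right (h : ZornSL l v V) (p : H →L[ℂ] H) : ZornSL l (fun a => v a * p) (V * p) := fun ξ =>
  h (p ξ)

lemma mul (h : ZornSL l v V) (h' : ZornSL l v' V') (hb : ∀ a, ‖v a‖ ≤ 1) :
    ZornSL l (fun a => v a * v' a) (V * V') := by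
  intro ξ
  have h1 : Tendsto (fun a => v a (v' a ξ - V' ξ)) l (𝓝 0) := by
    refine squeeze_zero_norm (fun a => ?_) (tendsto_iff_norm_sub_tendsto_zero.1 (h' ξ))
    exact ((v a).le_opNorm _).trans (mul_le_of_le_one_left (norm_nonneg _) (hb a))
  have h2 := h1.add (h (V' ξ))
  rw [zero_add] at h2
  refine h2.congr fun a => ?_
  rw [map_sub, sub_add_cancel]
  rfl

lemma star_mul [l.NeBot] (h : ZornSL l v V) (h' : ZornSL l v' V') (hg : ZornSL l g G)
    (he : ∀ a, star (v a) * v' a = g a) : star V * V' = G := by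
  ext η
  apply ext_inner_left ℂ
  intro ξ
  rw [← vn1_inner_star_mul]
  have t1 : Tendsto (fun a => ⟪v a ξ, v' a η⟫_ℂ) l (𝓝 ⟪V ξ, V' η⟫_ℂ) := (h ξ).inner (h' η)
  have t2 : Tendsto (fun a => ⟪ξ, g a η⟫_ℂ) l (𝓝 ⟪ξ, G η⟫_ℂ) := tendsto_const_nhds.inner (hg η)
  refine tendsto_nhds_unique t1 (t2.congr fun a => ?_)
  rw [vn1_inner_star_mul, he]

lemma star_eq [l.NeBot] (h : ZornSL l v V) (h' : ZornSL l (fun a => star (v a)) V') : star V = V' := by
  have := h.star_mul (const l 1) h' fun a => mul_one _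
  rwa [mul_one] at this

lemma mem [l.NeBot] {M : VonNeumannAlgebra H} (h : ZornSL l v V) (hv : ∀ a, v a ∈ M) : V ∈ M :=
  vn1_mem_of_comm M V fun y hy =>
    (h.mul_left y).eq_of (h.mul_right y) (Eventually.of_forall fun a =>
      (vn1_comm_of_mem M (hv a) hy).symm)

end ZornSL

lemma zorn_ext {a b c : H →L[ℂ] H} (h : a * b = c) (y : H →L[ℂ] H) : a * (b * y) = c * y := by
  rw [← mul_assoc, h]

lemma zorn_star {a b c : H →L[ℂ] H} (h : a * b = c) : star b * star a = star c := by
  rw [← star_mul, h]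

lemma zorn_proj {f : H →L[ℂ] H} (h : star f * f = f) : IsStarProjection f := by
  have hs : star f = f := by
    have := congrArg star h
    rw [star_mul, star_star, h] at this
    exact this.symm
  exact ⟨by rw [hs] at h; exact h, hs⟩

lemma zorn_iso {w f : H →L[ℂ] H} (hf : IsStarProjection f) (h : star w * w = f) :
    w * star w * w = w := by
  rw [mul_assoc, h, vn1_mul_proj hf h]

/-- elements of the ordered set -/
structure ZornEl {ι : Type} (i₀ : ι) (𝒮 : Set (ι → (H →L[ℂ] H))) where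
  v : ι → (H →L[ℂ] H)
  f : H →L[ℂ] H
  mem : v ∈ 𝒮
  proj : IsStarProjection f
  eqf : ∀ i, star (v i) * v i = f

variable {ι : Type} {i₀ : ι} {𝒮 : Set (ι → (H →L[ℂ] H))}

lemma ZornEl.mul_f (x : ZornEl i₀ 𝒮) (i : ι) : x.v i * x.f = x.v i :=
  vn1_mul_proj x.proj (x.eqf i)

instance : Preorder (ZornEl i₀ 𝒮) where
  le x y := (∀ i, y.v i * x.f = x.v i) ∧ y.f * x.f = x.f
  le_refl x := ⟨x.mul_f, x.proj.isIdempotentElem⟩
  le_trans x y z hxy hyz := by
    refine ⟨fun i => ?_, ?_⟩
    · rw [← hxy.2, ← mul_assoc, hyz.1, hxy.1]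
    · rw [← hxy.2, ← mul_assoc, hyz.2]

end

theorem zorn : ZornStmt.{u} := by
  intro H _ _ _ ι i₀ 𝒮 h0 hS hadd hlim
  let mk : ∀ v ∈ 𝒮, ZornEl i₀ 𝒮 := fun v hv => ⟨v, star (v i₀) * v i₀, hv, (hS v hv).1, (hS v hv).2⟩
  have hch : ∀ c : Set (ZornEl i₀ 𝒮), IsChain (· ≤ ·) c → BddAbove c := by
    intro c hc
    rcases c.eq_empty_or_nonempty with rfl | hne
    · exact ⟨mk 0 h0, by simp⟩
    have : Nonempty c := hne.to_subtype
    have : IsDirectedOrder c := ⟨fun a b => by
      rcases hc.total a.2 b.2 with h | h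
      · exact ⟨b, h, le_rfl⟩
      · exact ⟨a, le_rfl, h⟩⟩
    have hV : ∀ i, ∃ U : H →L[ℂ] H, ZornSL atTop (fun l : c => l.1.v i) U :=
      fun i => vn1_sot_limit (fun l : c => l.1.f) (fun l : c => l.1.v i) (fun l => l.1.proj)
        (fun l => l.1.eqf i) (fun l m h => h.2) (fun l m h => h.1 i)
    choose V hV using hV
    have hsm : ∀ (x y : ZornEl i₀ 𝒮), x ≤ y → ∀ i, star (y.v i) * x.v i = x.f := by
      intro x y h i
      rw [← h.1 i, ← mul_assoc, y.eqf, h.2]
    have hfs : ∀ (x : ZornEl i₀ 𝒮) i, x.f * star (x.v i) = star (x.v i) := by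
      intro x i
      have := zorn_star (x.mul_f i)
      rwa [x.proj.isSelfAdjoint.star_eq] at this
    have hW : ∀ i, ∃ U : H →L[ℂ] H, ZornSL atTop (fun l : c => star (l.1.v i)) U :=
      fun i => vn1_sot_limit (fun l : c => l.1.v i * star (l.1.v i))
        (fun l : c => star (l.1.v i))
        (fun l => vn1_isStarProjection_of' (zorn_iso l.1.proj (l.1.eqf i)))
        (fun l => by rw [star_star])
        (fun l m h => by
          rw [mul_assoc, zorn_ext (hsm l.1 m.1 h i), ← mul_assoc, h.1 i])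
        (fun l m h => by rw [zorn_ext (hsm l.1 m.1 h i), hfs])
    choose W hW using hW
    have hVW : ∀ i, star (V i) = W i := fun i => (hV i).star_eq (hW i)
    have hmem : V ∈ 𝒮 := hlim c atTop (fun l => l.1.v) V (fun l => l.1.mem) hV
      fun i => by rw [hVW]; exact hW i
    refine ⟨mk V hmem, fun x hx => ?_⟩
    have h1 : ∀ i, V i * x.f = x.v i := fun i =>
      ((hV i).mul_right x.f).eq_of (ZornSL.const _ _)
        ((eventually_ge_atTop (⟨x, hx⟩ : c)).mono fun l hl => hl.1 i)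
    refine ⟨h1, ?_⟩
    change star (V i₀) * V i₀ * x.f = x.f
    rw [mul_assoc, h1, hVW]
    exact ((hW i₀).mul_right _).eq_of (ZornSL.const _ _)
      ((eventually_ge_atTop (⟨x, hx⟩ : c)).mono fun l hl => hsm x l.1 hl i₀)
  obtain ⟨x, hx⟩ := zorn_le hch
  refine ⟨x.v, x.mem, fun v' hv' h1 h2 => ?_⟩
  have h2' : v' i₀ * star (x.v i₀) = 0 := by simpa using zorn_star h2
  have h1' : star (v' i₀) * x.v i₀ = 0 := by simpa using zorn_star (h1 i₀ i₀)
  have h3 : star (v' i₀) * v' i₀ * x.f = 0 := by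
    rw [← x.eqf i₀, mul_assoc, zorn_ext h2', zero_mul, mul_zero]
  have h4 : (mk _ (hadd _ x.mem _ hv' h1 h2)).f = x.f + star (v' i₀) * v' i₀ := by
    change star (x.v i₀ + v' i₀) * (x.v i₀ + v' i₀) = _
    rw [star_add, add_mul, mul_add, mul_add, x.eqf, h1, h1', add_zero, zero_add]
  have hle : x ≤ mk _ (hadd _ x.mem _ hv' h1 h2) := by
    refine ⟨fun i => ?_, ?_⟩
    · change (x.v i + v' i) * x.f = x.v i
      have h6 : v' i * (star (v' i₀) * v' i₀) = v' i := (mk v' hv').mul_f i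
      rw [add_mul, x.mul_f, ← h6, mul_assoc, h3, mul_zero, add_zero]
    · rw [h4, add_mul, h3, add_zero]
      exact x.proj.isIdempotentElem
  have h5 := (hx hle).1 i₀
  rw [h4, mul_add, x.mul_f, zorn_ext h2, zero_mul] at h5
  exact (add_left_cancel h5).symm

theorem seq : SeqStmt.{u} := by
  intro H _ _ _ M z e hz he v hvM hzv hv
  have hve : ∀ n, v n * e = v n := fun n => vn1_mul_proj he (by rw [hv, if_pos rfl])
  let P : (ℕ → ℕ) → ℕ → (H →L[ℂ] H) := fun g N => ∑ n ∈ Finset.range N, v (g n) * star (v n)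
  have hP : ∀ g N, P g N = ∑ n ∈ Finset.range N, v (g n) * star (v n) := fun _ _ => rfl
  have hPs : ∀ g N, star (P g N) = ∑ n ∈ Finset.range N, v n * star (v (g n)) := by
    intro g N
    rw [hP, star_sum]
    exact Finset.sum_congr rfl fun n _ => by rw [star_mul, star_star]
  have h1 : ∀ g N n, n < N → P g N * v n = v (g n) := by
    intro g N n hn
    rw [hP, Finset.sum_mul, Finset.sum_eq_single n]
    · rw [mul_assoc, hv, if_pos rfl, hve]
    · intro m _ hm
      rw [mul_assoc, hv, if_neg hm, mul_zero]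
    · intro h
      exact absurd (Finset.mem_range.2 hn) h
  have h2 : ∀ g N N', N ≤ N' → P g N' * P id N = P g N := by
    intro g N N' h
    rw [hP id, Finset.mul_sum]
    refine Finset.sum_congr rfl fun n hn => ?_
    rw [← mul_assoc, id, h1 g N' n ((Finset.mem_range.1 hn).trans_le h)]
  have h3 : ∀ g, Function.Injective g → ∀ N, star (P g N) * P g N = P id N := by
    intro g hg N
    rw [hP g, Finset.mul_sum]
    refine Finset.sum_congr rfl fun n hn => ?_
    rw [← hP, ← mul_assoc, hPs, Finset.sum_mul, Finset.sum_eq_single n]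
    · rw [mul_assoc (v n), hv, if_pos rfl, hve, id]
    · intro m _ hm
      rw [mul_assoc, hv, if_neg (hg.ne hm), mul_zero]
    · intro h
      exact absurd hn h
  have h4 : ∀ N, IsStarProjection (P id N) := fun N => zorn_proj (h3 id Function.injective_id N)
  have hL : ∀ g, Function.Injective g → ∃ U, ZornSL atTop (P g) U := fun g hg =>
    vn1_sot_limit (P id) (P g) h4 (h3 g hg) (h2 id) (h2 g)
  have hPM : ∀ g N, P g N ∈ M := fun g N =>
    sum_mem fun n _ => mul_mem (hvM _) (star_mem (hvM _))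
  obtain ⟨Q, hQ⟩ := hL id Function.injective_id
  have g1 : Function.Injective fun n : ℕ => 2 * n := fun a b h => by simpa using h
  have g2 : Function.Injective fun n : ℕ => 2 * n + 1 := fun a b h => by simpa using h
  obtain ⟨S₁, hS₁⟩ := hL _ g1
  obtain ⟨S₂, hS₂⟩ := hL _ g2
  have hQv : ∀ n, Q * v n = v n := fun n => (hQ.mul_right _).eq_of (ZornSL.const _ _)
    ((eventually_gt_atTop n).mono fun N hN => h1 id N n hN)
  have hQP : ∀ (y : H →L[ℂ] H), (∀ n, y * v n = v n) → ∀ g U, ZornSL atTop (P g) U → y * U = U := by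
    intro y hy g U hU
    refine (hU.mul_left y).eq_of hU (Eventually.of_forall fun N => ?_)
    rw [hP, Finset.mul_sum]
    exact Finset.sum_congr rfl fun n _ => by rw [← mul_assoc, hy]
  have hQ0 : Q = 0 := by
    refine hz Q (hQ.mem (hPM _)) (zorn_proj (hQ.star_mul hQ hQ (h3 id Function.injective_id)))
      (hQP z hzv _ _ hQ) ⟨S₁, hS₁.mem (hPM _), S₂, hS₂.mem (hPM _),
        hS₁.star_mul hS₁ hQ (h3 _ g1), hS₂.star_mul hS₂ hQ (h3 _ g2),
        hS₁.star_mul hS₂ (ZornSL.const _ 0) fun N => ?_, hQP Q hQv _ _ hS₁, hQP Q hQv _ _ hS₂⟩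
    rw [hPs, hP, Finset.sum_mul_sum]
    refine Finset.sum_eq_zero fun n _ => Finset.sum_eq_zero fun m _ => ?_
    rw [mul_assoc, zorn_ext (hv _ _), if_neg (by omega), zero_mul, mul_zero]
  have := hv 0 0
  rw [if_pos rfl, ← hQv 0, hQ0, zero_mul, mul_zero] at this
  exact this.symm

theorem fin_of_noPI {H : Type u} [NormedAddCommGroup H] [InnerProductSpace ℂ H] [CompleteSpace H]
    {M : VonNeumannAlgebra H} {z v p : H →L[ℂ] H} (hz : NoPI M z) (hv : v ∈ M)
    (hp : IsStarProjection p) (hvp : star v * v = p) (hzp : z * p = p) (hpv : p * v = v) :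
    v * star v = p := by
  have hpM : p ∈ M := hvp ▸ mul_mem (star_mem hv) hv
  have hiso := zorn_iso hp hvp
  have he : IsStarProjection (p - v * star v) :=
    (vn1_isStarProjection_of' hiso).sub_of_mul_eq_right hp (zorn_ext hpv _)
  set e := p - v * star v with hedef
  have hpe : p * e = e := by
    rw [hedef, mul_sub, zorn_ext hpv, show p * p = p from hp.isIdempotentElem]
  have hev : e * v = 0 := by rw [hedef, sub_mul, hpv, hiso, sub_self]
  have h1 : ∀ n y, p * y = y → p * (v ^ n * y) = v ^ n * y := by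
    intro n y hy
    cases n with
    | zero => simpa using hy
    | succ n => rw [pow_succ', mul_assoc, zorn_ext hpv]
  have h2 : ∀ n y, p * y = y → star (v ^ n) * (v ^ n * y) = y := by
    intro n
    induction n with
    | zero => intro y _; simp
    | succ n ih =>
      intro y hy
      rw [pow_succ, star_mul, mul_assoc, mul_assoc, ih _ (zorn_ext hpv y), zorn_ext hvp, hy]
  have h3 : ∀ n k, star (v ^ n * e) * (v ^ (n + k) * e) = e * (v ^ k * e) := by
    intro n k
    rw [star_mul, he.isSelfAdjoint.star_eq, pow_add, mul_assoc, mul_assoc, h2 n _ (h1 k e hpe)]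
  have h4 : ∀ n m, n < m → star (v ^ n * e) * (v ^ m * e) = 0 := by
    intro n m h
    obtain ⟨k, rfl⟩ := Nat.exists_eq_add_of_lt h
    rw [add_assoc, h3, pow_succ', mul_assoc, zorn_ext hev, zero_mul]
  have := seq H M z e hz he (fun n => v ^ n * e)
    (fun n => mul_mem (pow_mem hv n) (sub_mem hpM (mul_mem hv (star_mem hv))))
    (fun n => by rw [← h1 n e hpe, zorn_ext hzp]) fun n m => by
      rcases lt_trichotomy n m with h | h | h
      · rw [if_neg h.ne, h4 n m h]
      · subst h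
        have := h3 n 0
        rw [add_zero, pow_zero, one_mul, show e * e = e from he.isIdempotentElem] at this
        rw [if_pos rfl, this]
      · rw [if_neg h.ne']
        simpa using zorn_star (h4 m n h)
  exact (sub_eq_zero.1 this).symm

section
variable {H : Type u} [NormedAddCommGroup H] [InnerProductSpace ℂ H] [CompleteSpace H]

lemma zorn_maxPI (M : VonNeumannAlgebra H) : ∃ Q ∈ M, IsStarProjection Q ∧ PI M Q ∧
    ∀ q, IsStarProjection q → Q * q = 0 → PI M q → q = 0 := by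
  let 𝒮 : Set (Bool → (H →L[ℂ] H)) := {v | (∀ i, v i ∈ M) ∧
    IsStarProjection (star (v true) * v true) ∧
    star (v false) * v false = star (v true) * v true ∧ star (v true) * v false = 0 ∧
    ∀ i, star (v true) * v true * v i = v i}
  have hS : ∀ v ∈ 𝒮, IsStarProjection (star (v true) * v true) ∧
      ∀ i, star (v i) * v i = star (v true) * v true := fun v hv =>
    ⟨hv.2.1, fun i => by cases i; exacts [hv.2.2.1, rfl]⟩
  obtain ⟨v, hv, hmax⟩ := zorn H Bool true 𝒮
    ⟨fun _ => zero_mem _, by simp, rfl, by simp, by simp⟩ hS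
    (fun v hv v' hv' h1 h2 => by
      have h1' : ∀ i j, star (v' i) * v j = 0 := fun i j => by simpa using zorn_star (h1 j i)
      have h2' : v' true * star (v true) = 0 := by simpa using zorn_star h2
      have h3 : ∀ i j, star ((v + v') i) * (v + v') j = star (v i) * v j + star (v' i) * v' j := by
        intro i j
        rw [Pi.add_apply, Pi.add_apply, star_add, add_mul, mul_add, mul_add, h1, h1', add_zero,
          zero_add]
      have h4 : star (v true) * v true * (star (v' true) * v' true) = 0 := by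
        rw [mul_assoc, zorn_ext h2, zero_mul, mul_zero]
      have h5 : star (v' true) * v' true * (star (v true) * v true) = 0 := by
        rw [mul_assoc, zorn_ext h2', zero_mul, mul_zero]
      refine ⟨fun i => add_mem (hv.1 i) (hv'.1 i), ?_, ?_, ?_, fun i => ?_⟩
      · rw [h3]
        exact hv.2.1.add hv'.2.1 h4
      · rw [h3, h3, hv.2.2.1, hv'.2.2.1]
      · rw [h3, hv.2.2.2.1, hv'.2.2.2.1, add_zero]
      · rw [h3, Pi.add_apply, add_mul, mul_add, mul_add, hv.2.2.2.2, hv'.2.2.2.2]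
        rw [← hv'.2.2.2.2 i, zorn_ext h4, hv'.2.2.2.2 i, zero_mul, add_zero]
        congr 1
        conv_lhs => rw [← hv.2.2.2.2 i, zorn_ext h5, zero_mul, zero_add])
    (fun Λ l _ v V hv h1 h2 => by
      have h1' : ∀ i, ZornSL l (fun a => v a i) (V i) := h1
      have h2' : ∀ i, ZornSL l (fun a => star (v a i)) (star (V i)) := h2
      have hb : ∀ a i, ‖v a i‖ ≤ 1 := fun a i =>
        vn1_norm_le_one (hS _ (hv a)).1 ((hS _ (hv a)).2 i)
      have h3 : ∀ i j, ZornSL l (fun a => star (v a i) * v a j) (star (V i) * V j) := fun i j =>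
        (h2' i).mul (h1' j) fun a => by rw [norm_star]; exact hb a i
      have h4 : ∀ {g : Λ → (H →L[ℂ] H)} {G}, ZornSL l g G →
          ZornSL l (fun a => star (v a true) * v a true * g a) (star (V true) * V true * G) :=
        fun hg => (h3 true true).mul hg fun a => (hv a).2.1.norm_le
      refine ⟨fun i => (h1' i).mem fun a => (hv a).1 i, ⟨?_, ?_⟩, ?_, ?_, fun i => ?_⟩
      · exact (h4 (h3 true true)).eq_of (h3 true true)
          (Eventually.of_forall fun a => (hv a).2.1.isIdempotentElem)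
      · exact IsSelfAdjoint.star_mul_self _
      · exact (h3 false false).eq_of (h3 true true) (Eventually.of_forall fun a => (hv a).2.2.1)
      · exact (h3 true false).eq_of (ZornSL.const _ 0)
          (Eventually.of_forall fun a => (hv a).2.2.2.1)
      · exact (h4 (h1' i)).eq_of (h1' i) (Eventually.of_forall fun a => (hv a).2.2.2.2 i))
  refine ⟨star (v true) * v true, mul_mem (star_mem (hv.1 _)) (hv.1 _), hv.2.1,
    ⟨v true, hv.1 _, v false, hv.1 _, rfl, hv.2.2.1, hv.2.2.2.1, hv.2.2.2.2 _, hv.2.2.2.2 _⟩, ?_⟩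
  rintro q hq hQq ⟨s₁, m₁, s₂, m₂, e₁, e₂, e₃, e₄, e₅⟩
  let v' : Bool → (H →L[ℂ] H) := fun b => cond b s₁ s₂
  have h1 : ∀ j, q * v' j = v' j := fun j => by cases j; exacts [e₅, e₄]
  have h2 : v' true = 0 := by
    refine hmax v' ⟨fun i => by cases i; exacts [m₂, m₁], ?_, e₂.trans e₁.symm, e₃, fun i => ?_⟩
      (fun i j => ?_) ?_
    · change IsStarProjection (star s₁ * s₁)
      rwa [e₁]
    · change star s₁ * s₁ * v' i = v' i
      rw [e₁, h1]
    · have h3 := zorn_star (hv.2.2.2.2 i)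
      rw [hv.2.1.isSelfAdjoint.star_eq] at h3
      rw [← h3, ← h1, mul_assoc, zorn_ext hQq, zero_mul, mul_zero]
    · have h3 := zorn_star (vn1_mul_proj hq e₁)
      rw [hq.isSelfAdjoint.star_eq] at h3
      change v true * star s₁ = 0
      rw [← h3, ← vn1_mul_proj hv.2.1 rfl, mul_assoc, zorn_ext hQq, zero_mul, mul_zero]
  have h3 : s₁ = 0 := h2
  rw [← e₁, h3, mul_zero]

end

theorem decomp (hc : CSuppStmt.{u}) : DecompStmt.{u} := by
  intro H _ _ _ M
  obtain ⟨Q, hQM, hQ, ⟨s₁, m₁, s₂, m₂, e₁, e₂, e₃, e₄, e₅⟩, hmax⟩ := zorn_maxPI M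
  obtain ⟨z, hz, hzQ, -, hz0⟩ := hc H M Q hQM
  have hQQ : Q * Q = Q := hQ.isIdempotentElem
  have hzz : z * z = z := hz.proj.isIdempotentElem
  have hQz : Q * z = Q := by rw [← hz.comm Q hQM, hzQ]
  refine ⟨z, hz, ?_, fun q _ hq hzq hPI => hmax q hq ?_ hPI⟩
  swap
  · rw [← hzq, ← mul_assoc, mul_sub, hQz, mul_one, sub_self, zero_mul]
  have hr : IsStarProjection (z - Q) := hQ.sub_of_mul_eq_left hz.proj hQz
  have hrM : z - Q ∈ M := sub_mem hz.mem hQM
  have hQr : Q * (z - Q) = 0 := by rw [mul_sub, hQz, hQQ, sub_self]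
  have hzr : z * (z - Q) = z - Q := by rw [mul_sub, hzQ, hzz]
  set r := z - Q with hrdef
  obtain ⟨w, hwM, hiso, hw, hmx⟩ := maxIso H M Q r hQ hr hQM hrM
  have hQw : Q * w = w := by
    conv_lhs => rw [← hw]
    rw [mul_assoc, zorn_ext hQQ, ← mul_assoc, hw]
  have hwr : w * r = w := by
    conv_lhs => rw [← hw]
    rw [mul_assoc, show r * r = r from hr.isIdempotentElem, hw]
  have hwQ : star w * Q = star w := by
    have := zorn_star hQw
    rwa [hQ.isSelfAdjoint.star_eq] at this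
  have hrw : r * star w = star w := by
    have := zorn_star hwr
    rwa [hr.isSelfAdjoint.star_eq] at this
  have hsM : star w ∈ M := star_mem hwM
  have haM : Q - w * star w ∈ M := sub_mem hQM (mul_mem hwM hsM)
  obtain ⟨z₁, hz₁, hz₁a, -, hz₁0⟩ := hc H M _ haM
  have hb : (r - star w * w) * z₁ = 0 := hz₁0 _ fun x hx => by
    have := congrArg star (hmx (star x) (star_mem hx))
    simpa only [star_mul, star_sub, star_star, hQ.isSelfAdjoint.star_eq, hr.isSelfAdjoint.star_eq,
      star_zero, mul_assoc] using this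
  have hy : IsStarProjection (1 - z₁) := hz₁.proj.one_sub
  have hyc : ∀ x ∈ M, (1 - z₁) * x = x * (1 - z₁) := fun x hx => by
    rw [sub_mul, mul_sub, one_mul, mul_one, hz₁.comm x hx]
  have hyM : 1 - z₁ ∈ M := sub_mem (one_mem _) hz₁.mem
  have hya : (1 - z₁) * (Q - w * star w) = 0 := by rw [sub_mul, one_mul, hz₁a, sub_self]
  set y := 1 - z₁ with hydef
  have hyy : y * y = y := hy.isIdempotentElem
  have hys : star y = y := hy.isSelfAdjoint
  have hyQ : y * Q = y * (w * star w) := by rwa [mul_sub, sub_eq_zero] at hya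
  have hc' : ∀ x ∈ M, ∀ t, x * (y * t) = y * (x * t) := fun x hx t => by
    rw [← mul_assoc, ← hyc x hx, mul_assoc]
  have hyQ' : ∀ t, y * (w * (star w * t)) = y * (Q * t) := fun t => by
    rw [← mul_assoc w, ← mul_assoc, ← hyQ, mul_assoc]
  have hsiso : ∀ t, star w * (w * (star w * t)) = star w * t := fun t => by
    have := congrArg (fun x => star x * t) hiso
    simpa only [star_mul, star_star, mul_assoc] using this
  have key : ∀ a ∈ M, ∀ b ∈ M, Q * b = b →
      star (y * (star w * (a * w))) * (y * (star w * (b * w))) =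
        y * (star w * (star a * b * w)) := by
    intro a ha b hb h
    simp only [star_mul, star_star, hys, mul_assoc]
    rw [hc' w hwM, hc' w hwM, zorn_ext hyy, hyQ', zorn_ext h, hc' _ (star_mem ha), hc' _ hsM]
  have hq' : y * (star w * w) = 0 := by
    refine hmax _ (hy.mul (vn1_isStarProjection_of hiso) (hyc _ (mul_mem hsM hwM))) ?_
      ⟨y * (star w * (s₁ * w)), mul_mem hyM (mul_mem hsM (mul_mem m₁ hwM)),
        y * (star w * (s₂ * w)), mul_mem hyM (mul_mem hsM (mul_mem m₂ hwM)), ?_, ?_, ?_, ?_, ?_⟩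
    · rw [hc' Q hQM, ← hrw, mul_assoc, zorn_ext hQr, zero_mul, mul_zero]
    · rw [key _ m₁ _ m₁ e₄, e₁, hQw]
    · rw [key _ m₂ _ m₂ e₅, e₂, hQw]
    · rw [key _ m₁ _ m₂ e₅, e₃, zero_mul, mul_zero, mul_zero]
    · rw [mul_assoc, hc' _ (mul_mem hsM hwM), zorn_ext hyy, mul_assoc, hsiso]
    · rw [mul_assoc, hc' _ (mul_mem hsM hwM), zorn_ext hyy, mul_assoc, hsiso]
  have hyw : y * w = 0 := by
    rw [← hiso, mul_assoc, ← hc' w hwM, hq', mul_zero]
  have hyz : y * z = 0 := hz0 y fun x hx => by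
    rw [hyc x hx, mul_assoc, hyQ, zorn_ext hyw, zero_mul, mul_zero]
  have hzz₁ : z₁ * z = z := by
    rw [hydef, sub_mul, one_mul, sub_eq_zero] at hyz
    exact hyz.symm
  have hww : star w * w = r := by
    have hbM : r - star w * w ∈ M := sub_mem hrM (mul_mem hsM hwM)
    have h1 : z * (r - star w * w) = r - star w * w := by
      rw [mul_sub, hzr, ← hrw, mul_assoc, zorn_ext hzr]
    rw [← h1, ← hz₁.comm _ (mul_mem hz.mem hbM), zorn_ext hzz₁, h1, sub_eq_zero] at hb
    exact hb.symm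
  have e₃' : star s₂ * s₁ = 0 := by simpa using zorn_star e₃
  have ht : star (s₁ + s₂ * w) * (s₁ + s₂ * w) = z := by
    rw [star_add, star_mul, add_mul, mul_add, mul_add, e₁, zorn_ext e₃, mul_assoc, e₃', mul_assoc,
      zorn_ext e₂, hQw, hww, hrdef]
    simp
  have hQt : Q * (s₁ + s₂ * w) = s₁ + s₂ * w := by rw [mul_add, e₄, zorn_ext e₅]
  have htM : s₁ + s₂ * w ∈ M := add_mem m₁ (mul_mem m₂ hwM)
  set t := s₁ + s₂ * w
  refine ⟨s₁ * t, mul_mem m₁ htM, s₂ * t, mul_mem m₂ htM, ?_, ?_, ?_, ?_, ?_⟩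
  · rw [star_mul, mul_assoc, zorn_ext e₁, hQt, ht]
  · rw [star_mul, mul_assoc, zorn_ext e₂, hQt, ht]
  · rw [star_mul, mul_assoc, zorn_ext e₃, zero_mul, mul_zero]
  · rw [← e₄, mul_assoc, zorn_ext hzQ]
  · rw [← e₅, mul_assoc, zorn_ext hzQ]

theorem finCover (hc : CSuppStmt.{u}) : FinCoverStmt.{u} := by
  classical
  intro H _ _ _ M z₀ e hz₀ hN heM he hze he0
  have hee : e * e = e := he.isIdempotentElem
  have hes : star e = e := he.isSelfAdjoint
  let P : (H →L[ℂ] H) → Prop := fun a => a ∈ M ∧ z₀ * a = a ∧ star a * a = e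
  let 𝒮 : Set (Set (H →L[ℂ] H)) := {T | (∀ a ∈ T, P a) ∧ T.Pairwise fun a b => star a * b = 0}
  obtain ⟨T, hT0, hT⟩ := zorn_subset_nonempty 𝒮 (fun c hc hch _ =>
    ⟨⋃₀ c, ⟨fun a ⟨t, ht, ha⟩ => (hc ht).1 a ha, hch.pairwise_sUnion.2 fun t ht => (hc ht).2⟩,
      fun s hs => Set.subset_sUnion_of_mem hs⟩) {e}
    ⟨by rintro a rfl; exact ⟨heM, hze, by rw [hes, hee]⟩, Set.pairwise_singleton _ _⟩
  have horth : ∀ {ι : Type} [DecidableEq ι] (v : ι → T), Function.Injective v →
      ∀ i j, star (v i : H →L[ℂ] H) * v j = if i = j then e else 0 := by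
    intro ι _ v hv i j
    split_ifs with h
    · rw [h]
      exact (hT.prop.1 _ (v j).2).2.2
    · exact hT.prop.2 (v i).2 (v j).2 fun h' => h (hv (Subtype.ext h'))
  have hfin : T.Finite := by
    by_contra hinf
    let v := Set.Infinite.natEmbedding T hinf
    exact he0 (seq H M z₀ e hN he (fun n => v n) (fun n => (hT.prop.1 _ (v n).2).1)
      (fun n => (hT.prop.1 _ (v n).2).2.1) (horth v v.injective))
  have : Finite T := hfin
  have : Nonempty T := ⟨⟨e, hT0 rfl⟩⟩
  obtain ⟨k, hk⟩ := Nat.exists_eq_succ_of_ne_zero (Nat.card_pos (α := T)).ne'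
  let φ : Fin (k + 1) ≃ T := (Finite.equivFinOfCardEq hk).symm
  let v : Fin (k + 1) → (H →L[ℂ] H) := fun i => φ i
  have hv : ∀ i j, star (v i) * v j = if i = j then e else 0 := horth φ φ.injective
  have hvM : ∀ i, v i ∈ M := fun i => (hT.prop.1 _ (φ i).2).1
  have hzv : ∀ i, z₀ * v i = v i := fun i => (hT.prop.1 _ (φ i).2).2.1
  have hve : ∀ i, v i * e = v i := fun i => vn1_mul_proj he (by rw [hv, if_pos rfl])
  set E := ∑ i, v i * star (v i) with hE
  have hEM : E ∈ M := sum_mem fun i _ => mul_mem (hvM i) (star_mem (hvM i))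
  have hEv : ∀ i, E * v i = v i := by
    intro i
    rw [hE, Finset.sum_mul, Finset.sum_eq_single i]
    · rw [mul_assoc, hv, if_pos rfl, hve]
    · intro j _ hj
      rw [mul_assoc, hv, if_neg hj, mul_zero]
    · simp
  have hyE : ∀ y : H →L[ℂ] H, (∀ i, y * v i = v i) → y * E = E := by
    intro y hy
    rw [hE, Finset.mul_sum]
    exact Finset.sum_congr rfl fun i _ => zorn_ext (hy i) _
  have hEp : IsStarProjection E :=
    ⟨hyE E hEv, isSelfAdjoint_sum _ fun i _ => IsSelfAdjoint.mul_star_self _⟩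
  have hr : IsStarProjection (z₀ - E) := hEp.sub_of_mul_eq_right hz₀.proj (hyE z₀ hzv)
  have hrv : ∀ i, star (v i) * (z₀ - E) = 0 := by
    intro i
    have h1 : (z₀ - E) * v i = 0 := by rw [sub_mul, hzv, hEv, sub_self]
    have := zorn_star h1
    rwa [hr.isSelfAdjoint.star_eq, star_zero] at this
  have hzr : z₀ * (z₀ - E) = z₀ - E := by
    rw [mul_sub, hyE z₀ hzv, show z₀ * z₀ = z₀ from hz₀.proj.isIdempotentElem]
  set r := z₀ - E with hrdef
  obtain ⟨w, hwM, hiso, hw, hmx⟩ := maxIso H M r e hr he (sub_mem hz₀.mem hEM) heM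
  have hrw : r * w = w := by
    conv_lhs => rw [← hw]
    rw [mul_assoc, zorn_ext (show r * r = r from hr.isIdempotentElem), ← mul_assoc, hw]
  have hwe : w * e = w := by
    conv_lhs => rw [← hw]
    rw [mul_assoc, hee, hw]
  have hew : e * star w = star w := by
    have := zorn_star hwe
    rwa [hes] at this
  have hvw : ∀ i, star (v i) * w = 0 := fun i => by rw [← hrw, zorn_ext (hrv i), zero_mul]
  have hc0 : e - star w * w ≠ 0 := by
    intro h
    have h1 : star w * w = e := (sub_eq_zero.1 h).symm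
    have h2 : ∀ a ∈ T, star a * w = 0 := fun a ha => by
      have := hvw (φ.symm ⟨a, ha⟩)
      simpa [v] using this
    have h3 : insert w T ∈ 𝒮 := by
      refine ⟨?_, hT.prop.2.insert fun a ha _ => ⟨by simpa using zorn_star (h2 a ha), h2 a ha⟩⟩
      rintro a (rfl | ha)
      · exact ⟨hwM, by rw [← hrw, zorn_ext hzr], h1⟩
      · exact hT.prop.1 a ha
    have h4 : w ∈ T := hT.le_of_ge h3 (Set.subset_insert _ _) (Set.mem_insert _ _)
    exact he0 (h1.symm.trans (h2 w h4))
  have hec : e * (e - star w * w) = e - star w * w := by rw [mul_sub, hee, zorn_ext hew]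
  obtain ⟨z, hz, hzc, -, hz0⟩ := hc H M (e - star w * w)
    (sub_mem heM (mul_mem (star_mem hwM) hwM))
  have hzz : z * z = z := hz.proj.isIdempotentElem
  have hzs : star z = z := hz.proj.isSelfAdjoint
  have hz₀z : z₀ * z = z := by
    have := hz0 (1 - z₀) fun x hx => by
      rw [sub_mul, one_mul, hz₀.comm x hx, sub_mul, mul_assoc, ← hec, zorn_ext hze, sub_self]
    rw [sub_mul, one_mul, sub_eq_zero] at this
    exact this.symm
  have hc' : ∀ x ∈ M, ∀ t, x * (z * t) = z * (x * t) := fun x hx t => by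
    rw [← mul_assoc, ← hz.comm x hx, mul_assoc]
  have h1 : ∀ a ∈ M, ∀ b, star (z * a) * (z * b) = z * (star a * b) := fun a ha b => by
    rw [star_mul, hzs, mul_assoc, zorn_ext hzz, hc' _ (star_mem ha)]
  have h2 : ∀ a ∈ M, z * a * star (z * a) = z * (a * star a) := fun a ha => by
    rw [star_mul, hzs, ← hz.comm _ (star_mem ha), mul_assoc, hc' _ ha, zorn_ext hzz]
  refine ⟨z, k, fun i => z * v i, z * w, hz, hz₀z, fun h => hc0 ?_,
    fun i => mul_mem hz.mem (hvM i), mul_mem hz.mem hwM, fun i j => ?_, fun i => ?_, ?_, ?_, ?_⟩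
  · rw [← hzc, ← hec, zorn_ext h, zero_mul]
  · rw [h1 _ (hvM i), hv]
    split_ifs
    · rfl
    · exact mul_zero _
  · rw [h1 _ (hvM i), hvw, mul_zero]
  · rw [h2 _ hwM, mul_assoc, hc' _ (mul_mem hwM (star_mem hwM)), zorn_ext hzz, hiso]
  · rw [mul_assoc, hc' _ hwM, zorn_ext hzz, hwe]
  · have h3 := hz0 _ hmx
    rw [← hz.comm _ (sub_mem (sub_mem hz₀.mem hEM) (mul_mem hwM (star_mem hwM))), mul_sub,
      mul_sub, hz.comm _ hz₀.mem, hz₀z, sub_sub, sub_eq_zero] at h3
    rw [Finset.sum_congr rfl fun i _ => h2 _ (hvM i), h2 _ hwM, ← Finset.mul_sum]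
    exact h3.symm

end Crest.Agent.R121
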