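import Crest.Agent.R121.Final
import Crest.Agent.R121.TypeI
import Crest.Agent.R121.Dix
import Crest.Agent.R121.Pietsch
import Crest.Agent.R121.Tree
import Crest.Agent.R121.Normal
import Crest.Agent.R121.Slice
import Crest.Agent.R121.Sim
import Crest.Agent.R121.Assemble
import Crest.Agent.R121.Vec
import Crest.Agent.R121.Zorn
import Crest.Agent.R121.CornerTrace
import Crest.Agent.R121.Trace
import Crest.Agent.R121.CS
import Crest.Agent.R121.Homotopy

/-! # Vanishing of Hochschild cohomology of von Neumann algebras with norm control. -/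

set_option autoImplicit false
set_option linter.unusedSectionVars false

open scoped InnerProductSpace Topology
open Filter Crest.Agent.Lib.Tracial Crest.OpAlg

noncomputable section

namespace Crest.Agent.R121

open HomAlg HomCB

universe u

theorem assembleN (A : Type u) [CStarAlgebra A] (D : Pred A) (S : Set (Fl D → Fl D))
    (hS : S ⊆ cS D) (Q : ℝ → Set (Fl D)) (hQc : ∀ r, IsClosed (Q r)) (hQv : ∀ r, Convex ℝ (Q r))
    (hQl : ∀ r, ∀ c ∈ Q r, LinB r (c : A → A)) (hQi : ∀ r, ∀ θ ∈ S, ∀ c ∈ Q r, θ c ∈ Q r)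
    (e : A) (he : ∀ x, e * x = x * e) (he1 : ‖e‖ ≤ 1)
    (hmin : ∀ (r : ℝ) (K : Set (Fl D)), IsMin S K → K ⊆ Q r →
        ∀ c ∈ K, ∀ a y, e * (c (a * y) - a * c y) = 0)
    (n : ℕ) (f : ContinuousMultilinearMap ℂ (fun _ : Fin (n + 1) => A) A)
    (hf : ∀ a : Fin (n + 2) → A, Crest.OpAlg.hochschildDiff f a = 0)
    (C : ℝ) (hC0 : 0 ≤ C) (hC : ∀ x : Fin n → A,
        (fun y => f (Fin.cons y x) : A → A) ∈ Q (C * ∏ i, ‖x i‖)) :
    ∃ g : ContinuousMultilinearMap ℂ (fun _ : Fin n => A) A,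
      (∀ a : Fin (n + 1) → A, Crest.OpAlg.hochschildDiff g a = e * f a) ∧ ‖g‖ ≤ C := by
  classical
  let S' : Set (((Fin n → A) → Fl D) → ((Fin n → A) → Fl D)) :=
    {Θ | ∃ θ ∈ S, Θ = fun Φ x => θ (Φ x)}
  let K1 : Set ((Fin n → A) → Fl D) := {Φ | ∀ x, Φ x ∈ Q (C * ∏ i, ‖x i‖)}
  let L : Set ((Fin n → A) → Fl D) := {Φ |
    (∀ x i a b y, Φ (Function.update x i (a + b)) y =
      Φ (Function.update x i a) y + Φ (Function.update x i b) y) ∧
    (∀ x i (t : ℂ) a y, Φ (Function.update x i (t • a)) y = t • Φ (Function.update x i a) y) ∧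
    ∀ (y : A) (a : Fin (n + 1) → A), y * f a = Φ (fun i => a i.succ) (y * a 0) +
      ∑ j : Fin n, ((-1 : ℤ) ^ (j.val + 1)) • Φ (mergeArgs j a) y +
      ((-1 : ℤ) ^ (n + 1)) • (Φ (fun i => a i.castSucc) y * a (Fin.last n))}
  have hw : ∀ x y, WCont D fun Φ : (Fin n → A) → Fl D => Φ x y := fun x y =>
    (wcont_eval y).comp (continuous_apply x)
  have hK1 : IsCompact K1 := by
    have : K1 = Set.pi Set.univ fun x => Q (C * ∏ i, ‖x i‖) := by
      ext Φ
      simp [K1]
    rw [this]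
    exact isCompact_univ_pi fun x =>
      (isCompact_linB _).of_isClosed_subset (hQc _) fun c hc => hQl _ c hc
  have hL : IsClosed L := by
    simp only [L, Set.ofPred_and, Set.ofPred_forall]
    refine (isClosed_iInter fun x => isClosed_iInter fun i => isClosed_iInter fun a =>
      isClosed_iInter fun b => isClosed_iInter fun y =>
        (hw _ _).isClosed_eq ((hw _ _).add (hw _ _))).inter
      ((isClosed_iInter fun x => isClosed_iInter fun i => isClosed_iInter fun t =>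
        isClosed_iInter fun a => isClosed_iInter fun y =>
          (hw _ _).isClosed_eq ((hw _ _).smul t)).inter
      (isClosed_iInter fun y => isClosed_iInter fun a => (WCont.const (D := D) _).isClosed_eq ?_))
    exact ((hw _ _).add (WCont.sum _ fun j _ => (hw _ _).zsmul _)).add
      (((hw _ _).mul_right _).zsmul _)
  have hgood : Good S' (K1 ∩ L) := by
    refine ⟨⟨fun x y => f (Fin.cons y x), hC, ?_, ?_, ?_⟩, hK1.inter_right hL, ?_, ?_⟩
    · intro x i a b y
      show f (Fin.cons y _) = f (Fin.cons y _) + f (Fin.cons y _)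
      simp only [Fin.cons_update]
      exact f.map_update_add _ _ _ _
    · intro x i t a y
      show f (Fin.cons y _) = t • f (Fin.cons y _)
      simp only [Fin.cons_update]
      exact f.map_update_smul _ _ _ _
    · exact assemble_cocycle f hf
    · refine Convex.inter (fun Φ hΦ Ψ hΨ s t hs ht hst x => hQv _ (hΦ x) (hΨ x) hs ht hst) ?_
      rintro Φ ⟨h1, h2, h3⟩ Ψ ⟨h1', h2', h3'⟩ s t _ _ hst
      refine ⟨fun x i a b y => ?_, fun x i r a y => ?_, fun y a => ?_⟩
      · simp only [Pi.add_apply, Pi.smul_apply, Fl.add_apply, Fl.smul_apply, h1, h1', smul_add]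
        abel
      · simp only [Pi.add_apply, Pi.smul_apply, Fl.add_apply, Fl.smul_apply, h2, h2', smul_add]
        rw [smul_comm s r, smul_comm t r]
      · calc y * f a = s • (y * f a) + t • (y * f a) := by rw [← add_smul, hst, one_smul]
          _ = _ := by
            conv_lhs => rw [h3' y a]; arg 1; rw [← h3' y a, h3 y a]
            simp only [Pi.add_apply, Pi.smul_apply, Fl.add_apply, Fl.smul_apply, smul_add,
              Finset.sum_add_distrib, Finset.smul_sum, add_mul, smul_mul_assoc,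
              smul_comm s (_ : ℤ), smul_comm t (_ : ℤ)]
            abel
    · rintro _ ⟨θ, hθ, rfl⟩ Φ ⟨hΦ, h1, h2, h3⟩
      refine ⟨fun x => hQi _ θ hθ _ (hΦ x), ?_⟩
      obtain ⟨ι, _, m, hm, rfl⟩ := hS hθ
      refine ⟨fun x i a b y => ?_, fun x i r a y => ?_, fun y a => ?_⟩
      · simp only [cact_apply, h1, mul_add, Finset.sum_add_distrib]
      · simp only [cact_apply, h2, mul_smul_comm, Finset.smul_sum]
      · calc y * f a = ∑ k, star (m k) * (m k * y * f a) := by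
              simp only [← mul_assoc, ← Finset.sum_mul, hm, one_mul]
          _ = _ := by
            simp only [h3, cact_apply, mul_add, Finset.sum_add_distrib, Finset.mul_sum,
              mul_smul_comm, Finset.smul_sum, Finset.sum_mul, mul_assoc]
            rw [Finset.sum_comm]
  obtain ⟨K, hKs, hK⟩ := hgood.exists_min
  obtain ⟨Φ, hΦK⟩ := hK.ne
  obtain ⟨hΦ, h1, h2, h3⟩ := hKs hΦK
  have hmod : ∀ x a y, e * (Φ x (a * y) - a * Φ x y) = 0 := by
    intro x
    have him : IsMin S ((fun Ψ : (Fin n → A) → Fl D => Ψ x) '' K) :=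
      hK.image _ (continuous_apply x) ⟨fun _ _ => rfl, fun _ _ => rfl⟩
        (fun θ hθ => ⟨_, ⟨θ, hθ, rfl⟩, fun _ => rfl⟩)
        (by rintro _ ⟨θ, hθ, rfl⟩; exact ⟨θ, hθ, fun _ => rfl⟩)
    refine hmin (C * ∏ i, ‖x i‖) _ him ?_ _ ⟨Φ, hΦK, rfl⟩
    rintro _ ⟨Ψ, hΨ, rfl⟩
    exact (hKs hΨ).1 x
  let g0 : MultilinearMap ℂ (fun _ : Fin n => A) A :=
    { toFun := fun x => e * Φ x 1
      map_update_add' := by
        intro inst x i a b
        obtain rfl : inst = instDecidableEqFin n := Subsingleton.elim _ _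
        rw [h1, mul_add]
      map_update_smul' := by
        intro inst x i t a
        obtain rfl : inst = instDecidableEqFin n := Subsingleton.elim _ _
        rw [h2, mul_smul_comm] }
  have hb : ∀ x, ‖g0 x‖ ≤ C * ∏ i, ‖x i‖ := fun x => by
    have hp : 0 ≤ C * ∏ i, ‖x i‖ := mul_nonneg hC0 (Finset.prod_nonneg fun _ _ => norm_nonneg _)
    have h1 : ‖(1 : A)‖ ≤ 1 := by
      rcases subsingleton_or_nontrivial A with h | h
      · rw [Subsingleton.elim (1 : A) 0]; simp
      · simp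
    calc ‖e * Φ x 1‖ ≤ ‖e‖ * ‖Φ x 1‖ := norm_mul_le _ _
      _ ≤ 1 * ((C * ∏ i, ‖x i‖) * ‖(1 : A)‖) := by
          gcongr
          exact (hQl _ _ (hΦ x)).bd 1
      _ ≤ 1 * ((C * ∏ i, ‖x i‖) * 1) := by gcongr
      _ = _ := by ring
  refine ⟨g0.mkContinuous C hb, fun a => ?_, MultilinearMap.mkContinuous_norm_le _ hC0 _⟩
  · have h4 := hmod (fun i => a i.succ) (a 0) 1
    rw [mul_sub, sub_eq_zero, mul_one] at h4
    have h5 := h3 1 a
    rw [one_mul, one_mul] at h5
    unfold hochschildDiff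
    change a 0 * (e * Φ _ 1) + (∑ j : Fin n, ((-1 : ℤ) ^ (j.val + 1)) • (e * Φ _ 1)) +
      ((-1 : ℤ) ^ (n + 1)) • (e * Φ _ 1 * a (Fin.last n)) = _
    rw [h5, mul_add, mul_add, h4, Finset.mul_sum, ← mul_assoc, ← he, mul_assoc]
    simp only [mul_smul_comm, mul_assoc]

open HomLim in
lemma exists_limN {A : Type u} [CStarAlgebra A] {D : Pred A} {n : ℕ} {g : ℕ → Ch A n}
    (hg : ∀ k, g k ∈ ML n) {R : ℝ} (hR : 0 ≤ R) (hb : ∀ k, Bd R (g k)) :
    ∃ G : ContinuousMultilinearMap ℂ (fun _ : Fin n => A) A, ‖G‖ ≤ R ∧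
      ∀ x, WLim D (fun k => g k x) (G x) := by
  obtain ⟨G, hG⟩ := exists_lim (D := D) hg hb
  refine ⟨G, ContinuousMultilinearMap.opNorm_le_bound hR fun x => ?_, hG⟩
  obtain ⟨a, ha, hl⟩ := D.cpt ((hyperfilter ℕ).map fun k => g k x) _
      (Filter.eventually_map.2 (Eventually.of_forall fun k => hb k x))
  have : G x = a := (hG x).unique hl
  rwa [this]

open HomLim in
theorem homotopyN (H : Type u) [NormedAddCommGroup H] [InnerProductSpace ℂ H] [CompleteSpace H]
    (M : VonNeumannAlgebra H) (D : Pred (Alg M)) (hD : D.Ω = vecSpan M)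
    (z : Alg M) (hz : CProj M (z : H →L[ℂ] H)) (hPI : PI M (z : H →L[ℂ] H))
    (n : ℕ) (f : ContinuousMultilinearMap ℂ (fun _ : Fin (n + 1) => Alg M) (Alg M))
    (hf : ∀ a : Fin (n + 2) → Alg M, Crest.OpAlg.hochschildDiff f a = 0) :
    ∃ (h : ContinuousMultilinearMap ℂ (fun _ : Fin n => Alg M) (Alg M))
      (f' : ContinuousMultilinearMap ℂ (fun _ : Fin (n + 1) => Alg M) (Alg M)),
      ‖h‖ ≤ (n + 1) * ‖f‖ ∧
      (∀ a, f' a = z * f a - Crest.OpAlg.hochschildDiff h a) ∧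
      (∀ a : Fin (n + 2) → Alg M, Crest.OpAlg.hochschildDiff f' a = 0) ∧
      ∀ x : Fin n → Alg M, LinB ((2 * ‖f‖) * ∏ i, ‖x i‖) (fun y => f' (Fin.cons y x)) ∧
        CB M ((2 * ‖f‖) * ∏ i, ‖x i‖) (fun y => f' (Fin.cons y x)) := by
  classical
  obtain ⟨s₁, m₁, s₂, m₂, h1, h2, h12, hz1, -⟩ := hPI
  have hc : ∀ x : Alg M, z * x = x * z := fun x => Subtype.ext (hz.comm x x.2)
  have hzz : z * z = z := Subtype.ext hz.proj.isIdempotentElem
  obtain ⟨t₀, ht₀⟩ := exists_orth (z := z) (s₁ := ⟨s₁, m₁⟩) (s₂ := ⟨s₂, m₂⟩) hc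
    (Subtype.ext hz.proj.isSelfAdjoint) hzz (Subtype.ext h1) (Subtype.ext h2) (Subtype.ext h12)
    (Subtype.ext hz1)
  let t : ∀ k : ℕ, ZMod (k + 1) → Alg M := fun k l => t₀ l.val
  have ht : ∀ k, Orth z (t k) := fun k => orth_comp ht₀ ⟨_, ZMod.val_injective (k + 1)⟩
  have hML : (f : Ch (Alg M) (n + 1)) ∈ ML (n + 1) := ML_of_multilinear _ f.toMultilinearMap
  have hbd : Bd ‖f‖ (f : Ch (Alg M) (n + 1)) := f.le_opNorm
  have hav : ∀ k, ∑ l, ‖af (t k) l‖ * ‖t k l‖ ≤ 1 := fun k => avg_norm (norm_t (ht k))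
  obtain ⟨h, hhn, hh⟩ := exists_limN (D := D) (g := fun k => HH (af (t k)) (t k) n f)
    (fun k => HH_ML _ _ hML) (by positivity) (fun k => HH_bd (hav k) (norm_nonneg f) hbd)
  obtain ⟨f', hfn, hf'⟩ := exists_limN (D := D) (g := fun k => TT (af (t k)) (t k) (n + 1) f)
    (fun k => TT_ML _ _ hML) (norm_nonneg f) (fun k => TT_bd (hav k) (norm_nonneg f) hbd)
  have hd : Crest.OpAlg.hochschildDiff (f : Ch (Alg M) (n + 1)) = 0 := funext hf
  have heq : ∀ a, f' a = z * f a - Crest.OpAlg.hochschildDiff h a := fun a => by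
    refine (hf' a).unique ?_
    simp only [fun k => homot hc (af_sum (ht k)) (z_af (ht k)) (ht k).tz hML hd]
    exact (WLim.const _).sub (WLim.diff hh a)
  refine ⟨h, f', hhn, heq, fun a => ?_, fun x => ⟨⟨?_, fun y => ?_⟩, ?_⟩⟩
  · have : (f' : Ch (Alg M) (n + 1)) =
        z • (f : Ch (Alg M) (n + 1)) - Crest.OpAlg.hochschildDiff h := funext heq
    rw [this, diff_sub, diff_smul hc, hd, diff_diff]
    simp
  · exact ⟨fun y w => f'.toMultilinearMap.cons_add x y w,
      fun c y => f'.toMultilinearMap.cons_smul x c y⟩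
  · have hp : 0 ≤ ∏ i, ‖x i‖ := Finset.prod_nonneg fun _ _ => norm_nonneg _
    have := f'.le_opNorm (HomAlg.cs y x)
    rw [prod_cs] at this
    refine this.trans ?_
    have h0 : 0 ≤ ‖f‖ * (∏ i, ‖x i‖) * ‖y‖ := by positivity
    have h1 : ‖f'‖ * (‖y‖ * ∏ i, ‖x i‖) ≤ ‖f‖ * (‖y‖ * ∏ i, ‖x i‖) := by gcongr
    nlinarith
  · intro I J _ _ X hX η
    have hp : 0 ≤ ∏ i, ‖x i‖ := Finset.prod_nonneg fun _ _ => norm_nonneg _
    refine le_trans (cb_lim hD (fun i j => hf' (HomAlg.cs (X i j) x)) η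
      (B := (‖f‖ * ∏ i, ‖x i‖) ^ 2 * ∑ j, ‖η j‖ ^ 2) ?_) ?_
    · filter_upwards [eventually_ge_atTop (Fintype.card I), eventually_ge_atTop (Fintype.card J)]
        with k hI hJ
      obtain ⟨α⟩ := Function.Embedding.nonempty_of_card_le (α := I) (β := ZMod (k + 1))
        (by rw [ZMod.card]; omega)
      obtain ⟨β⟩ := Function.Embedding.nonempty_of_card_le (α := J) (β := ZMod (k + 1))
        (by rw [ZMod.card]; omega)
      exact level (ht k) hML (norm_nonneg f) hbd x α β X hX η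
    · gcongr
      linarith [norm_nonneg f]

/-- The averaging theorem on the finite part, unconditionally. -/
theorem finiteStmt : FiniteStmt.{u} :=
  finite csupp vec (abel csupp (finCover csupp)) typeI
    (trace (finCover csupp) (cornerTrace zorn csupp seq)) nonAbel
    (typeII modu (tree dix) normal (slice dix) (sim pietsch))

/-- Every bounded cocycle on a von Neumann algebra with values in the algebra is the coboundary of
a cochain of norm at most `(n + 4) ‖f‖`. -/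
theorem unif_coh_explicit (n : ℕ)
    (H : Type u) [NormedAddCommGroup H] [InnerProductSpace ℂ H] [CompleteSpace H]
    (M : VonNeumannAlgebra H)
    (f : ContinuousMultilinearMap ℂ (fun _ : Fin (n + 1) => M.toStarSubalgebra) M.toStarSubalgebra)
    (hf : ∀ a : Fin (n + 2) → M.toStarSubalgebra, hochschildDiff f a = 0) :
    ∃ g : ContinuousMultilinearMap ℂ (fun _ : Fin n => M.toStarSubalgebra) M.toStarSubalgebra,
      (∀ a : Fin (n + 1) → M.toStarSubalgebra, hochschildDiff g a = f a) ∧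
        ‖g‖ ≤ (n + 4) * ‖f‖ := by
  obtain ⟨D, hD⟩ := (vec H M).1
  obtain ⟨z₁, hz₁, hpi, hno⟩ := decomp csupp H M
  set z : Alg M := ⟨z₁, hz₁.mem⟩ with hz
  have hz' : CProj M ((1 - z : Alg M) : H →L[ℂ] H) :=
    ⟨(1 - z).2, hz₁.proj.one_sub, fun x hx => by
      show (1 - z₁) * x = x * (1 - z₁)
      rw [sub_mul, mul_sub, one_mul, mul_one, hz₁.comm x hx]⟩
  have hn1 : ‖(1 : Alg M)‖ ≤ 1 := by
    rcases subsingleton_or_nontrivial (Alg M) with h | h
    · rw [Subsingleton.elim (1 : Alg M) 0]; simp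
    · simp
  obtain ⟨g₁, hg₁, hn₁⟩ := assembleN (Alg M) D (uS D (unitary (Alg M))) (uS_subset_cS le_rfl)
    (fun r => {c : Fl D | LinB r (c : Alg M → Alg M)}) isClosed_linB convex_linB
    (fun r c hc => hc) (by rintro r _ ⟨u, hu, rfl⟩ c hc; exact LinB.uact hc hu) (1 - z)
    (fun x => Subtype.ext (hz'.comm x x.2)) (hz'.proj.norm_le _)
    (fun r K hK hKQ => finiteStmt H M D hD (1 - z) hz' hno r K hK fun c hc => hKQ hc) n f hf ‖f‖
    (norm_nonneg _) (by
      intro x
      refine ⟨⟨fun y y' => f.toMultilinearMap.cons_add x y y',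
        fun t y => f.toMultilinearMap.cons_smul x t y⟩, fun y => ?_⟩
      have := f.le_opNorm (Fin.cons y x)
      rw [Fin.prod_univ_succ] at this
      simp only [Fin.cons_zero, Fin.cons_succ] at this
      calc ‖f (Fin.cons y x)‖ ≤ ‖f‖ * (‖y‖ * ∏ i, ‖x i‖) := this
        _ = ‖f‖ * (∏ i, ‖x i‖) * ‖y‖ := by ring)
  obtain ⟨h, f', hhn, hf', hdf', hcb⟩ := homotopyN H M D hD z hz₁ hpi n f hf
  obtain ⟨g₂, hg₂, hn₂⟩ := assembleN (Alg M) D (cS D) le_rfl
    (fun r => {c : Fl D | LinB r (c : Alg M → Alg M) ∧ CB M r (c : Alg M → Alg M)})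
    (fun r => (cbSet H M D hD r).1) (fun r => (cbSet H M D hD r).2.1) (fun r c hc => hc.1)
    (fun r θ hθ c hc => (cbSet H M D hD r).2.2 θ hθ c hc.1 hc.2) 1 (fun x => by simp) hn1
    (fun r K hK hKQ c hc a y => by
      rw [csStmt H M D hD r K hK (fun c hc => hKQ hc) c hc a y, sub_self, mul_zero]) n f' hdf'
    (2 * ‖f‖) (by positivity) hcb
  refine ⟨g₁ + g₂ + h, fun a => ?_, ?_⟩
  · have e1 : (⇑(g₁ + g₂ + h) : (Fin n → Alg M) → Alg M) =
        fun x => (fun x => g₁ x + g₂ x) x + h x := rfl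
    rw [e1, final_diff_add, final_diff_add, hg₁, hg₂, hf', one_mul, sub_mul, one_mul]
    abel
  · calc ‖g₁ + g₂ + h‖ ≤ ‖g₁‖ + ‖g₂‖ + ‖h‖ := norm_add₃_le
      _ ≤ ‖f‖ + 2 * ‖f‖ + (n + 1) * ‖f‖ := by gcongr
      _ = (n + 4) * ‖f‖ := by ring

/-- Uniform vanishing of the bounded Hochschild cohomology in a fixed degree. -/
theorem unif_coh (n : ℕ) : ∃ K : ℝ, 0 < K ∧
    ∀ (H : Type u) [NormedAddCommGroup H] [InnerProductSpace ℂ H] [CompleteSpace H]
    (M : VonNeumannAlgebra H)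
    (f : ContinuousMultilinearMap ℂ (fun _ : Fin (n + 1) => M.toStarSubalgebra) M.toStarSubalgebra),
    (∀ a : Fin (n + 2) → M.toStarSubalgebra, hochschildDiff f a = 0) →
    ∃ g : ContinuousMultilinearMap ℂ (fun _ : Fin n => M.toStarSubalgebra) M.toStarSubalgebra,
      (∀ a : Fin (n + 1) → M.toStarSubalgebra, hochschildDiff g a = f a) ∧ ‖g‖ ≤ K * ‖f‖ :=
  ⟨n + 4, by positivity, fun H _ _ _ M f hf => unif_coh_explicit n H M f hf⟩

end Crest.Agent.R121
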